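import Vale.Agent.P262.Full.Window

/-!
# P262 full: [C1]-[C4] children of a window, [C5] fresh error of the nonfat directions
-/

open Finset

namespace P262C

variable {ι I : Type} [Fintype I] [DecidableEq I] [DecidableEq ι]

theorem not_thin_ch {X : I → ℝ} {m m' : ℕ} (hp : Par X m m') {i : I}
    (hi : i ∉ Thin (nx X m) m') : i ∉ Thin X m := fun h => hi (Thin_sub hp h)

theorem mp_le_ch {X : I → ℝ} (m : ℕ) (i : I) : max 0 (X i) ≤ max 0 (nx X m i) + 2 * m := by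
  have hm : (0 : ℝ) ≤ m := Nat.cast_nonneg m
  apply max_le
  · have := le_max_left 0 (nx X m i)
    linarith
  · have := le_max_right 0 (nx X m i)
    unfold nx at this ⊢
    linarith

/-- [C1] children satisfy the Gram invariant:
`2^{-2m} p2 (m/8 + (X⁺_i+X⁺_l)/4) + 2·65·p2 (m/16 + (X'⁺_i+X'⁺_l)/4) ≤ p2 (m'/8 + (X'⁺_i+X'⁺_l)/4)`
since `X⁺ ≤ X'⁺ + 2m` and `m' ≥ 399/400 m`; `p2 (X i) / 2^(2m) = p2 (nx X m i)`;
`i ∉ Thin (nx X m) m'` implies `i ∉ Thin X m` (`-16 m' + 2 m ≥ -16 m`). -/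
theorem child_gram {v : ι → I → ℝ} {G : Finset ι} {X : I → ℝ} {m m' : ℕ} {a c : I → ℝ}
    {pos : ι → ℕ} (hp : Par X m m')
    (hgram : ∀ i l, i ∉ Thin X m → l ∉ Thin X m →
      |∑ e ∈ G, v e i * v e l - (if i = l then p2 (X i) else 0)| ≤
        p2 ((m : ℝ) / 8 + (max 0 (X i) + max 0 (X l)) / 4))
    (h : WSplit v G X m m' a c pos) (j : ℕ) (hj : j < 2 ^ (2 * m)) :
    ∀ i l, i ∉ Thin (nx X m) m' → l ∉ Thin (nx X m) m' →
      |∑ e ∈ G.filter (fun e => pos e = j), v e i * v e l -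
        (if i = l then p2 (nx X m i) else 0)| ≤
        p2 ((m' : ℝ) / 8 + (max 0 (nx X m i) + max 0 (nx X m l)) / 4) := by
  intro i l hi hl
  have hi' := not_thin_ch hp hi
  have hl' := not_thin_ch hp hl
  obtain ⟨k₀, d₀, k₁, d₁, hk₀, hd₀, hk₁, hd₁, hs⟩ := child_fun h j hj
  set s : ℝ := (max 0 (nx X m i) + max 0 (nx X m l)) / 4 with hsdef
  have hg := hgram i l hi' hl'
  have hN : (0 : ℝ) < 2 ^ (2 * m) := by positivity
  have hpn : p2 (nx X m i) = p2 (X i) / 2 ^ (2 * m) := by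
    rw [nx, p2_sub, p2_two_mul_nat]
  have e1 : ∑ e ∈ G.filter (fun e => pos e = j), v e i * v e l -
      (if i = l then p2 (nx X m i) else 0) =
      (∑ e ∈ G, v e i * v e l - (if i = l then p2 (X i) else 0)) / 2 ^ (2 * m) +
        (pr G k₁ (fun e => v e i * v e l) + pr G d₁ (fun e => v e i * v e l) -
          pr G k₀ (fun e => v e i * v e l) - pr G d₀ (fun e => v e i * v e l)) := by
    rw [hs (fun e => v e i * v e l), hpn]
    split_ifs <;> ring
  have b0 : |(∑ e ∈ G, v e i * v e l - (if i = l then p2 (X i) else 0)) / 2 ^ (2 * m)| ≤ p2 s := by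
    rw [abs_div, abs_of_pos hN, div_le_iff₀ hN, ← p2_two_mul_nat, ← p2_add]
    refine hg.trans (p2_le ?_)
    have h1 := mp_le_ch (X := X) m i
    have h2 := mp_le_ch (X := X) m l
    have hm := hp.hmR
    rw [hsdef]
    linarith
  have b1 := hk₁.k2 i l hi' hl'
  have b2 := hd₁.d2 i l hi' hl'
  have b3 := hk₀.k2 i l hi' hl'
  have b4 := hd₀.d2 i l hi' hl'
  rw [← hsdef] at b1 b2 b3 b4
  rw [e1]
  have hbig : 131 * p2 ((m : ℝ) / 16 + s) ≤ p2 ((m' : ℝ) / 8 + s) := by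
    apply mul_p2_le' 8 (by norm_num)
    have h1 := hp.h1R
    have hm := hp.hmR
    push_cast
    linarith
  have hsm : p2 s ≤ p2 ((m : ℝ) / 16 + s) := p2_le (by have hm := hp.hmR; linarith)
  rw [abs_le] at b0 b1 b2 b3 b4
  rw [abs_le]
  constructor <;> linarith [b0.1, b0.2, b1.1, b1.2, b2.1, b2.2, b3.1, b3.2, b4.1, b4.2]

theorem gf_nonneg_ch (v : ι → I → ℝ) (X : I → ℝ) (i : I) (e : ι) : 0 ≤ gf v X i e := by
  unfold gf; split_ifs <;> positivity

theorem gf_le_sq_ch (v : ι → I → ℝ) (X : I → ℝ) (i : I) (e : ι) : gf v X i e ≤ v e i ^ 2 := by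
  unfold gf; split_ifs
  · exact le_rfl
  · positivity

theorem gf_sq_ch (v : ι → I → ℝ) (X : I → ℝ) (i : I) (e : ι) :
    gf v X i e ^ 2 ≤ p2 (X i / 2) * gf v X i e := by
  unfold gf
  split_ifs with h
  · rw [sq (v e i ^ 2)]
    apply mul_le_mul_of_nonneg_right _ (sq_nonneg _)
    have h1 : v e i ^ 2 ≤ p2 (X i / 4) ^ 2 := by
      rw [← sq_abs]
      exact pow_le_pow_left₀ (abs_nonneg _) h 2
    rw [p2_sq] at h1
    have h2 : X i / 2 = 2 * (X i / 4) := by ring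
    rw [h2]
    exact h1
  · simp

theorem gf_mono_ch (v : ι → I → ℝ) (X : I → ℝ) (m : ℕ) (i : I) (e : ι) :
    gf v (nx X m) i e ≤ gf v X i e := by
  unfold gf
  have h1 : p2 (nx X m i / 4) ≤ p2 (X i / 4) := by
    apply p2_le
    have hm : (0 : ℝ) ≤ m := Nat.cast_nonneg m
    unfold nx
    linarith
  split_ifs with h2 h3 h3
  · exact le_rfl
  · exact absurd (h2.trans h1) h3
  · positivity
  · exact le_rfl

/-- total square mass of a nonnegative direction -/
theorem sq_sum_ch {v : ι → I → ℝ} {G : Finset ι} {X : I → ℝ} {m m' : ℕ} (hp : Par X m m')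
    (hgram : ∀ i l, i ∉ Thin X m → l ∉ Thin X m →
      |∑ e ∈ G, v e i * v e l - (if i = l then p2 (X i) else 0)| ≤
        p2 ((m : ℝ) / 8 + (max 0 (X i) + max 0 (X l)) / 4)) {i : I} (hi : 0 ≤ X i)
    (hi' : nx X m i < 0) :
    ∑ e ∈ G, v e i ^ 2 ≤ p2 (2 * m + 1 + nx X m i / 2) := by
  have hm := hp.hmR
  have hth : i ∉ Thin X m := by
    rw [mem_Thin]; intro h; linarith
  have hg := hgram i i hth hth
  rw [if_pos rfl, max_eq_right hi] at hg
  have h1 : ∑ e ∈ G, v e i ^ 2 = ∑ e ∈ G, v e i * v e i :=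
    Finset.sum_congr rfl fun e _ => sq _
  rw [h1]
  have h2 := (abs_le.mp hg).2
  have hX : X i = nx X m i + 2 * m := by unfold nx; ring
  have h3 : p2 (X i) ≤ p2 (2 * m + nx X m i / 2) := by
    apply p2_le; rw [hX]; linarith
  have h4 : p2 ((m : ℝ) / 8 + (X i + X i) / 4) ≤ p2 (2 * m + nx X m i / 2) := by
    apply p2_le; rw [hX]; linarith
  have h5 : p2 (2 * m + 1 + nx X m i / 2) = 2 * p2 (2 * m + nx X m i / 2) := by
    rw [show (2 : ℝ) * m + 1 + nx X m i / 2 = 1 + (2 * m + nx X m i / 2) by ring, p2_add, p2_one]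
  rw [h5]
  linarith

/-- [C2] light energy.  With `Y = ∑_G gf (nx X m) i` (`gf² ≤ p2 (X'/2) gf`), `X' = nx X m i`:
child `≤ 2^{-2m} Y + 2 (64 p2 (m/16 - X'/16) + 1) p2 (X'/4) √Y`.
If `X i < 0`: `gf (nx) ≤ gf X`, so `Y ≤ p2 (2m + 3X/8)`; if `X i ≥ 0`: `Y ≤ ∑_G v_i² ≤
p2 (X i) + p2 (m/8 + X i/2) ≤ p2 (2m + 1 + X'/2)`.  Both give `≤ p2 (2 m' + 3 X'/8)`. -/
theorem child_light {v : ι → I → ℝ} {G : Finset ι} {X : I → ℝ} {m m' : ℕ} {a c : I → ℝ}
    {pos : ι → ℕ} (hp : Par X m m')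
    (hgram : ∀ i l, i ∉ Thin X m → l ∉ Thin X m →
      |∑ e ∈ G, v e i * v e l - (if i = l then p2 (X i) else 0)| ≤
        p2 ((m : ℝ) / 8 + (max 0 (X i) + max 0 (X l)) / 4))
    (hlight : ∀ i, X i < 0 → ∑ e ∈ G, gf v X i e ≤ p2 (2 * m + 3 * X i / 8))
    (h : WSplit v G X m m' a c pos) (j : ℕ) (hj : j < 2 ^ (2 * m)) :
    ∀ i, nx X m i < 0 → ∑ e ∈ G.filter (fun e => pos e = j), gf v (nx X m) i e ≤
      p2 (2 * m' + 3 * nx X m i / 8) := by
  intro i hi
  have hm := hp.hmR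
  have hX : X i = nx X m i + 2 * m := by unfold nx; ring
  obtain ⟨k₀, d₀, k₁, d₁, hk₀, hd₀, hk₁, hd₁, hs⟩ := child_fun h j hj
  set Y : ℝ := ∑ e ∈ G, gf v (nx X m) i e with hY
  have hY0 : 0 ≤ Y := Finset.sum_nonneg fun e _ => gf_nonneg_ch _ _ _ _
  have hYb : Y ≤ p2 (11 * m / 4 + 3 * nx X m i / 8) := by
    rcases lt_or_ge (X i) 0 with h0 | h0
    · have h1 : Y ≤ ∑ e ∈ G, gf v X i e :=
        Finset.sum_le_sum fun e _ => gf_mono_ch v X m i e
      refine h1.trans ((hlight i h0).trans (p2_le ?_))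
      rw [hX]; linarith
    · have h1 : Y ≤ ∑ e ∈ G, v e i ^ 2 := Finset.sum_le_sum fun e _ => gf_le_sq_ch _ _ _ _
      refine h1.trans ((sq_sum_ch hp hgram h0 hi).trans (p2_le ?_))
      linarith
  have hsq : ∑ e ∈ G, gf v (nx X m) i e ^ 2 ≤
      p2 (nx X m i / 2) * p2 (11 * m / 4 + 3 * nx X m i / 8) := by
    refine (Finset.sum_le_sum fun e _ => gf_sq_ch v (nx X m) i e).trans ?_
    rw [← Finset.mul_sum]
    exact mul_le_mul_of_nonneg_left hYb (p2_nonneg _)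
  have hsqrt : Real.sqrt (∑ e ∈ G, gf v (nx X m) i e ^ 2) ≤
      p2 (11 * m / 8 + 7 * nx X m i / 16) := by
    refine (Real.sqrt_le_sqrt hsq).trans ?_
    rw [← p2_add, p2_sqrt]
    apply le_of_eq
    congr 1
    ring
  have hk : ∀ k : ι → ℝ, WGood v G X m m' k → |pr G k (gf v (nx X m) i)| ≤
      64 * p2 (23 * m / 16 + 3 * nx X m i / 8) := by
    intro k hk
    refine (hk.k5 i hi).trans ?_
    rw [mul_assoc]
    refine mul_le_mul_of_nonneg_left ?_ (by norm_num)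
    refine (mul_le_mul_of_nonneg_left hsqrt (p2_nonneg _)).trans ?_
    rw [← p2_add]
    apply le_of_eq
    congr 1
    ring
  have hd : ∀ d : ι → ℝ, WDrift v G X m d → |pr G d (gf v (nx X m) i)| ≤
      p2 (23 * m / 16 + 3 * nx X m i / 8) := by
    intro d hd
    refine (drift_own hd _).trans (hsqrt.trans (p2_le ?_))
    linarith
  have e1 : Y / 2 ^ (2 * m) ≤ p2 (23 * m / 16 + 3 * nx X m i / 8) := by
    rw [div_le_iff₀ (by positivity), ← p2_two_mul_nat, ← p2_add]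
    exact hYb.trans (p2_le (by linarith))
  rw [hs (gf v (nx X m) i)]
  have hbig : 131 * p2 (23 * (m : ℝ) / 16 + 3 * nx X m i / 8) ≤
      p2 (2 * (m' : ℝ) + 3 * nx X m i / 8) := by
    apply mul_p2_le' 8 (by norm_num)
    have h1 := hp.h1R
    push_cast
    linarith
  have b1 := abs_le.mp (hk k₁ hk₁)
  have b2 := abs_le.mp (hd d₁ hd₁)
  have b3 := abs_le.mp (hk k₀ hk₀)
  have b4 := abs_le.mp (hd d₀ hd₀)
  have e2 : (∑ e ∈ G, gf v (nx X m) i e) / 2 ^ (2 * m) = Y / 2 ^ (2 * m) := rfl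
  linarith [b1.2, b2.2, b3.1, b4.1]

theorem Tf_nonneg_ch (v : ι → I → ℝ) (X : I → ℝ) (i : I) (e : ι) : 0 ≤ Tf v X i e := by
  unfold Tf; split_ifs <;> positivity

theorem Rf_nonneg_ch (v : ι → I → ℝ) (X : I → ℝ) (m : ℕ) (i : I) (e : ι) :
    0 ≤ Rf v X m i e := by
  unfold Rf; split_ifs <;> positivity

/-- `Tf (nx) ≤ v² / p2 (X'/4)` -/
theorem Tf_le_ch (v : ι → I → ℝ) (X : I → ℝ) (i : I) (e : ι) :
    Tf v X i e ≤ v e i ^ 2 * p2 (-(X i / 4)) := by
  unfold Tf
  split_ifs with h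
  · rw [← sq_abs, p2_neg, ← div_eq_mul_inv, le_div_iff₀ (p2_pos _), sq]
    exact mul_le_mul_of_nonneg_left h.le (abs_nonneg _)
  · exact mul_nonneg (sq_nonneg _) (p2_nonneg _)

theorem Rf_le_ch (v : ι → I → ℝ) (X : I → ℝ) (m : ℕ) (i : I) (e : ι) :
    Rf v X m i e ≤ gf v X i e * p2 (-(nx X m i / 4)) := by
  unfold Rf gf
  split_ifs with h h2 h2
  · rw [← sq_abs, p2_neg, ← div_eq_mul_inv, le_div_iff₀ (p2_pos _), sq]
    exact mul_le_mul_of_nonneg_left h.1.le (abs_nonneg _)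
  · exact absurd h.2 h2
  · exact mul_nonneg (sq_nonneg _) (p2_nonneg _)
  · simp

theorem Rf_sq_ch (v : ι → I → ℝ) (X : I → ℝ) (m : ℕ) (i : I) (e : ι) :
    Rf v X m i e ^ 2 ≤ gf v X i e := by
  unfold Rf gf
  split_ifs with h h2 h2
  · rw [sq_abs]
  · exact absurd h.2 h2
  · rw [zero_pow two_ne_zero]; positivity
  · simp

/-- `Tf (nx) ≤ Tf X + gf X / p2 (X'/4)` -/
theorem Tf_split_ch (v : ι → I → ℝ) (X : I → ℝ) (m : ℕ) (i : I) (e : ι) :
    Tf v (nx X m) i e ≤ Tf v X i e + gf v X i e * p2 (-(nx X m i / 4)) := by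
  by_cases h : |v e i| ≤ p2 (X i / 4)
  · have h1 := Tf_le_ch v (nx X m) i e
    have h2 : gf v X i e = v e i ^ 2 := by unfold gf; rw [if_pos h]
    rw [h2]
    have := Tf_nonneg_ch v X i e
    linarith
  · have h2 : Tf v X i e = |v e i| := by
      unfold Tf; rw [if_pos (not_le.mp h)]
    have h3 : Tf v (nx X m) i e ≤ |v e i| := by
      unfold Tf; split_ifs
      · exact le_rfl
      · positivity
    have h4 := mul_nonneg (gf_nonneg_ch v X i e) (p2_nonneg (-(nx X m i / 4)))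
    linarith

/-- `∑_G gf X / p2 (X'/4)` -/
theorem gf_div_ch {v : ι → I → ℝ} {G : Finset ι} {X : I → ℝ} {m : ℕ}
    (hlight : ∀ i, X i < 0 → ∑ e ∈ G, gf v X i e ≤ p2 (2 * m + 3 * X i / 8)) {i : I}
    (hi : X i < 0) :
    ∑ e ∈ G, gf v X i e * p2 (-(nx X m i / 4)) ≤ p2 (5 * m / 2 + X i / 8) := by
  rw [← Finset.sum_mul]
  refine (mul_le_mul_of_nonneg_right (hlight i hi) (p2_nonneg _)).trans ?_
  rw [← p2_add]
  apply p2_le
  unfold nx
  linarith

/-- [C3] heavy total variation.  `∑_G Tf (nx) i`: if `X i < 0` it is at most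
`∑_G Tf X i + (∑_G gf X i)/p2 (X'/4) ≤ p2 m + p2 (5m/2 + X/8)`; if `X i ≥ 0` at most
`(∑_G v_i²)/p2 (X'/4) ≤ p2 (2m + 1 + X'/4)`.  Child `≤ 2^{-2m}(…) + 2·64 p2 (m/16) + 2 ≤ p2 m'`. -/
theorem child_heavy {v : ι → I → ℝ} {G : Finset ι} {X : I → ℝ} {m m' : ℕ} {a c : I → ℝ}
    {pos : ι → ℕ} (hp : Par X m m')
    (hgram : ∀ i l, i ∉ Thin X m → l ∉ Thin X m →
      |∑ e ∈ G, v e i * v e l - (if i = l then p2 (X i) else 0)| ≤
        p2 ((m : ℝ) / 8 + (max 0 (X i) + max 0 (X l)) / 4))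
    (hlight : ∀ i, X i < 0 → ∑ e ∈ G, gf v X i e ≤ p2 (2 * m + 3 * X i / 8))
    (hheavy : ∀ i, i ∉ Thin X m → X i < 0 → ∑ e ∈ G, Tf v X i e ≤ p2 m)
    (h : WSplit v G X m m' a c pos) (j : ℕ) (hj : j < 2 ^ (2 * m)) :
    ∀ i, i ∉ Thin (nx X m) m' → nx X m i < 0 →
      ∑ e ∈ G.filter (fun e => pos e = j), Tf v (nx X m) i e ≤ p2 m' := by
  intro i hth hi
  have hth' := not_thin_ch hp hth
  have hm := hp.hmR
  have hX : X i = nx X m i + 2 * m := by unfold nx; ring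
  obtain ⟨k₀, d₀, k₁, d₁, hk₀, hd₀, hk₁, hd₁, hs⟩ := child_fun h j hj
  set T : ℝ := ∑ e ∈ G, Tf v (nx X m) i e with hT
  have hTb : T ≤ 2 * p2 (5 * m / 2) := by
    rcases lt_or_ge (X i) 0 with h0 | h0
    · have h1 : T ≤ ∑ e ∈ G, (Tf v X i e + gf v X i e * p2 (-(nx X m i / 4))) :=
        Finset.sum_le_sum fun e _ => Tf_split_ch v X m i e
      rw [Finset.sum_add_distrib] at h1
      have h2 := hheavy i hth' h0
      have h3 := gf_div_ch (m := m) hlight h0
      have h4 : p2 (5 * (m : ℝ) / 2 + X i / 8) ≤ p2 (5 * m / 2) := p2_le (by linarith)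
      have h5 : p2 (m : ℝ) ≤ p2 (5 * m / 2) := p2_le (by linarith)
      linarith
    · have h1 : T ≤ ∑ e ∈ G, v e i ^ 2 * p2 (-(nx X m i / 4)) :=
        Finset.sum_le_sum fun e _ => Tf_le_ch v (nx X m) i e
      rw [← Finset.sum_mul] at h1
      have h2 := mul_le_mul_of_nonneg_right (sq_sum_ch hp hgram h0 hi)
        (p2_nonneg (-(nx X m i / 4)))
      rw [← p2_add] at h2
      have h3 : p2 (2 * (m : ℝ) + 1 + nx X m i / 2 + -(nx X m i / 4)) ≤ p2 (5 * m / 2) :=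
        p2_le (by linarith)
      have := p2_nonneg (5 * (m : ℝ) / 2)
      linarith
  have e1 : T / 2 ^ (2 * m) ≤ 2 * p2 ((m : ℝ) / 2) := by
    rw [div_le_iff₀ (by positivity), ← p2_two_mul_nat, mul_assoc, ← p2_add]
    have h2 : (m : ℝ) / 2 + 2 * m = 5 * m / 2 := by ring
    rw [h2]
    exact hTb
  have hk : ∀ k : ι → ℝ, WGood v G X m m' k → |pr G k (Tf v (nx X m) i)| ≤
      64 * p2 ((m : ℝ) / 2) := by
    intro k hk
    refine (hk.k3 i hth' hi).trans (mul_le_mul_of_nonneg_left (p2_le ?_) (by norm_num))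
    linarith
  have hone : (1 : ℝ) ≤ p2 ((m : ℝ) / 2) := one_le_p2 (by linarith)
  rw [hs (Tf v (nx X m) i)]
  have hbig : 132 * p2 ((m : ℝ) / 2) ≤ p2 (m' : ℝ) := by
    apply mul_p2_le' 8 (by norm_num)
    have h1 := hp.h1R
    push_cast
    linarith
  have b1 := abs_le.mp (hk k₁ hk₁)
  have b2 := abs_le.mp (hd₁.d5 i hth' hi)
  have b3 := abs_le.mp (hk k₀ hk₀)
  have b4 := abs_le.mp (hd₀.d5 i hth' hi)
  have e2 : (∑ e ∈ G, Tf v (nx X m) i e) / 2 ^ (2 * m) = T / 2 ^ (2 * m) := rfl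
  linarith [b1.2, b2.2, b3.1, b4.1]

theorem eta_mid_ch {X : I → ℝ} {m : ℕ} {i : I} (hi : i ∈ Mid X m) : eta X m i = 1 := by
  rw [mem_Mid] at hi
  unfold eta
  rw [if_neg (not_le.mpr hi.2), if_neg (not_lt.mpr hi.1)]

theorem eta_thin_ch {X : I → ℝ} {m : ℕ} {i : I} (hi : i ∈ Thin X m) :
    eta X m i = p2 (X i / 16) := by
  rw [mem_Thin] at hi
  have hm : (0 : ℝ) ≤ m := Nat.cast_nonneg m
  unfold eta
  rw [if_neg (by linarith), if_pos hi]

theorem tv_not_thin_ch {v : ι → I → ℝ} {X : I → ℝ} {m : ℕ} {i : I} (hi : i ∉ Thin X m) (e : ι) :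
    tv v X m e i = v e i := by
  rw [mem_Thin] at hi
  unfold tv
  rw [if_neg (fun h => hi h.1)]

theorem tv_thin_ch {v : ι → I → ℝ} {X : I → ℝ} {m : ℕ} {i : I} (hi : i ∈ Thin X m) (e : ι) :
    tv v X m e i = if p2 (X i / 4) < |v e i| then 0 else v e i := by
  rw [mem_Thin] at hi
  unfold tv
  simp only [hi, true_and]

theorem tv_sq_thin_ch {v : ι → I → ℝ} {X : I → ℝ} {m : ℕ} {i : I} (hi : i ∈ Thin X m) (e : ι) :
    tv v X m e i ^ 2 = gf v X i e := by
  rw [tv_thin_ch hi]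
  unfold gf
  split_ifs with h1 h2 h2
  · exact absurd h1 (not_lt.mpr h2)
  · simp
  · rfl
  · exact absurd (not_lt.mp h1) h2

/-- the final estimate of a thin direction: `17161 p2 (17m/8 + 3X/16) ≤ om X` -/
theorem thin_om_ch {X : I → ℝ} {m m' : ℕ} (hp : Par X m m') {i : I} (hi : i ∈ Thin X m) :
    17161 * p2 (17 * m / 8 + 3 * X i / 16) ≤ om (X i) := by
  rw [mem_Thin] at hi
  have hm := hp.hmR
  rw [om_of_nonpos (by linarith)]
  apply mul_p2_le' 15 (by norm_num)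
  unfold al
  push_cast
  linarith

/-- squares divided by `η` in a thin direction -/
theorem thin_div_ch {X : I → ℝ} {m m' : ℕ} (hp : Par X m m') {i : I} (hi : i ∈ Thin X m)
    {δ c : ℝ} (hδ : |δ| ≤ c * p2 (17 * m / 16 + X i / 8)) (hc2 : c ^ 2 ≤ 17161) :
    (1 / eta X m i) * δ ^ 2 ≤ om (X i) := by
  refine le_trans ?_ (thin_om_ch hp hi)
  rw [eta_thin_ch hi, one_div, ← p2_neg]
  have h1 : δ ^ 2 ≤ 17161 * p2 (17 * m / 8 + X i / 4) := by
    rw [← sq_abs]
    refine (pow_le_pow_left₀ (abs_nonneg _) hδ 2).trans ?_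
    rw [mul_pow, p2_sq]
    have : (2 : ℝ) * (17 * m / 16 + X i / 8) = 17 * m / 8 + X i / 4 := by ring
    rw [this]
    exact mul_le_mul_of_nonneg_right hc2 (p2_nonneg _)
  refine (mul_le_mul_of_nonneg_left h1 (p2_nonneg _)).trans ?_
  rw [mul_left_comm, ← p2_add]
  apply le_of_eq
  congr 2
  ring

/-- [C5] fresh error of the nonfat directions at a checkpoint.
* `Mid`: `tv = v`, `η = 1`, `(k+d)² ≤ 2k² + 2`, sum `≤ 2^17 (# + s₀)` by `q1`, `d3`;
* `Thin`: `|k| + |d| ≤ 65 p2 (m/16 - X/16) √(∑ tv²)`, `∑_G tv² ≤ ∑_G gf X ≤ p2 (2m + 3X/8)`, so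
  `(1/η)(k+d)² ≤ 4225 p2 (17m/8 + 3X/16)`, sum `≤ nn X`. -/
theorem nonfat_err {v : ι → I → ℝ} {G : Finset ι} {X : I → ℝ} {m m' : ℕ} (hp : Par X m m')
    (hlight : ∀ i, X i < 0 → ∑ e ∈ G, gf v X i e ≤ p2 (2 * m + 3 * X i / 8))
    {k d : ι → ℝ} (hk : WGood v G X m m' k) (hd : WDrift v G X m d) :
    ∑ i ∈ (Fat X m)ᶜ, (1 / eta X m i) *
      (pr G k (fun e => tv v X m e i) + pr G d (fun e => tv v X m e i)) ^ 2 ≤ cst X m / 2 := by
  have hm := hp.hmR
  have hset : (Fat X m)ᶜ = Mid X m ∪ Thin X m := by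
    ext i
    simp only [Finset.mem_compl, Finset.mem_union, mem_Fat, mem_Mid, mem_Thin]
    constructor
    · intro h1
      rcases lt_or_ge (X i) (-(16 * (m : ℝ))) with h2 | h2
      · exact Or.inr h2
      · exact Or.inl ⟨h2, not_le.mp h1⟩
    · rintro (h1 | h1) h2
      · linarith [h1.2]
      · linarith
  have hdisj : Disjoint (Mid X m) (Thin X m) := by
    rw [Finset.disjoint_left]
    intro i h1 h2
    rw [mem_Mid] at h1
    rw [mem_Thin] at h2
    linarith [h1.1]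
  rw [hset, Finset.sum_union hdisj]
  -- the thin part
  have hthin : ∑ i ∈ Thin X m, (1 / eta X m i) *
      (pr G k (fun e => tv v X m e i) + pr G d (fun e => tv v X m e i)) ^ 2 ≤ nn X := by
    refine le_trans (Finset.sum_le_sum fun i hi => ?_) (sum_om_le X (Thin X m))
    have hX0 : X i < 0 := by
      have := mem_Thin.mp hi; linarith
    have h1 : Real.sqrt (∑ e ∈ G, tv v X m e i ^ 2) ≤ p2 (m + 3 * X i / 16) := by
      have h2 : ∑ e ∈ G, tv v X m e i ^ 2 ≤ p2 (2 * m + 3 * X i / 8) := by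
        rw [Finset.sum_congr rfl fun e _ => tv_sq_thin_ch hi e]
        exact hlight i hX0
      refine (Real.sqrt_le_sqrt h2).trans ?_
      rw [p2_sqrt]
      apply le_of_eq
      congr 1
      ring
    have h3 : |pr G k (fun e => tv v X m e i)| ≤ 64 * p2 (17 * m / 16 + X i / 8) := by
      refine (hk.k4 i hi).trans ?_
      rw [mul_assoc]
      refine mul_le_mul_of_nonneg_left ?_ (by norm_num)
      refine (mul_le_mul_of_nonneg_left h1 (p2_nonneg _)).trans ?_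
      rw [← p2_add]
      apply le_of_eq
      congr 1
      ring
    have h4 : |pr G d (fun e => tv v X m e i)| ≤ p2 (17 * m / 16 + X i / 8) := by
      refine (drift_own hd _).trans (h1.trans (p2_le ?_))
      linarith
    refine thin_div_ch hp hi (c := 65) ?_ (by norm_num)
    refine (abs_add_le _ _).trans ?_
    linarith
  -- the mid part
  have hmid : ∑ i ∈ Mid X m, (1 / eta X m i) *
      (pr G k (fun e => tv v X m e i) + pr G d (fun e => tv v X m e i)) ^ 2 ≤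
      262144 * (if (Mid X m).card = 0 then 0 else ((Mid X m).card : ℝ) + (2 * m + 5)) := by
    split_ifs with hc
    · rw [Finset.card_eq_zero.mp hc]
      simp
    · have hntl : ∀ i ∈ Mid X m, i ∉ Thin X m := fun i hi h2 => Finset.disjoint_left.mp hdisj hi h2
      have h1 : ∀ i ∈ Mid X m, (1 / eta X m i) *
          (pr G k (fun e => tv v X m e i) + pr G d (fun e => tv v X m e i)) ^ 2 ≤
          2 * pr G k (fun e => v e i) ^ 2 + 2 := by
        intro i hi
        rw [eta_mid_ch hi]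
        simp only [tv_not_thin_ch (hntl i hi)]
        have h2 := hd.d3 i hi
        have h3 : pr G d (fun e => v e i) ^ 2 ≤ 1 := by
          rw [← sq_abs]
          exact pow_le_one₀ (abs_nonneg _) h2
        nlinarith [sq_nonneg (pr G k (fun e => v e i) - pr G d (fun e => v e i))]
      refine (Finset.sum_le_sum h1).trans ?_
      rw [Finset.sum_add_distrib, ← Finset.mul_sum, Finset.sum_const, nsmul_eq_mul]
      have h2 := hk.q1
      have h3 : (0 : ℝ) ≤ (Mid X m).card := Nat.cast_nonneg _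
      nlinarith
  unfold cst
  linarith

/-- [C4] written off total variation of a child.  It is the sum over `Thin (nx X m) m'` only.
* `i ∈ Thin X m`: `|tv - tv'| = Rf`, `∑_G Rf ≤ (∑_G gf X)/p2 (X'/4)`, `∑_G Rf² ≤ ∑_G gf X`:
  `δ_i ≤ 131 p2 (17m/16 + X/8)`, `(1/η) δ² ≤ 17161 p2 (17m/8 + 3X/16)`, sum `≤ nn X`
  (`p2 (3X/16) ≤ om X * p2 (-(3 - 16 al) m)`);
* `i ∈ NewThin` (so `i ∈ Mid`, `X i < -13 m < 0`, `η = 1`): `|tv - tv'| = Tf (nx X m)`,
  `δ_i ≤ 3 + |pr k₁ Tf| + |pr k₀ Tf|`, by `q3` the sum of squares is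
  `≤ 27 # + 6·4096 (8 # + 4 s₀) ≤ 2^18 (# + s₀)`. -/
theorem child_tv {v : ι → I → ℝ} {G : Finset ι} {X : I → ℝ} {m m' : ℕ} {a c : I → ℝ}
    {pos : ι → ℕ} (hp : Par X m m')
    (hlight : ∀ i, X i < 0 → ∑ e ∈ G, gf v X i e ≤ p2 (2 * m + 3 * X i / 8))
    (hheavy : ∀ i, i ∉ Thin X m → X i < 0 → ∑ e ∈ G, Tf v X i e ≤ p2 m)
    (h : WSplit v G X m m' a c pos) (j : ℕ) (hj : j < 2 ^ (2 * m)) :
    ∑ i ∈ Thin (nx X m) m', (1 / eta X m i) * (∑ e ∈ G.filter (fun e => pos e = j),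
      |tv v X m e i - tv v (nx X m) m' e i|) ^ 2 ≤ cst X m / 2 := by
  have hm := hp.hmR
  obtain ⟨k₀, d₀, k₁, d₁, hk₀, hd₀, hk₁, hd₁, hs⟩ := child_fun h j hj
  have hset : Thin (nx X m) m' = Thin X m ∪ NewThin X m m' := by
    unfold NewThin
    rw [Finset.union_sdiff_of_subset (Thin_sub hp)]
  have hdisj : Disjoint (Thin X m) (NewThin X m m') := Finset.disjoint_sdiff
  rw [hset, Finset.sum_union hdisj]
  -- the thin part
  have hthin : ∑ i ∈ Thin X m, (1 / eta X m i) * (∑ e ∈ G.filter (fun e => pos e = j),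
      |tv v X m e i - tv v (nx X m) m' e i|) ^ 2 ≤ nn X := by
    refine le_trans (Finset.sum_le_sum fun i hi => ?_) (sum_om_le X (Thin X m))
    have hX0 : X i < 0 := by
      have := mem_Thin.mp hi; linarith
    have hi' : i ∈ Thin (nx X m) m' := Thin_sub hp hi
    have h1 : ∀ e, |tv v X m e i - tv v (nx X m) m' e i| = Rf v X m i e := by
      intro e
      have h2 : p2 (nx X m i / 4) ≤ p2 (X i / 4) := by
        apply p2_le; unfold nx; linarith
      rw [tv_thin_ch hi, tv_thin_ch hi']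
      unfold Rf
      by_cases h3 : p2 (X i / 4) < |v e i|
      · rw [if_pos h3, if_pos (h2.trans_lt h3), if_neg (fun h4 => not_lt.mpr h4.2 h3)]
        simp
      · rw [if_neg h3]
        by_cases h4 : p2 (nx X m i / 4) < |v e i|
        · rw [if_pos h4, if_pos ⟨h4, not_lt.mp h3⟩]
          simp
        · rw [if_neg h4, if_neg (fun h5 => h4 h5.1)]
          simp
    simp only [h1]
    rw [hs (Rf v X m i)]
    have e1 : (∑ e ∈ G, Rf v X m i e) ≤ p2 (5 * m / 2 + X i / 8) :=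
      (Finset.sum_le_sum fun e _ => Rf_le_ch v X m i e).trans (gf_div_ch hlight hX0)
    have e1' : (0 : ℝ) ≤ ∑ e ∈ G, Rf v X m i e := Finset.sum_nonneg fun e _ => Rf_nonneg_ch _ _ _ _ _
    have e2 : |(∑ e ∈ G, Rf v X m i e) / 2 ^ (2 * m)| ≤ p2 (17 * m / 16 + X i / 8) := by
      rw [abs_of_nonneg (by positivity), div_le_iff₀ (by positivity), ← p2_two_mul_nat, ← p2_add]
      exact e1.trans (p2_le (by linarith))
    have h2 : Real.sqrt (∑ e ∈ G, Rf v X m i e ^ 2) ≤ p2 (m + 3 * X i / 16) := by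
      have h3 : ∑ e ∈ G, Rf v X m i e ^ 2 ≤ p2 (2 * m + 3 * X i / 8) :=
        (Finset.sum_le_sum fun e _ => Rf_sq_ch v X m i e).trans (hlight i hX0)
      refine (Real.sqrt_le_sqrt h3).trans ?_
      rw [p2_sqrt]
      apply le_of_eq
      congr 1
      ring
    have h3 : ∀ k : ι → ℝ, WGood v G X m m' k → |pr G k (Rf v X m i)| ≤
        64 * p2 (17 * m / 16 + X i / 8) := by
      intro k hk
      refine (hk.k6 i hi).trans ?_
      rw [mul_assoc]
      refine mul_le_mul_of_nonneg_left ?_ (by norm_num)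
      refine (mul_le_mul_of_nonneg_left h2 (p2_nonneg _)).trans ?_
      rw [← p2_add]
      apply le_of_eq
      congr 1
      ring
    have h4 : ∀ d : ι → ℝ, WDrift v G X m d → |pr G d (Rf v X m i)| ≤
        p2 (17 * m / 16 + X i / 8) := by
      intro d hd
      refine (drift_own hd _).trans (h2.trans (p2_le ?_))
      linarith
    refine thin_div_ch hp hi (c := 131) ?_ (by norm_num)
    have b0 := abs_le.mp e2
    have b1 := abs_le.mp (h3 k₁ hk₁)
    have b2 := abs_le.mp (h4 d₁ hd₁)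
    have b3 := abs_le.mp (h3 k₀ hk₀)
    have b4 := abs_le.mp (h4 d₀ hd₀)
    rw [abs_le]
    constructor <;> linarith [b0.1, b0.2, b1.1, b1.2, b2.1, b2.2, b3.1, b3.2, b4.1, b4.2]
  -- the newly thin part
  have hnew : ∑ i ∈ NewThin X m m', (1 / eta X m i) * (∑ e ∈ G.filter (fun e => pos e = j),
      |tv v X m e i - tv v (nx X m) m' e i|) ^ 2 ≤
      262144 * (if (Mid X m).card = 0 then 0 else ((Mid X m).card : ℝ) + (2 * m + 5)) := by
    have hfacts : ∀ i ∈ NewThin X m m', i ∈ Thin (nx X m) m' ∧ i ∉ Thin X m ∧ i ∈ Mid X m ∧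
        X i < -(13 * (m : ℝ)) := by
      intro i hi
      unfold NewThin at hi
      rw [Finset.mem_sdiff] at hi
      have h1 := mem_Thin.mp hi.1
      have h2 : ¬ X i < -(16 * (m : ℝ)) := fun h3 => hi.2 (mem_Thin.mpr h3)
      have h3 := hp.h1R
      have h4 : X i < -(13 * (m : ℝ)) := by
        unfold nx at h1
        linarith
      exact ⟨hi.1, hi.2, mem_Mid.mpr ⟨not_lt.mp h2, by linarith⟩, h4⟩
    have hsub : NewThin X m m' ⊆ Mid X m := fun i hi => (hfacts i hi).2.2.1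
    split_ifs with hc
    · have h1 : NewThin X m m' = ∅ := by
        rw [Finset.card_eq_zero.mp hc] at hsub
        exact Finset.subset_empty.mp hsub
      rw [h1]
      simp
    · have h1 : ∀ i ∈ NewThin X m m', (1 / eta X m i) * (∑ e ∈ G.filter (fun e => pos e = j),
          |tv v X m e i - tv v (nx X m) m' e i|) ^ 2 ≤
          27 + 3 * pr G k₁ (Tf v (nx X m) i) ^ 2 + 3 * pr G k₀ (Tf v (nx X m) i) ^ 2 := by
        intro i hi
        obtain ⟨hi1, hi2, hi3, hi4⟩ := hfacts i hi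
        have hX0 : X i < 0 := by linarith
        have hX1 : nx X m i < 0 := by unfold nx; linarith
        rw [eta_mid_ch hi3]
        have h2 : ∀ e, |tv v X m e i - tv v (nx X m) m' e i| = Tf v (nx X m) i e := by
          intro e
          rw [tv_not_thin_ch hi2, tv_thin_ch hi1]
          unfold Tf
          split_ifs
          · simp
          · simp
        simp only [h2]
        rw [hs (Tf v (nx X m) i)]
        have hT0 : (0 : ℝ) ≤ ∑ e ∈ G, Tf v (nx X m) i e :=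
          Finset.sum_nonneg fun e _ => Tf_nonneg_ch _ _ _ _
        have hT : ∑ e ∈ G, Tf v (nx X m) i e ≤ 2 * p2 (m : ℝ) := by
          have h3 : ∑ e ∈ G, Tf v (nx X m) i e ≤
              ∑ e ∈ G, (Tf v X i e + gf v X i e * p2 (-(nx X m i / 4))) :=
            Finset.sum_le_sum fun e _ => Tf_split_ch v X m i e
          rw [Finset.sum_add_distrib] at h3
          have h4 := hheavy i hi2 hX0
          have h5 := gf_div_ch (m := m) hlight hX0
          have h6 : p2 (5 * (m : ℝ) / 2 + X i / 8) ≤ p2 (m : ℝ) := p2_le (by linarith)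
          linarith
        have hT1 : |(∑ e ∈ G, Tf v (nx X m) i e) / 2 ^ (2 * m)| ≤ 1 := by
          rw [abs_of_nonneg (by positivity), div_le_one (by positivity), ← p2_two_mul_nat]
          refine hT.trans (mul_p2_le' 1 (by norm_num) ?_)
          push_cast
          linarith
        have c1 := abs_le.mp (hd₁.d5 i hi2 hX1)
        have c0 := abs_le.mp (hd₀.d5 i hi2 hX1)
        have c2 := abs_le.mp hT1
        set A := pr G k₁ (Tf v (nx X m) i)
        set B := pr G k₀ (Tf v (nx X m) i)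
        set D := (∑ e ∈ G, Tf v (nx X m) i e) / 2 ^ (2 * m) + pr G d₁ (Tf v (nx X m) i) -
          pr G d₀ (Tf v (nx X m) i) with hD
        have hD3 : |D| ≤ 3 := by
          rw [abs_le, hD]
          constructor <;> linarith [c1.1, c1.2, c0.1, c0.2, c2.1, c2.2]
        have hD9 : D ^ 2 ≤ 9 := by
          rw [← sq_abs]
          nlinarith [abs_nonneg D]
        have e3 : (∑ e ∈ G, Tf v (nx X m) i e) / 2 ^ (2 * m) + A +
            pr G d₁ (Tf v (nx X m) i) - B - pr G d₀ (Tf v (nx X m) i) = D + A - B := by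
          rw [hD]; ring
        rw [e3]
        nlinarith [sq_nonneg (D - A), sq_nonneg (D + B), sq_nonneg (A + B)]
      refine (Finset.sum_le_sum h1).trans ?_
      rw [Finset.sum_add_distrib, Finset.sum_add_distrib, ← Finset.mul_sum, ← Finset.mul_sum,
        Finset.sum_const, nsmul_eq_mul]
      have q1 := hk₁.q3
      have q0 := hk₀.q3
      have hcard : ((NewThin X m m').card : ℝ) ≤ (Mid X m).card := by
        exact_mod_cast Finset.card_le_card hsub
      have h3 : (0 : ℝ) ≤ (NewThin X m m').card := Nat.cast_nonneg _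
      nlinarith
  unfold cst
  linarith

end P262C
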