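import Mathlib

/-!
# P262, full square-root bound: definitions

The family is `v : ι → I → ℝ` (coordinates in an eigenbasis of `∑ v_e v_e^T`, eigenvalues `K i > 0`).
At a stage the scale is `2^(-t)`, `X i = logb 2 (K i) - t`, so that `M_i = 2^(X i)` is the expected
diagonal Gram entry of a block.  `m ≥ 1024` is the local parameter of the stage, the window has
`2 m` folds and the next stage has exponents `X i - 2 m` and parameter `m'`.
-/

open Finset

namespace P262C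

/-- powers of two with real exponent -/
noncomputable def p2 (x : ℝ) : ℝ := (2 : ℝ) ^ x

/-- the small exponent -/
noncomputable def al : ℝ := 1 / 32768

/-- local weight of a direction with exponent `x` -/
noncomputable def om (x : ℝ) : ℝ := p2 (-(al * |x|))

variable {ι I : Type*} [Fintype I] [DecidableEq I] [DecidableEq ι]

/-- local density -/
noncomputable def nn (X : I → ℝ) : ℝ := ∑ i, om (X i)

noncomputable def Fat (X : I → ℝ) (m : ℕ) : Finset I := univ.filter fun i => 3 * (m : ℝ) ≤ X i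
noncomputable def Thin (X : I → ℝ) (m : ℕ) : Finset I := univ.filter fun i => X i < -(16 * (m : ℝ))
noncomputable def Mid (X : I → ℝ) (m : ℕ) : Finset I :=
  univ.filter fun i => -(16 * (m : ℝ)) ≤ X i ∧ X i < 3 * (m : ℝ)

/-- exponents of the next stage -/
noncomputable def nx (X : I → ℝ) (m : ℕ) : I → ℝ := fun i => X i - 2 * (m : ℝ)

/-- directions that become thin / stop being fat -/
noncomputable def NewThin (X : I → ℝ) (m m' : ℕ) : Finset I := Thin (nx X m) m' \ Thin X m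
noncomputable def NewMid (X : I → ℝ) (m m' : ℕ) : Finset I := Fat X m \ Fat (nx X m) m'

/-- parameter conditions of a window -/
structure Par (X : I → ℝ) (m m' : ℕ) : Prop where
  hm : 1024 ≤ m
  h1 : 399 * m ≤ 400 * m'
  h2 : 400 * m' ≤ 401 * m
  hn : nn X ≤ p2 ((m : ℝ) / 16)

/-- truncated family: in a thin direction the entries larger than `2^(X i / 4)` are removed -/
noncomputable def tv (v : ι → I → ℝ) (X : I → ℝ) (m : ℕ) (e : ι) (i : I) : ℝ :=
  if X i < -(16 * (m : ℝ)) ∧ p2 (X i / 4) < |v e i| then 0 else v e i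

/-- light energy functional -/
noncomputable def gf (v : ι → I → ℝ) (X : I → ℝ) (i : I) (e : ι) : ℝ :=
  if |v e i| ≤ p2 (X i / 4) then v e i ^ 2 else 0

/-- heavy total variation functional -/
noncomputable def Tf (v : ι → I → ℝ) (X : I → ℝ) (i : I) (e : ι) : ℝ :=
  if p2 (X i / 4) < |v e i| then |v e i| else 0

/-- newly heavy total variation functional -/
noncomputable def Rf (v : ι → I → ℝ) (X : I → ℝ) (m : ℕ) (i : I) (e : ι) : ℝ :=
  if p2 (nx X m i / 4) < |v e i| ∧ |v e i| ≤ p2 (X i / 4) then |v e i| else 0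

/-- pairing -/
def pr (G : Finset ι) (y φ : ι → ℝ) : ℝ := ∑ e ∈ G, y e * φ e

/-- The symmetric convex body controlling the fresh errors of a window
(`s₀ = 2 m + 5`, `4096 = 64^2`). -/
structure WGood (v : ι → I → ℝ) (G : Finset ι) (X : I → ℝ) (m m' : ℕ) (y : ι → ℝ) : Prop where
  k1 : ∀ i ∈ Fat X m, |pr G y (fun e => v e i)| ≤ p2 (X i / 32) / 2
  k2 : ∀ i l, i ∉ Thin X m → l ∉ Thin X m → |pr G y (fun e => v e i * v e l)| ≤
    64 * p2 ((m : ℝ) / 16 + (max 0 (nx X m i) + max 0 (nx X m l)) / 4)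
  k3 : ∀ i, i ∉ Thin X m → nx X m i < 0 → |pr G y (Tf v (nx X m) i)| ≤ 64 * p2 ((m : ℝ) / 16)
  k4 : ∀ i ∈ Thin X m, |pr G y (fun e => tv v X m e i)| ≤
    64 * p2 ((m : ℝ) / 16 - X i / 16) * Real.sqrt (∑ e ∈ G, tv v X m e i ^ 2)
  k5 : ∀ i, nx X m i < 0 → |pr G y (gf v (nx X m) i)| ≤
    64 * p2 ((m : ℝ) / 16 - nx X m i / 16) * Real.sqrt (∑ e ∈ G, gf v (nx X m) i e ^ 2)
  k6 : ∀ i ∈ Thin X m, |pr G y (Rf v X m i)| ≤
    64 * p2 ((m : ℝ) / 16 - X i / 16) * Real.sqrt (∑ e ∈ G, Rf v X m i e ^ 2)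
  q1 : ∑ i ∈ Mid X m, pr G y (fun e => v e i) ^ 2 ≤
    4096 * (8 * ((Mid X m).card : ℝ) + 4 * (2 * m + 5))
  q2 : ∀ j ∈ Fat X m, ∑ i ∈ (Fat X m).filter (fun i => X i ≤ X j), pr G y (fun e => v e i) ^ 2 ≤
    4096 * (8 * (((Fat X m).filter (fun i => X i ≤ X j)).card : ℝ) + 4 * (2 * m + 5))
  q3 : ∑ i ∈ NewThin X m m', pr G y (Tf v (nx X m) i) ^ 2 ≤
    4096 * (8 * ((NewThin X m m').card : ℝ) + 4 * (2 * m + 5))

/-- The symmetric convex body of the drifts caused by the steering. -/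
structure WDrift (v : ι → I → ℝ) (G : Finset ι) (X : I → ℝ) (m : ℕ) (y : ι → ℝ) : Prop where
  d0 : ∑ e ∈ G, y e ^ 2 ≤ 1
  d2 : ∀ i l, i ∉ Thin X m → l ∉ Thin X m → |pr G y (fun e => v e i * v e l)| ≤
    p2 ((max 0 (nx X m i) + max 0 (nx X m l)) / 4)
  d3 : ∀ i ∈ Mid X m, |pr G y (fun e => v e i)| ≤ 1
  d5 : ∀ i, i ∉ Thin X m → nx X m i < 0 → |pr G y (Tf v (nx X m) i)| ≤ 1

/-- clamp to `[-2^(x/32), 2^(x/32)]` -/
noncomputable def cl (x z : ℝ) : ℝ := max (-(p2 (x / 32))) (min (p2 (x / 32)) z)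

/-- excess: `z = cl x z + ex x z` -/
noncomputable def ex (x z : ℝ) : ℝ := z - cl x z

/-- growth allowance of a direction in a window -/
noncomputable def eta (X : I → ℝ) (m : ℕ) (i : I) : ℝ :=
  if 3 * (m : ℝ) ≤ X i then 0 else if X i < -(16 * (m : ℝ)) then p2 (X i / 16) else 1

/-- constant `C = 2^15` and floor `u₀ = 2^14 (2·1024 + 5)` of the potential -/
noncomputable def CC : ℝ := 32768
noncomputable def u0 : ℝ := 16384 * (2 * 1024 + 5)

/-- `w_i` weights of the nonfat directions; potential at most `P`. -/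
structure Pot (X : I → ℝ) (m : ℕ) (w : I → ℝ) (P : ℝ) (a : I → ℝ) : Prop where
  base : ∑ i ∈ (Fat X m)ᶜ, w i * a i ^ 2 + u0 ≤ P
  pre : ∀ j ∈ Fat X m, ∑ i ∈ (Fat X m)ᶜ, w i * a i ^ 2 +
    ∑ i ∈ (Fat X m).filter (fun i => X i ≤ X j), (a i ^ 2 - CC) ≤ P

/-- invariants of a node `(G, a, c)` -/
structure Inv (v : ι → I → ℝ) (X : I → ℝ) (m : ℕ) (w : I → ℝ) (P : ℝ) (G : Finset ι)
    (a c : I → ℝ) : Prop where
  sum : ∀ i, c i = a i + ∑ e ∈ G, tv v X m e i
  gram : ∀ i l, i ∉ Thin X m → l ∉ Thin X m →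
    |∑ e ∈ G, v e i * v e l - (if i = l then p2 (X i) else 0)| ≤
      p2 ((m : ℝ) / 8 + (max 0 (X i) + max 0 (X l)) / 4)
  light : ∀ i, X i < 0 → ∑ e ∈ G, gf v X i e ≤ p2 (2 * m + 3 * X i / 8)
  heavy : ∀ i, i ∉ Thin X m → X i < 0 → ∑ e ∈ G, Tf v X i e ≤ p2 m
  pa : Pot X m w P a
  pc : Pot X m w P c

/-- new weights -/
noncomputable def nw (X : I → ℝ) (m : ℕ) (w : I → ℝ) : I → ℝ :=
  fun i => w i / (1 + eta X m i) ^ 2

/-- cost of a window, nonfat directions -/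
noncomputable def cst (X : I → ℝ) (m : ℕ) : ℝ :=
  524288 * (if (Mid X m).card = 0 then 0 else ((Mid X m).card : ℝ) + (2 * m + 5)) + 2 * nn X

/-- total cost of a window -/
noncomputable def chg (X : I → ℝ) (m m' : ℕ) : ℝ :=
  (16384 * (2 * m + 5) - u0) + (CC + u0) * ((NewMid X m m').card : ℝ) + cst X m

end P262C
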