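import Vale.Agent.P262.Full.Tree

/-!
# P262 full: eigenbasis and final statement
-/

open Finset

namespace P262C

/-- [E1] spectral theorem for `∑ v_e v_eᵀ`. -/
theorem eigen {d N : ℕ} (v : Fin N → EuclideanSpace ℝ (Fin d)) :
    ∃ (u : OrthonormalBasis (Fin d) ℝ (EuclideanSpace ℝ (Fin d))) (K : Fin d → ℝ),
      (∀ i, 0 ≤ K i) ∧
      ∀ i l, ∑ e, inner ℝ (u i) (v e) * inner ℝ (u l) (v e) = if i = l then K i else 0 := by
  let T : EuclideanSpace ℝ (Fin d) →ₗ[ℝ] EuclideanSpace ℝ (Fin d) :=
    ∑ e, (((innerSL ℝ (v e)).toLinearMap).smulRight (v e))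
  have hTa : ∀ w, T w = ∑ e, (inner ℝ (v e) w) • v e := by
    intro w
    simp [T, LinearMap.sum_apply]
  have hT : T.IsSymmetric := by
    intro x y
    rw [hTa, hTa, sum_inner, inner_sum]
    refine Finset.sum_congr rfl fun e _ => ?_
    rw [inner_smul_left, inner_smul_right]
    simp only [conj_trivial]
    rw [real_inner_comm (v e) x]
    ring
  have hn : Module.finrank ℝ (EuclideanSpace ℝ (Fin d)) = d := finrank_euclideanSpace_fin
  let u := hT.eigenvectorBasis hn
  have hmain : ∀ i l, ∑ e, inner ℝ (u i) (v e) * inner ℝ (u l) (v e) =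
      if i = l then hT.eigenvalues hn i else 0 := by
    intro i l
    have h1 : inner ℝ (u l) (T (u i)) = ∑ e, inner ℝ (u i) (v e) * inner ℝ (u l) (v e) := by
      rw [hTa, inner_sum]
      refine Finset.sum_congr rfl fun e _ => ?_
      rw [inner_smul_right, real_inner_comm (u i) (v e)]
    rw [← h1]
    have h2 : T (u i) = (hT.eigenvalues hn i : ℝ) • u i := by
      exact hT.apply_eigenvectorBasis hn i
    rw [h2, inner_smul_right]
    have h3 : inner ℝ (u l) (u i) = if i = l then (1 : ℝ) else 0 := by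
      have := (orthonormal_iff_ite.mp u.orthonormal) l i
      rw [this]
      by_cases h : i = l
      · rw [if_pos h, if_pos h.symm]
      · rw [if_neg h, if_neg (fun h' => h h'.symm)]
    rw [h3]
    split_ifs <;> simp
  refine ⟨u, hT.eigenvalues hn, fun i => ?_, hmain⟩
  have := hmain i i
  rw [if_pos rfl] at this
  rw [← this]
  exact Finset.sum_nonneg fun e _ => mul_self_nonneg _

/-- Reading a duplicate-free complete list as a permutation. -/
theorem list_perm {N : ℕ} (L : List (Fin N)) (hL : L.Nodup) (hf : L.toFinset = Finset.univ) :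
    ∃ π : Equiv.Perm (Fin N), ∀ (k : ℕ), (Finset.univ.filter fun i : Fin N => i.val < k).map
      π.toEmbedding = (L.take k).toFinset := by
  have hlen : L.length = N := by
    have := List.toFinset_card_of_nodup hL
    rw [hf, Finset.card_univ, Fintype.card_fin] at this
    exact this.symm
  have hmem : ∀ x, x ∈ L := fun x => by
    rw [← List.mem_toFinset, hf]; exact Finset.mem_univ x
  refine ⟨(finCongr hlen.symm).trans (hL.getEquivOfForallMemList L hmem), fun k => ?_⟩
  ext x
  simp only [Finset.mem_map, Finset.mem_filter, Finset.mem_univ, true_and, List.mem_toFinset,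
    Equiv.coe_toEmbedding, Equiv.trans_apply, List.mem_take_iff_getElem]
  constructor
  · rintro ⟨i, hi, rfl⟩
    exact ⟨i.val, by rw [hlen]; exact lt_min hi i.2, rfl⟩
  · rintro ⟨i, hi, rfl⟩
    rw [hlen] at hi
    exact ⟨⟨i, (lt_min_iff.1 hi).2⟩, (lt_min_iff.1 hi).1, rfl⟩

/-- [E2] final ordering theorem.  `I = {i // 0 < K i}` (if empty all `v e = 0`); if `K i = 0` then
`⟪u i, v e⟫ = 0`.  List to permutation as in `P262.steinitz_order` (Final.lean). -/
theorem steinitz_full : ∃ C : ℝ, 0 < C ∧ ∀ (d : ℕ), 1 ≤ d → ∀ (N : ℕ)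
    (v : Fin N → EuclideanSpace ℝ (Fin d)), (∀ i, ‖v i‖ ≤ 1) → ∑ i, v i = 0 →
    ∃ π : Equiv.Perm (Fin N), ∀ k : ℕ,
      ‖∑ i with i.val < k, v (π i)‖ ≤ C * Real.sqrt d := by
  refine ⟨10 ^ 25, by positivity, fun d hd N v hv hsum => ?_⟩
  obtain ⟨u, K, hK, hQ⟩ := eigen v
  have hzero : ∀ i, K i = 0 → ∀ e, inner ℝ (u i) (v e) = 0 := by
    intro i hi e
    have h1 := hQ i i
    rw [if_pos rfl, hi] at h1
    have h2 := (Finset.sum_eq_zero_iff_of_nonneg fun e _ => mul_self_nonneg _).mp h1 e
      (Finset.mem_univ e)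
    exact mul_self_eq_zero.mp h2
  have hsub : ∀ f : Fin d → ℝ, (∀ i, K i = 0 → f i = 0) →
      ∑ i : {i : Fin d // 0 < K i}, f i.1 = ∑ i, f i := by
    intro f hf
    rw [← Finset.sum_subtype (univ.filter fun i => 0 < K i) (by simp) f]
    apply Finset.sum_subset (Finset.filter_subset _ _)
    intro i _ hi
    apply hf i
    have h1 : ¬ 0 < K i := fun h => hi (by simp [h])
    exact le_antisymm (not_lt.mp h1) (hK i)
  have hlist : ∃ L : List (Fin N), L.Nodup ∧ L.toFinset = univ ∧ ∀ P, P <+: L →
      ∑ i : Fin d, ((P.map (fun e => inner ℝ (u i) (v e))).sum) ^ 2 ≤ 10 ^ 50 * (d : ℝ) := by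
    by_cases hne : Nonempty {i : Fin d // 0 < K i}
    · obtain ⟨L, hL, hLu, hP⟩ := order_eigen (ι := Fin N) (I := {i : Fin d // 0 < K i})
        (v := fun e i => inner ℝ (u i.1) (v e)) (K := fun i => K i.1) (fun i => i.2)
        (fun e => by
          have h1 := u.sum_sq_norm_inner_right (v e)
          have h2 : ∑ i, inner ℝ (u i) (v e) ^ 2 = ‖v e‖ ^ 2 := by
            rw [← h1]
            exact Finset.sum_congr rfl fun i _ => by rw [Real.norm_eq_abs, sq_abs]
          have h3 := hsub (fun i => inner ℝ (u i) (v e) ^ 2)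
            (fun i hi => by simp only [hzero i hi e]; norm_num)
          have h4 := hv e
          have h5 := norm_nonneg (v e)
          rw [h3]
          nlinarith)
        (fun i l => by
          rw [hQ i.1 l.1]
          simp only [Subtype.ext_iff])
        (fun i => by rw [← inner_sum, hsum, inner_zero_right])
      refine ⟨L, hL, hLu, fun P hPL => ?_⟩
      have h6 := hP P hPL
      rw [hsub (fun i => ((P.map (fun e => inner ℝ (u i) (v e))).sum) ^ 2) (fun i hi => by
        have : (P.map (fun e => inner ℝ (u i) (v e))).sum = 0 := by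
          apply List.sum_eq_zero
          intro x hx
          obtain ⟨e, _, rfl⟩ := List.mem_map.mp hx
          exact hzero i hi e
        simp only [this]
        norm_num)] at h6
      refine h6.trans ?_
      have h7 : Fintype.card {i : Fin d // 0 < K i} ≤ d := by
        have := Fintype.card_subtype_le (fun i : Fin d => 0 < K i)
        rwa [Fintype.card_fin] at this
      have h8 : (Fintype.card {i : Fin d // 0 < K i} : ℝ) ≤ d := by exact_mod_cast h7
      exact mul_le_mul_of_nonneg_left h8 (by positivity)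
    · refine ⟨univ.toList, Finset.nodup_toList _, Finset.toList_toFinset _, fun P _ => ?_⟩
      have h0 : ∀ i, K i = 0 := fun i => by
        by_contra h
        exact hne ⟨⟨i, lt_of_le_of_ne (hK i) (Ne.symm h)⟩⟩
      have h1 : ∀ i : Fin d, ((P.map (fun e => inner ℝ (u i) (v e))).sum) ^ 2 = 0 := by
        intro i
        have : (P.map (fun e => inner ℝ (u i) (v e))).sum = 0 := by
          apply List.sum_eq_zero
          intro x hx
          obtain ⟨e, _, rfl⟩ := List.mem_map.mp hx
          exact hzero i (h0 i) e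
        rw [this]; norm_num
      rw [Finset.sum_eq_zero fun i _ => h1 i]
      positivity
  obtain ⟨L, hL, hLu, hpre⟩ := hlist
  obtain ⟨π, hπ⟩ := list_perm L hL hLu
  refine ⟨π, fun k => ?_⟩
  obtain ⟨S, hS⟩ : ∃ S, S = ∑ i with i.val < k, v (π i) := ⟨_, rfl⟩
  rw [← hS]
  have hcoord : ∀ i, inner ℝ (u i) S = ((L.take k).map (fun e => inner ℝ (u i) (v e))).sum := by
    intro i
    rw [hS, inner_sum, ← List.sum_toFinset _ (hL.sublist (List.take_sublist k L)), ← hπ k,
      Finset.sum_map]
    rfl
  have h1 := hpre _ (List.take_prefix k L)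
  have h2 : ‖S‖ ^ 2 ≤ (10 ^ 25 * Real.sqrt d) ^ 2 := by
    rw [← u.sum_sq_norm_inner_right S, mul_pow, Real.sq_sqrt (Nat.cast_nonneg d)]
    have h3 : ∑ i, ‖inner ℝ (u i) S‖ ^ 2 =
        ∑ i : Fin d, ((List.map (fun e => inner ℝ (u i) (v e)) (L.take k)).sum) ^ 2 :=
      Finset.sum_congr rfl fun i _ => by rw [Real.norm_eq_abs, sq_abs, hcoord i]
    rw [h3]
    refine h1.trans (le_of_eq ?_)
    norm_num
  exact le_of_sq_le_sq h2 (by positivity)

end P262C
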