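import Vale.Agent.P262.Full.Defs

/-!
# P262 full: [F] the fold (Chobanyan) with steering, abstract form

Level `l`: `pos : G → [0, 2^l)`, for `1 ≤ j ≤ 2^l` the indicator of `pos e < j` equals
`j / 2^l + k e + d e`, `k` good, `d` drift, `∑ d e v e i = (1 - j/2^l)(cg i - ag i)` on `F`
(levels `l ≤ L-1`).  Step: offsets `x` supported on the first block `H = {pos e < 1}`, signs `ε`
with `D_j = (ε - x) 1[pos < j]` good; new position `pos` if `ε = 1`, `2^(l+1) - 1 - pos` if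
`ε = -1`.  For `1 ≤ j ≤ 2^l`: new indicator at `j` is `(1[pos<j] + ε 1[pos<j])/2`, and
`ε 1[pos<j] = D_j + x`, so `k' = (k + D_j)/2`, `d' = (d + x)/2`; at `2^(l+1) - j` the new indicator
is `1 - (1[pos<j] - ε 1[pos<j])/2`, so `k' = (D_j - k)/2`, `d' = (x - d)/2`.
Targets: `w = cg - ag` at the levels `l < L - 1` and `w = -(ag + cg)` at the level `L - 1`.
-/

open Finset

namespace P262C

theorem fold_one {ι I : Type*} [DecidableEq ι] (G : Finset ι) (F : Finset I) (v : ι → I → ℝ)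
    (n : ℕ) (hn : 1 ≤ n) (Good Dr : (ι → ℝ) → Prop)
    (hGc : ∀ y z, Good y → Good z → Good (fun e => (y e + z e) / 2))
    (hGn : ∀ y, Good y → Good (fun e => -y e))
    (hDc : ∀ y z, Dr y → Dr z → Dr (fun e => (y e + z e) / 2))
    (hDn : ∀ y, Dr y → Dr (fun e => -y e)) (u w : I → ℝ) (pos : ι → ℕ)
    (hpos : ∀ e ∈ G, pos e < n)
    (hst : ∀ j, 1 ≤ j → j ≤ n → ∃ k d : ι → ℝ, Good k ∧ Dr d ∧
      (∀ e ∈ G, (if pos e < j then (1 : ℝ) else 0) - j / n = k e + d e) ∧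
      ∀ i ∈ F, ∑ e ∈ G, d e * v e i = (1 - (j : ℝ) / n) * u i)
    (x : ι → ℝ) (hx0 : ∀ e ∈ G, ¬ pos e < 1 → x e = 0) (hxD : Dr x)
    (hxw : ∀ i ∈ F, ∑ e ∈ G, x e * v e i = w i)
    (ε : ι → ℝ) (hε : ∀ e, ε e = 1 ∨ ε e = -1)
    (hεG : ∀ j, 1 ≤ j → j ≤ n → Good (fun e => if pos e < j then ε e - x e else 0)) :
    ∃ pos' : ι → ℕ, (∀ e ∈ G, pos' e < 2 * n) ∧ ∀ j, 1 ≤ j → j < 2 * n →
      ∃ k d : ι → ℝ, Good k ∧ Dr d ∧
        (∀ e ∈ G, (if pos' e < j then (1 : ℝ) else 0) - j / (2 * n) = k e + d e) ∧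
        ∀ i ∈ F, ∑ e ∈ G, d e * v e i = ((1 - (j : ℝ) / n) * u i + w i) / 2 := by
  classical
  have hn0 : (0 : ℝ) < n := by exact_mod_cast hn
  refine ⟨fun e => if ε e = 1 then pos e else 2 * n - 1 - pos e, ?_, ?_⟩
  · intro e he
    have := hpos e he
    simp only
    split_ifs <;> omega
  intro j hj1 hj2
  rcases le_or_gt j n with hjn | hjn
  · obtain ⟨k, d, hk, hd, hkd, hdv⟩ := hst j hj1 hjn
    refine ⟨_, _, hGc k _ hk (hεG j hj1 hjn), hDc d x hd hxD, ?_, ?_⟩
    · intro e he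
      have h1 := hkd e he
      have h2 := hpos e he
      have h3 : (if (if ε e = 1 then pos e else 2 * n - 1 - pos e) < j then (1 : ℝ) else 0) =
          ((if pos e < j then (1 : ℝ) else 0) + (if pos e < j then ε e else 0)) / 2 := by
        rcases hε e with h | h
        · rw [h]
          simp only [if_true]
          split_ifs <;> norm_num
        · rw [h]
          have h4 : ¬ ((-1 : ℝ) = 1) := by norm_num
          rw [if_neg h4, if_neg (by omega : ¬ (2 * n - 1 - pos e < j))]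
          split_ifs <;> norm_num
      have h5 : (if pos e < j then ε e else 0) = (if pos e < j then ε e - x e else 0) + x e := by
        split_ifs with h
        · ring
        · rw [hx0 e he (by omega)]; ring
      rw [h3, h5]
      have h6 : (j : ℝ) / (2 * n) = ((j : ℝ) / n) / 2 := by field_simp
      rw [h6]
      linarith
    · intro i hi
      have h1 : ∑ e ∈ G, (d e + x e) / 2 * v e i =
          (∑ e ∈ G, d e * v e i + ∑ e ∈ G, x e * v e i) / 2 := by
        rw [← Finset.sum_add_distrib, Finset.sum_div]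
        exact Finset.sum_congr rfl fun e _ => by ring
      rw [h1, hdv i hi, hxw i hi]
  · obtain ⟨i', hi'⟩ : ∃ i', i' = 2 * n - j := ⟨_, rfl⟩
    have hji : j = 2 * n - i' := by omega
    have hi1 : 1 ≤ i' := by omega
    have hin : i' ≤ n := by omega
    have hcast : (j : ℝ) = 2 * n - i' := by
      rw [hji, Nat.cast_sub (by omega)]
      push_cast
      ring
    obtain ⟨k, d, hk, hd, hkd, hdv⟩ := hst i' hi1 hin
    refine ⟨_, _, hGc _ _ (hGn k hk) (hεG i' hi1 hin), hDc _ x (hDn d hd) hxD, ?_, ?_⟩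
    · intro e he
      have h1 := hkd e he
      have h2 := hpos e he
      have h3 : (if (if ε e = 1 then pos e else 2 * n - 1 - pos e) < j then (1 : ℝ) else 0) =
          1 - ((if pos e < i' then (1 : ℝ) else 0) - (if pos e < i' then ε e else 0)) / 2 := by
        rcases hε e with h | h
        · rw [h]
          simp only [if_true]
          rw [if_pos (by omega : pos e < j)]
          split_ifs <;> norm_num
        · rw [h]
          have h4 : ¬ ((-1 : ℝ) = 1) := by norm_num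
          rw [if_neg h4]
          by_cases h7 : pos e < i'
          · rw [if_pos h7, if_pos h7, if_neg (by omega)]
            norm_num
          · rw [if_neg h7, if_neg h7, if_pos (by omega)]
            norm_num
      have h5 : (if pos e < i' then ε e else 0) =
          (if pos e < i' then ε e - x e else 0) + x e := by
        split_ifs with h
        · ring
        · rw [hx0 e he (by omega)]; ring
      rw [h3, h5, hcast]
      have h6 : (2 * (n : ℝ) - i') / (2 * n) = 1 - ((i' : ℝ) / n) / 2 := by field_simp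
      rw [h6]
      linarith
    · intro i hi
      have h1 : ∑ e ∈ G, (-d e + x e) / 2 * v e i =
          (-(∑ e ∈ G, d e * v e i) + ∑ e ∈ G, x e * v e i) / 2 := by
        rw [← Finset.sum_neg_distrib, ← Finset.sum_add_distrib, Finset.sum_div]
        exact Finset.sum_congr rfl fun e _ => by ring
      rw [h1, hdv i hi, hxw i hi, hcast]
      have h6 : (2 * (n : ℝ) - i') / n = 2 - (i' : ℝ) / n := by field_simp
      rw [h6]
      ring

theorem fold {ι I : Type*} [DecidableEq ι] (G : Finset ι) (F : Finset I) (v : ι → I → ℝ)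
    (L : ℕ) (hL : 1 ≤ L) (Good Dr : (ι → ℝ) → Prop) (hG0 : Good 0) (hD0 : Dr 0)
    (hGc : ∀ y z, Good y → Good z → Good (fun e => (y e + z e) / 2))
    (hGn : ∀ y, Good y → Good (fun e => -y e))
    (hDc : ∀ y z, Dr y → Dr z → Dr (fun e => (y e + z e) / 2))
    (hDn : ∀ y, Dr y → Dr (fun e => -y e)) (ag cg : I → ℝ)
    (sign : ∀ (n : ℕ) (pos : ι → ℕ) (x : ι → ℝ), n ≤ 2 ^ (L - 1) → (∀ e ∈ G, |x e| ≤ 1 / 2) →
      ∃ ε : ι → ℝ, (∀ e, ε e = 1 ∨ ε e = -1) ∧ ∀ j, 1 ≤ j → j ≤ n →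
        Good (fun e => if pos e < j then ε e - x e else 0))
    (steer : ∀ (l : ℕ) (H : Finset ι) (k d : ι → ℝ), l < L → H ⊆ G → Good k → Dr d →
      (∀ e ∈ G, (if e ∈ H then (1 : ℝ) else 0) - 1 / 2 ^ l = k e + d e) →
      ∀ w : I → ℝ, ((∀ i, w i = cg i - ag i) ∨ (∀ i, w i = -(ag i + cg i))) →
      ∃ x : ι → ℝ, (∀ e, e ∉ H → x e = 0) ∧ (∀ e, |x e| ≤ 1 / 2) ∧ Dr x ∧
        ∀ i ∈ F, ∑ e ∈ G, x e * v e i = w i) :
    ∃ pos : ι → ℕ, (∀ e ∈ G, pos e < 2 ^ L) ∧ ∀ j, 1 ≤ j → j < 2 ^ L →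
      ∃ k d : ι → ℝ, Good k ∧ Dr d ∧
        (∀ e ∈ G, (if pos e < j then (1 : ℝ) else 0) - j / 2 ^ L = k e + d e) ∧
        ∀ i ∈ F, ∑ e ∈ G, d e * v e i =
          -((1 - (j : ℝ) / 2 ^ L) * ag i + ((j : ℝ) / 2 ^ L) * cg i) := by
  classical
  have hstep : ∀ l, l < L → ∀ pos : ι → ℕ, (∀ e ∈ G, pos e < 2 ^ l) →
      (∀ j, 1 ≤ j → j ≤ 2 ^ l → ∃ k d : ι → ℝ, Good k ∧ Dr d ∧
        (∀ e ∈ G, (if pos e < j then (1 : ℝ) else 0) - j / ((2 ^ l : ℕ) : ℝ) = k e + d e) ∧
        ∀ i ∈ F, ∑ e ∈ G, d e * v e i = (1 - (j : ℝ) / ((2 ^ l : ℕ) : ℝ)) * (cg i - ag i)) →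
      ∀ w : I → ℝ, ((∀ i, w i = cg i - ag i) ∨ (∀ i, w i = -(ag i + cg i))) →
      ∃ pos' : ι → ℕ, (∀ e ∈ G, pos' e < 2 * 2 ^ l) ∧ ∀ j, 1 ≤ j → j < 2 * 2 ^ l →
        ∃ k d : ι → ℝ, Good k ∧ Dr d ∧
          (∀ e ∈ G, (if pos' e < j then (1 : ℝ) else 0) - j / (2 * ((2 ^ l : ℕ) : ℝ)) =
            k e + d e) ∧
          ∀ i ∈ F, ∑ e ∈ G, d e * v e i =
            ((1 - (j : ℝ) / ((2 ^ l : ℕ) : ℝ)) * (cg i - ag i) + w i) / 2 := by
    intro l hl pos hpos hst w hw
    obtain ⟨k, d, hk, hd, hkd, _⟩ := hst 1 le_rfl Nat.one_le_two_pow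
    obtain ⟨x, hx0, hx1, hxD, hxw⟩ := steer l (G.filter (fun e => pos e < 1)) k d hl
      (Finset.filter_subset _ _) hk hd (by
        intro e he
        rw [← hkd e he]
        simp only [Finset.mem_filter, he, true_and]
        push_cast
        ring) w hw
    obtain ⟨ε, hε, hεG⟩ := sign (2 ^ l) pos x (Nat.pow_le_pow_right (by norm_num) (by omega))
      (fun e _ => hx1 e)
    exact fold_one G F v (2 ^ l) Nat.one_le_two_pow Good Dr hGc hGn hDc hDn
      (fun i => cg i - ag i) w pos hpos hst x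
      (fun e _ hne => hx0 e (fun h => hne (Finset.mem_filter.mp h).2)) hxD hxw ε hε hεG
  have main : ∀ l, l < L → ∃ pos : ι → ℕ, (∀ e ∈ G, pos e < 2 ^ l) ∧
      (∀ j, 1 ≤ j → j ≤ 2 ^ l → ∃ k d : ι → ℝ, Good k ∧ Dr d ∧
        (∀ e ∈ G, (if pos e < j then (1 : ℝ) else 0) - j / ((2 ^ l : ℕ) : ℝ) = k e + d e) ∧
        ∀ i ∈ F, ∑ e ∈ G, d e * v e i = (1 - (j : ℝ) / ((2 ^ l : ℕ) : ℝ)) * (cg i - ag i)) := by
    intro l
    induction l with
    | zero =>
      intro _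
      refine ⟨fun _ => 0, fun e _ => by simp, ?_⟩
      intro j hj1 hj2
      have hj : j = 1 := by
        rw [pow_zero] at hj2
        omega
      subst hj
      refine ⟨0, 0, hG0, hD0, ?_, ?_⟩
      · intro e _
        simp
      · intro i _
        simp
    | succ l ih =>
      intro hl
      obtain ⟨pos, hpos, hst⟩ := ih (by omega)
      obtain ⟨pos', hpos', hst'⟩ := hstep l (by omega) pos hpos hst (fun i => cg i - ag i)
        (Or.inl fun i => rfl)
      have h2n : 2 ^ (l + 1) = 2 * 2 ^ l := by rw [pow_succ]; ring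
      rw [h2n]
      refine ⟨pos', hpos', ?_⟩
      have hc : ((2 * 2 ^ l : ℕ) : ℝ) = 2 * ((2 ^ l : ℕ) : ℝ) := by push_cast; ring
      have hpos2 : (0 : ℝ) < ((2 ^ l : ℕ) : ℝ) := by positivity
      intro j hj1 hj2
      rcases Nat.eq_or_lt_of_le hj2 with h | h
      · subst h
        refine ⟨0, 0, hG0, hD0, ?_, ?_⟩
        · intro e he
          rw [if_pos (hpos' e he), div_self (by positivity)]
          simp
        · intro i _
          rw [div_self (by positivity)]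
          simp
      · obtain ⟨k, d, hk, hd, hkd, hdv⟩ := hst' j hj1 h
        refine ⟨k, d, hk, hd, ?_, ?_⟩
        · intro e he
          rw [hc]
          exact hkd e he
        · intro i hi
          rw [hdv i hi, hc]
          have : (j : ℝ) / (2 * ((2 ^ l : ℕ) : ℝ)) = ((j : ℝ) / ((2 ^ l : ℕ) : ℝ)) / 2 := by
            field_simp
          rw [this]
          ring
  obtain ⟨pos, hpos, hst⟩ := main (L - 1) (by omega)
  obtain ⟨pos', hpos', hst'⟩ := hstep (L - 1) (by omega) pos hpos hst (fun i => -(ag i + cg i))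
    (Or.inr fun i => rfl)
  have h2n : 2 ^ L = 2 * 2 ^ (L - 1) := by
    obtain ⟨M, rfl⟩ : ∃ M, L = M + 1 := ⟨L - 1, by omega⟩
    rw [Nat.add_sub_cancel, pow_succ]
    ring
  have h2r : (2 : ℝ) ^ L = 2 * ((2 ^ (L - 1) : ℕ) : ℝ) := by
    have := congrArg (fun n : ℕ => (n : ℝ)) h2n
    push_cast at this ⊢
    exact this
  refine ⟨pos', ?_, ?_⟩
  · rw [h2n]; exact hpos'
  · intro j hj1 hj2
    rw [h2n] at hj2
    obtain ⟨k, d, hk, hd, hkd, hdv⟩ := hst' j hj1 hj2
    refine ⟨k, d, hk, hd, ?_, ?_⟩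
    · intro e he
      rw [h2r]
      exact hkd e he
    · intro i hi
      rw [hdv i hi, h2r]
      have hpos2 : (0 : ℝ) < ((2 ^ (L - 1) : ℕ) : ℝ) := by positivity
      have : (j : ℝ) / (2 * ((2 ^ (L - 1) : ℕ) : ℝ)) =
          ((j : ℝ) / ((2 ^ (L - 1) : ℕ) : ℝ)) / 2 := by field_simp
      rw [this]
      ring

end P262C
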