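import Mathlib

/-!
# P262 full: lower bound `S₂(d) ≥ (1/4) √d` (known; for completeness of the order of growth)

`d = 1`: `v = (1, -1)`.  `d ≥ 2`: `e_1, …, e_d` and `d` copies of `-(1/d) ∑ e_i` (`N = 2 d`).  Let `k`
be the first time at which `⌊d/2⌋ =: h` of the vectors `e_i` have appeared; if `r` copies of the other
vector have appeared, the partial sum has `h` coordinates `1 - r/d` and `d - h` coordinates `-r/d`;
its squared norm is `h (1 - r/d)² + (d-h) (r/d)² ≥ h (d-h)/d ≥ d/16`.
-/

open Finset

namespace P262C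

/-- the example -/
noncomputable def lowv (d : ℕ) (i : Fin (2 * d)) : EuclideanSpace ℝ (Fin d) :=
  WithLp.toLp 2 (fun j => if i.val < d then (if i.val = j.val then 1 else 0) else -(1 / (d : ℝ)))

lemma lowv_apply (d : ℕ) (i : Fin (2 * d)) (j : Fin d) :
    lowv d i j = if i.val < d then (if i.val = j.val then 1 else 0) else -(1 / (d : ℝ)) := rfl

lemma lowv_norm (d : ℕ) (hd : 1 ≤ d) (i : Fin (2 * d)) : ‖lowv d i‖ ≤ 1 := by
  have hdR : (1 : ℝ) ≤ d := by exact_mod_cast hd
  rw [EuclideanSpace.norm_eq, Real.sqrt_le_one]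
  simp_rw [lowv_apply, Real.norm_eq_abs, sq_abs]
  by_cases h : i.val < d
  · simp_rw [if_pos h]
    rw [Finset.sum_eq_single (⟨i.val, h⟩ : Fin d)]
    · simp
    · intro b _ hb
      have : i.val ≠ b.val := fun h' => hb (Fin.ext h'.symm)
      simp [this]
    · intro h'; exact absurd (Finset.mem_univ _) h'
  · simp_rw [if_neg h]
    rw [Finset.sum_const, Finset.card_univ, Fintype.card_fin, nsmul_eq_mul]
    have : (d : ℝ) * (-(1 / (d : ℝ))) ^ 2 = 1 / d := by field_simp
    rw [this, div_le_one (by linarith)]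
    exact hdR

lemma card_lt_fin (d : ℕ) : (Finset.univ.filter (fun i : Fin (2 * d) => i.val < d)).card = d := by
  have h1 : (Finset.univ.filter (fun i : Fin (2 * d) => i.val < d)) =
      (Finset.univ : Finset (Fin d)).image (fun j => (⟨j.val, by omega⟩ : Fin (2 * d))) := by
    ext i
    simp only [Finset.mem_filter, Finset.mem_univ, true_and, Finset.mem_image]
    constructor
    · intro h; exact ⟨⟨i.val, h⟩, rfl⟩
    · rintro ⟨j, rfl⟩; exact j.isLt
  rw [h1, Finset.card_image_of_injective, Finset.card_univ, Fintype.card_fin]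
  intro a b h
  have h' := congrArg Fin.val h
  exact Fin.ext h'

lemma lowv_sum (d : ℕ) (hd : 1 ≤ d) : ∑ i, lowv d i = 0 := by
  have hdR : (0 : ℝ) < d := by exact_mod_cast hd
  ext j
  rw [WithLp.ofLp_sum, Finset.sum_apply]
  show ∑ i, lowv d i j = 0
  simp_rw [lowv_apply]
  rw [Finset.sum_ite, Finset.sum_const]
  have h1 : ∑ i ∈ Finset.univ.filter (fun i : Fin (2 * d) => i.val < d),
      (if i.val = j.val then (1 : ℝ) else 0) = 1 := by
    rw [Finset.sum_eq_single (⟨j.val, by omega⟩ : Fin (2 * d))]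
    · simp
    · intro b _ hb
      have : b.val ≠ j.val := fun h' => hb (Fin.ext h')
      simp [this]
    · intro h'
      exact absurd (by simp) h'
  have h2 : (Finset.univ.filter (fun i : Fin (2 * d) => ¬ i.val < d)).card = d := by
    have h3 := Finset.card_filter_add_card_filter_not (s := (Finset.univ : Finset (Fin (2 * d))))
      (fun i => i.val < d)
    rw [card_lt_fin, Finset.card_univ, Fintype.card_fin] at h3
    omega
  rw [h1, h2, nsmul_eq_mul]
  field_simp
  ring

theorem lower_two (d : ℕ) (hd : 2 ≤ d) (π : Equiv.Perm (Fin (2 * d))) : ∃ k : ℕ, k ≤ 2 * d ∧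
      1 / 4 * Real.sqrt d ≤ ‖∑ i with i.val < k, lowv d (π i)‖ := by
  have hdR : (0 : ℝ) < d := by exact_mod_cast (by omega : 0 < d)
  set c : ℕ → ℕ := fun k => (Finset.univ.filter
    (fun i : Fin (2 * d) => i.val < k ∧ (π i).val < d)).card with hc
  have hc0 : c 0 = 0 := by simp [hc]
  have hcN : c (2 * d) = d := by
    have h1 : (Finset.univ.filter (fun i : Fin (2 * d) => i.val < 2 * d ∧ (π i).val < d)).card =
        (Finset.univ.filter (fun i : Fin (2 * d) => i.val < d)).card := by
      apply Finset.card_bij (fun i _ => π i)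
      · intro i hi; simpa using (Finset.mem_filter.mp hi).2.2
      · intro a _ b _ h; exact π.injective h
      · intro b hb
        refine ⟨π.symm b, ?_, by simp⟩
        simp only [Finset.mem_filter, Finset.mem_univ, true_and, Equiv.apply_symm_apply] at hb ⊢
        exact ⟨(π.symm b).isLt, hb⟩
    show (Finset.univ.filter (fun i : Fin (2 * d) => i.val < 2 * d ∧ (π i).val < d)).card = d
    rw [h1, card_lt_fin]
  have hcs : ∀ k, c (k + 1) ≤ c k + 1 := by
    intro k
    show (Finset.univ.filter (fun i : Fin (2 * d) => i.val < k + 1 ∧ (π i).val < d)).card ≤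
      (Finset.univ.filter (fun i : Fin (2 * d) => i.val < k ∧ (π i).val < d)).card + 1
    by_cases hk : k < 2 * d
    · refine le_trans (Finset.card_le_card (t := insert ⟨k, hk⟩ (Finset.univ.filter
        (fun i : Fin (2 * d) => i.val < k ∧ (π i).val < d))) ?_) (Finset.card_insert_le _ _)
      intro i hi
      simp only [Finset.mem_filter, Finset.mem_univ, true_and, Finset.mem_insert] at hi ⊢
      by_cases h : i.val = k
      · left; exact Fin.ext h
      · right; exact ⟨by omega, hi.2⟩
    · refine le_trans (Finset.card_le_card ?_) (Nat.le_succ _)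
      intro i hi
      simp only [Finset.mem_filter, Finset.mem_univ, true_and] at hi ⊢
      exact ⟨by have := i.isLt; omega, hi.2⟩
  -- first time `h` unit vectors have appeared
  obtain ⟨k, hkN, hk⟩ : ∃ k, k ≤ 2 * d ∧ c k = d / 2 := by
    have hex : ∃ k, d / 2 ≤ c k := ⟨2 * d, by rw [hcN]; omega⟩
    classical
    have h1 := Nat.find_spec hex
    have h2 : Nat.find hex ≤ 2 * d := Nat.find_min' hex (by rw [hcN]; omega)
    refine ⟨Nat.find hex, h2, ?_⟩
    rcases Nat.eq_zero_or_pos (Nat.find hex) with h0 | h0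
    · rw [h0, hc0] at h1; omega
    · have h3 := Nat.find_min hex (Nat.sub_lt h0 one_pos)
      have h4 := hcs (Nat.find hex - 1)
      rw [Nat.sub_add_cancel h0] at h4
      omega
  refine ⟨k, hkN, ?_⟩
  set F := Finset.univ.filter (fun i : Fin (2 * d) => i.val < k) with hF
  set s : ℝ := ((F.filter (fun i => ¬ (π i).val < d)).card : ℝ) / d with hs
  set a : Fin d → ℝ := fun j => ((F.filter (fun i => (π i).val = j.val)).card : ℝ) with ha
  have hcoord : ∀ j : Fin d, (∑ i ∈ F, lowv d (π i)) j = a j - s := by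
    intro j
    rw [WithLp.ofLp_sum, Finset.sum_apply]
    show ∑ i ∈ F, lowv d (π i) j = _
    simp_rw [lowv_apply]
    rw [Finset.sum_ite, Finset.sum_const, nsmul_eq_mul]
    have h1 : ∑ i ∈ F.filter (fun i => (π i).val < d), (if (π i).val = j.val then (1 : ℝ) else 0) =
        a j := by
      rw [← Finset.sum_filter, Finset.sum_const, nsmul_eq_mul, mul_one, ha]
      congr 2
      rw [Finset.filter_filter]
      apply Finset.filter_congr
      intro i _
      constructor
      · exact fun h => h.2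
      · exact fun h => ⟨by rw [h]; exact j.isLt, h⟩
    rw [h1, hs]
    ring
  have ha01 : ∀ j, a j ^ 2 = a j := by
    intro j
    have h1 : (F.filter (fun i => (π i).val = j.val)).card ≤ 1 := by
      rw [Finset.card_le_one]
      intro x hx y hy
      simp only [Finset.mem_filter] at hx hy
      exact π.injective (Fin.ext (hx.2.trans hy.2.symm))
    rcases Nat.le_one_iff_eq_zero_or_eq_one.mp h1 with h | h
    · simp [ha, h]
    · simp [ha, h]
  have hsum : ∑ j, a j = ((d / 2 : ℕ) : ℝ) := by
    rw [← hk]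
    have h1 : ∑ j : Fin d, (F.filter (fun i => (π i).val = j.val)).card = c k := by
      have h2 : ∀ j : Fin d, (F.filter (fun i => (π i).val = j.val)).card =
          ∑ i ∈ F, if (π i).val = j.val then 1 else 0 := fun j => Finset.card_filter _ _
      simp_rw [h2]
      rw [Finset.sum_comm]
      have h3 : c k = ∑ i ∈ F, if (π i).val < d then 1 else 0 := by
        rw [← Finset.card_filter, hF, Finset.filter_filter]
      rw [h3]
      apply Finset.sum_congr rfl
      intro i _
      by_cases h4 : (π i).val < d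
      · rw [if_pos h4, Finset.sum_eq_single (⟨(π i).val, h4⟩ : Fin d)]
        · simp
        · intro b _ hb
          have : (π i).val ≠ b.val := fun h' => hb (Fin.ext h'.symm)
          simp [this]
        · intro h'; exact absurd (Finset.mem_univ _) h'
      · rw [if_neg h4]
        apply Finset.sum_eq_zero
        intro j _
        rw [if_neg]
        intro h5
        exact h4 (by rw [h5]; exact j.isLt)
    show ∑ j : Fin d, ((F.filter (fun i => (π i).val = j.val)).card : ℝ) = _
    rw [← h1]
    push_cast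
    rfl
  have hnorm : ‖∑ i ∈ F, lowv d (π i)‖ ^ 2 = ((d / 2 : ℕ) : ℝ) - 2 * s * ((d / 2 : ℕ) : ℝ) +
      d * s ^ 2 := by
    rw [EuclideanSpace.norm_sq_eq]
    have h1 : ∀ j : Fin d, ‖(∑ i ∈ F, lowv d (π i)) j‖ ^ 2 = a j - 2 * s * a j + s ^ 2 := by
      intro j
      rw [hcoord j, Real.norm_eq_abs, sq_abs, sub_sq, ha01 j]
      ring
    simp_rw [h1]
    rw [Finset.sum_add_distrib, Finset.sum_sub_distrib, ← Finset.mul_sum, hsum, Finset.sum_const,
      Finset.card_univ, Fintype.card_fin, nsmul_eq_mul]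
  have hlow : (d : ℝ) / 16 ≤ ‖∑ i ∈ F, lowv d (π i)‖ ^ 2 := by
    rw [hnorm]
    set h : ℝ := ((d / 2 : ℕ) : ℝ) with hh
    have h1 : (d : ℝ) / 3 ≤ h := by
      have : d ≤ 3 * (d / 2) := by omega
      have h2 : (d : ℝ) ≤ 3 * h := by rw [hh]; exact_mod_cast this
      linarith
    have h2 : h ≤ (d : ℝ) / 2 := by
      have : 2 * (d / 2) ≤ d := by omega
      have h3 : 2 * h ≤ (d : ℝ) := by rw [hh]; exact_mod_cast this
      linarith
    have h3 : h - 2 * s * h + d * s ^ 2 = d * (s - h / d) ^ 2 + (h - h ^ 2 / d) := by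
      field_simp
      ring
    have h4 : 0 ≤ d * (s - h / d) ^ 2 := by positivity
    have h5 : h ^ 2 / d ≤ h / 2 := by
      rw [div_le_iff₀ hdR]
      nlinarith
    rw [h3]
    linarith
  have h6 : 1 / 4 * Real.sqrt d = Real.sqrt (d / 16) := by
    rw [Real.sqrt_div hdR.le, show (16 : ℝ) = 4 ^ 2 by norm_num, Real.sqrt_sq (by norm_num)]
    ring
  rw [h6]
  exact Real.sqrt_le_iff.mpr ⟨norm_nonneg _, hlow⟩

theorem lower (d : ℕ) (hd : 1 ≤ d) : ∃ (N : ℕ) (v : Fin N → EuclideanSpace ℝ (Fin d)),
    (∀ i, ‖v i‖ ≤ 1) ∧ ∑ i, v i = 0 ∧ ∀ π : Equiv.Perm (Fin N), ∃ k : ℕ, k ≤ N ∧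
      1 / 4 * Real.sqrt d ≤ ‖∑ i with i.val < k, v (π i)‖ := by
  refine ⟨2 * d, lowv d, lowv_norm d hd, lowv_sum d hd, ?_⟩
  intro π
  by_cases hd2 : 2 ≤ d
  · exact lower_two d hd2 π
  · have hd1 : d = 1 := by omega
    subst hd1
    refine ⟨1, by norm_num, ?_⟩
    have h1 : (Finset.univ.filter (fun i : Fin (2 * 1) => i.val < 1)) = {⟨0, by norm_num⟩} := by
      ext i
      simp only [Finset.mem_filter, Finset.mem_univ, true_and, Finset.mem_singleton, Fin.ext_iff]
      omega
    rw [h1, Finset.sum_singleton]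
    have h2 : ∀ i : Fin (2 * 1), ‖lowv 1 i‖ = 1 := by
      intro i
      rw [EuclideanSpace.norm_eq]
      simp_rw [lowv_apply, Real.norm_eq_abs, sq_abs]
      by_cases h : i.val < 1
      · have h0 : i.val = 0 := by omega
        simp [h0]
      · simp [h]
    rw [h2]
    norm_num

end P262C
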