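import Vale.Agent.P262.Full.Defs

/-!
# P262 full: API for `p2`, `om`, `nn`, fat/thin sets
-/

open Finset

namespace P262C

theorem p2_pos (x : ℝ) : 0 < p2 x := Real.rpow_pos_of_pos (by norm_num) x
theorem p2_nonneg (x : ℝ) : 0 ≤ p2 x := (p2_pos x).le
theorem p2_ne (x : ℝ) : p2 x ≠ 0 := (p2_pos x).ne'
theorem p2_zero : p2 0 = 1 := Real.rpow_zero 2
theorem p2_one : p2 1 = 2 := Real.rpow_one 2
theorem p2_add (x y : ℝ) : p2 (x + y) = p2 x * p2 y := Real.rpow_add (by norm_num) x y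
theorem p2_sub (x y : ℝ) : p2 (x - y) = p2 x / p2 y := Real.rpow_sub (by norm_num) x y
theorem p2_neg (x : ℝ) : p2 (-x) = (p2 x)⁻¹ := Real.rpow_neg (by norm_num) x
theorem p2_le {x y : ℝ} (h : x ≤ y) : p2 x ≤ p2 y :=
  Real.rpow_le_rpow_of_exponent_le (by norm_num) h
theorem p2_lt {x y : ℝ} (h : x < y) : p2 x < p2 y :=
  Real.rpow_lt_rpow_of_exponent_lt (by norm_num) h
theorem p2_le_iff {x y : ℝ} : p2 x ≤ p2 y ↔ x ≤ y :=
  Real.rpow_le_rpow_left_iff (by norm_num)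
theorem one_le_p2 {x : ℝ} (h : 0 ≤ x) : 1 ≤ p2 x := by
  rw [← p2_zero]; exact p2_le h
theorem p2_le_one {x : ℝ} (h : x ≤ 0) : p2 x ≤ 1 := by
  rw [← p2_zero]; exact p2_le h
theorem p2_nat (n : ℕ) : p2 n = 2 ^ n := Real.rpow_natCast 2 n
theorem p2_two_mul_nat (m : ℕ) : p2 (2 * (m : ℝ)) = 2 ^ (2 * m) := by
  have : (2 * (m : ℝ)) = ((2 * m : ℕ) : ℝ) := by push_cast; ring
  rw [this, p2_nat]
theorem p2_pow (x : ℝ) (n : ℕ) : p2 x ^ n = p2 (n * x) := by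
  unfold p2
  rw [mul_comm, Real.rpow_mul (by norm_num), Real.rpow_natCast]
theorem p2_sq (x : ℝ) : p2 x ^ 2 = p2 (2 * x) := by
  rw [p2_pow]; norm_num
theorem p2_sqrt (x : ℝ) : Real.sqrt (p2 x) = p2 (x / 2) := by
  rw [Real.sqrt_eq_iff_mul_self_eq (p2_nonneg _) (p2_nonneg _), ← p2_add]
  congr 1; ring
theorem p2_logb {K : ℝ} (hK : 0 < K) : p2 (Real.logb 2 K) = K :=
  Real.rpow_logb (by norm_num) (by norm_num) hK
/-- `c ≤ 2^n` gives `c * p2 x ≤ p2 (x + n)` -/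
theorem mul_p2_le {c : ℝ} {n : ℕ} (hc : c ≤ 2 ^ n) (x : ℝ) : c * p2 x ≤ p2 (x + n) := by
  rw [p2_add, p2_nat, mul_comm]
  exact mul_le_mul_of_nonneg_left hc (p2_nonneg _)
/-- `c ≤ 2^n` and `x + n ≤ y` gives `c * p2 x ≤ p2 y` -/
theorem mul_p2_le' {c : ℝ} (n : ℕ) (hc : c ≤ 2 ^ n) {x y : ℝ} (h : x + n ≤ y) :
    c * p2 x ≤ p2 y := (mul_p2_le hc x).trans (p2_le h)

theorem al_pos : 0 < al := by unfold al; norm_num
theorem om_pos (x : ℝ) : 0 < om x := p2_pos _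
theorem om_nonneg (x : ℝ) : 0 ≤ om x := (om_pos x).le
theorem om_of_nonneg {x : ℝ} (h : 0 ≤ x) : om x = p2 (-(al * x)) := by
  unfold om; rw [abs_of_nonneg h]
theorem om_of_nonpos {x : ℝ} (h : x ≤ 0) : om x = p2 (al * x) := by
  unfold om; rw [abs_of_nonpos h]; congr 1; ring
theorem om_le_one (x : ℝ) : om x ≤ 1 :=
  p2_le_one (neg_nonpos.mpr (mul_nonneg al_pos.le (abs_nonneg x)))

variable {I : Type*} [Fintype I]

theorem nn_nonneg (X : I → ℝ) : 0 ≤ nn X := Finset.sum_nonneg fun _ _ => om_nonneg _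

theorem sum_om_le (X : I → ℝ) (S : Finset I) : ∑ i ∈ S, om (X i) ≤ nn X :=
  Finset.sum_le_sum_of_subset_of_nonneg (Finset.subset_univ S) fun _ _ _ => om_nonneg _

/-- if `f i ≤ c * om (X i)` on `S` then `∑_S f ≤ c * nn X` -/
theorem sum_le_nn {X : I → ℝ} {S : Finset I} {f : I → ℝ} {c : ℝ} (hc : 0 ≤ c)
    (h : ∀ i ∈ S, f i ≤ c * om (X i)) : ∑ i ∈ S, f i ≤ c * nn X := by
  refine (Finset.sum_le_sum h).trans ?_
  rw [← Finset.mul_sum]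
  exact mul_le_mul_of_nonneg_left (sum_om_le X S) hc

variable [DecidableEq I]

theorem mem_Fat {X : I → ℝ} {m : ℕ} {i : I} : i ∈ Fat X m ↔ 3 * (m : ℝ) ≤ X i := by
  simp [Fat]
theorem mem_Thin {X : I → ℝ} {m : ℕ} {i : I} : i ∈ Thin X m ↔ X i < -(16 * (m : ℝ)) := by
  simp [Thin]
theorem mem_Mid {X : I → ℝ} {m : ℕ} {i : I} :
    i ∈ Mid X m ↔ -(16 * (m : ℝ)) ≤ X i ∧ X i < 3 * (m : ℝ) := by
  simp [Mid]

theorem Par.hmR {X : I → ℝ} {m m' : ℕ} (h : Par X m m') : (1024 : ℝ) ≤ m := by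
  exact_mod_cast h.hm
theorem Par.h1R {X : I → ℝ} {m m' : ℕ} (h : Par X m m') : 399 * (m : ℝ) ≤ 400 * m' := by
  exact_mod_cast h.h1
theorem Par.h2R {X : I → ℝ} {m m' : ℕ} (h : Par X m m') : 400 * (m' : ℝ) ≤ 401 * m := by
  exact_mod_cast h.h2

/-- thin stays thin -/
theorem Thin_sub {X : I → ℝ} {m m' : ℕ} (h : Par X m m') : Thin X m ⊆ Thin (nx X m) m' := by
  intro i hi
  rw [mem_Thin] at hi ⊢
  have h2 := h.h2R
  have hm := h.hmR
  simp only [nx]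
  linarith

/-- fat sets decrease -/
theorem Fat_sub {X : I → ℝ} {m m' : ℕ} (h : Par X m m') : Fat (nx X m) m' ⊆ Fat X m := by
  intro i hi
  rw [mem_Fat] at hi ⊢
  have h1 := h.h1R
  have hm := h.hmR
  simp only [nx] at hi
  linarith

theorem Thin_fat {X : I → ℝ} {m m' : ℕ} (h : Par X m m') {i : I}
    (hi : i ∈ Thin (nx X m) m') : i ∉ Fat X m := by
  rw [mem_Thin] at hi
  rw [mem_Fat]
  have h1 := h.h1R
  have hm := h.hmR
  simp only [nx] at hi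
  intro h3
  linarith

end P262C
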