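import Vale.Agent.P262.Full.Defs

/-!
# P262 full: potential, pieces [P1] - [P5]
-/

open Finset

namespace P262C

set_option linter.unusedSectionVars false

variable {ι I : Type} [Fintype I] [DecidableEq I] [DecidableEq ι]

theorem p2A_pos (x : ℝ) : 0 < p2 x := Real.rpow_pos_of_pos (by norm_num) x

theorem p2A_add (x y : ℝ) : p2 (x + y) = p2 x * p2 y := Real.rpow_add (by norm_num) x y

theorem p2A_mono {x y : ℝ} (h : x ≤ y) : p2 x ≤ p2 y :=
  Real.rpow_le_rpow_of_exponent_le (by norm_num) h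

theorem p2A_nat (n : ℕ) : p2 (n : ℝ) = 2 ^ n := Real.rpow_natCast 2 n

/-- `|ex| |z| = ex² + τ |ex|` -/
theorem potA_ex_abs (x z : ℝ) : |ex x z| * |z| = |ex x z| ^ 2 + p2 (x / 32) * |ex x z| := by
  have hτ := p2A_pos (x / 32)
  unfold ex cl
  rcases lt_trichotomy z (-(p2 (x / 32))) with h | h | h
  · rw [min_eq_right (by linarith), max_eq_left (by linarith), abs_of_neg (by linarith),
      abs_of_neg (by linarith)]
    ring
  · rw [h, min_eq_right (by linarith), max_self, sub_self]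
    simp
  · rcases le_or_gt z (p2 (x / 32)) with h' | h'
    · rw [min_eq_right h', max_eq_right h.le, sub_self]
      simp
    · rw [min_eq_left h'.le, max_eq_right (by linarith), abs_of_pos (by linarith),
        abs_of_pos (by linarith)]
      ring

theorem potA_ex_eq_zero {x z : ℝ} (h : |z| ≤ p2 (x / 32)) : ex x z = 0 := by
  obtain ⟨h1, h2⟩ := abs_le.1 h
  unfold ex cl
  rw [min_eq_right h2, max_eq_right h1, sub_self]

theorem potA_ex_lt {x z : ℝ} (h : p2 (x / 32) < |z|) : |z| = |ex x z| + p2 (x / 32) := by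
  have hτ := p2A_pos (x / 32)
  have h1 := potA_ex_abs x z
  have h2 : ex x z ≠ 0 := by
    intro h0
    unfold ex cl at h0
    rcases le_or_gt 0 z with hz | hz
    · rw [abs_of_nonneg hz] at h
      rw [min_eq_left h.le, max_eq_right (by linarith)] at h0
      linarith
    · rw [abs_of_neg hz] at h
      rw [min_eq_right (by linarith), max_eq_left (by linarith)] at h0
      linarith
  have h3 : 0 < |ex x z| := abs_pos.2 h2
  have h4 : |ex x z| * |z| = |ex x z| * (|ex x z| + p2 (x / 32)) := by rw [h1]; ring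
  exact mul_left_cancel₀ h3.ne' h4

/-- [P1] -/
theorem soft (x a c k θ : ℝ) (h0 : 0 ≤ θ) (h1 : θ ≤ 1) (hk : |k| ≤ p2 (x / 32) / 2) :
    ((1 - θ) * ex x a + θ * ex x c + k) ^ 2 ≤
      (1 - θ) * (|ex x a| * |a|) + θ * (|ex x c| * |c|) + k ^ 2 := by
  have hτ := p2A_pos (x / 32)
  set A := |ex x a| with hA
  set B := |ex x c| with hB
  have hA0 : 0 ≤ A := abs_nonneg _
  have hB0 : 0 ≤ B := abs_nonneg _
  have eA : A * |a| = A ^ 2 + p2 (x / 32) * A := potA_ex_abs x a
  have eB : B * |c| = B ^ 2 + p2 (x / 32) * B := potA_ex_abs x c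
  have hθ : 0 ≤ 1 - θ := by linarith
  have l1 : |(1 - θ) * ex x a + θ * ex x c + k| ≤ (1 - θ) * A + θ * B + |k| := by
    refine (abs_add_le _ _).trans (add_le_add ((abs_add_le _ _).trans ?_) le_rfl)
    rw [abs_mul, abs_mul, abs_of_nonneg hθ, abs_of_nonneg h0]
  have l2 : ((1 - θ) * ex x a + θ * ex x c + k) ^ 2 ≤ ((1 - θ) * A + θ * B + |k|) ^ 2 := by
    rw [← sq_abs]
    exact pow_le_pow_left₀ (abs_nonneg _) l1 2
  refine l2.trans ?_
  rw [eA, eB]
  set D := (1 - θ) * A + θ * B with hD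
  have hD0 : 0 ≤ D := by positivity
  have l3 : D ^ 2 ≤ (1 - θ) * A ^ 2 + θ * B ^ 2 := by
    have : (1 - θ) * A ^ 2 + θ * B ^ 2 - D ^ 2 = (1 - θ) * θ * (A - B) ^ 2 := by rw [hD]; ring
    nlinarith [mul_nonneg (mul_nonneg hθ h0) (sq_nonneg (A - B))]
  have l4 : 2 * |k| * D ≤ p2 (x / 32) * D := mul_le_mul_of_nonneg_right (by linarith) hD0
  have l5 : |k| ^ 2 = k ^ 2 := sq_abs k
  have l6 : p2 (x / 32) * D = (1 - θ) * (p2 (x / 32) * A) + θ * (p2 (x / 32) * B) := by
    rw [hD]; ring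
  nlinarith

theorem potA_card_fat_le {X : I → ℝ} {m m' : ℕ} (hp : Par X m m') {j : I} (hj : j ∈ Fat X m) :
    (((Fat X m).filter (fun i => X i ≤ X j)).card : ℝ) ≤ p2 ((m : ℝ) / 16 + al * X j) := by
  have hXj : 3 * (m : ℝ) ≤ X j := (mem_filter.1 hj).2
  have hm0 : (0 : ℝ) ≤ m := Nat.cast_nonneg m
  have h1 : ∀ i ∈ (Fat X m).filter (fun i => X i ≤ X j), p2 (-(al * X j)) ≤ om (X i) := by
    intro i hi
    obtain ⟨hi1, hi2⟩ := mem_filter.1 hi
    have hXi : 3 * (m : ℝ) ≤ X i := (mem_filter.1 hi1).2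
    unfold om
    apply p2A_mono
    rw [abs_of_nonneg (by linarith)]
    have : (0 : ℝ) ≤ al := by unfold al; norm_num
    nlinarith
  have h2 : (((Fat X m).filter (fun i => X i ≤ X j)).card : ℝ) * p2 (-(al * X j)) ≤ nn X := by
    rw [← nsmul_eq_mul, ← Finset.sum_const]
    refine (Finset.sum_le_sum h1).trans ?_
    unfold nn
    exact Finset.sum_le_sum_of_subset_of_nonneg (subset_univ _)
      fun i _ _ => (p2A_pos _).le
  have h3 := h2.trans hp.hn
  have h4 : p2 (-(al * X j)) * p2 (al * X j) = 1 := by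
    rw [← p2A_add, neg_add_cancel]
    unfold p2; simp
  have h5 := mul_le_mul_of_nonneg_right h3 (p2A_pos (al * X j)).le
  rw [p2A_add]
  calc (((Fat X m).filter (fun i => X i ≤ X j)).card : ℝ)
      = (((Fat X m).filter (fun i => X i ≤ X j)).card : ℝ) *
        (p2 (-(al * X j)) * p2 (al * X j)) := by rw [h4, mul_one]
    _ ≤ _ := by rw [← mul_assoc]; exact h5

theorem potA_tau_big {x : ℝ} {m : ℕ} (hm : 1024 ≤ m) (hx : 3 * (m : ℝ) ≤ x) :
    CC * p2 ((m : ℝ) / 16 + al * x) + u0 ≤ p2 (x / 16) := by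
  have hm' : (1024 : ℝ) ≤ m := by exact_mod_cast hm
  have e1 : p2 (x / 16) = p2 (x / 16 - 1) + p2 (x / 16 - 1) := by
    have : x / 16 = (x / 16 - 1) + 1 := by ring
    conv_lhs => rw [this, p2A_add]
    have h1 : p2 1 = 2 := by unfold p2; simp
    rw [h1]; ring
  rw [e1]
  apply add_le_add
  · have h1 : CC = p2 15 := by
      have := p2A_nat 15
      rw [CC]
      norm_num at this
      rw [this]
    rw [h1, ← p2A_add]
    apply p2A_mono
    unfold al
    nlinarith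
  · have h1 : u0 ≤ p2 26 := by
      have := p2A_nat 26
      unfold u0
      norm_num at this
      rw [this]
      norm_num
    refine h1.trans (p2A_mono ?_)
    linarith

/-- [P2] -/
theorem pot_exc {X : I → ℝ} {m m' : ℕ} (hp : Par X m m') {w : I → ℝ} {P : ℝ} {a : I → ℝ}
    (h : Pot X m w P a) :
    ∑ i ∈ (Fat X m)ᶜ, w i * a i ^ 2 + ∑ i ∈ Fat X m, |ex (X i) (a i)| * |a i| + u0 ≤ P := by
  classical
  set S := (Fat X m).filter (fun i => p2 (X i / 32) < |a i|) with hS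
  have hsum : ∑ i ∈ Fat X m, |ex (X i) (a i)| * |a i| = ∑ i ∈ S, |ex (X i) (a i)| * |a i| := by
    rw [hS, Finset.sum_filter]
    refine Finset.sum_congr rfl fun i _ => ?_
    split_ifs with hc
    · rfl
    · rw [potA_ex_eq_zero (not_lt.1 hc)]; simp
  rw [hsum]
  rcases S.eq_empty_or_nonempty with h0 | h0
  · rw [h0, Finset.sum_empty, add_zero]
    exact h.base
  · obtain ⟨j, hjS, hjmax⟩ := S.exists_max_image X h0
    obtain ⟨hjF, hja⟩ := mem_filter.1 hjS
    have hXj : 3 * (m : ℝ) ≤ X j := (mem_filter.1 hjF).2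
    have hpre := h.pre j hjF
    have hsub : S ⊆ (Fat X m).filter (fun i => X i ≤ X j) := by
      intro i hi
      exact mem_filter.2 ⟨(mem_filter.1 hi).1, hjmax i hi⟩
    have hle : ∑ i ∈ S, |ex (X i) (a i)| * |a i| ≤ ∑ i ∈ S, a i ^ 2 - p2 (X j / 16) := by
      have hterm : ∀ i ∈ S, |ex (X i) (a i)| * |a i| ≤ a i ^ 2 - p2 (X i / 32) ^ 2 := by
        intro i hi
        have hlt := potA_ex_lt (mem_filter.1 hi).2
        have hτ := p2A_pos (X i / 32)
        have he := potA_ex_abs (X i) (a i)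
        have h2 : a i ^ 2 = |a i| ^ 2 := (sq_abs _).symm
        rw [he, h2, hlt]
        nlinarith [mul_nonneg hτ.le (abs_nonneg (ex (X i) (a i)))]
      have h16 : ∀ i, p2 (X i / 32) ^ 2 = p2 (X i / 16) := by
        intro i
        rw [sq, ← p2A_add]
        congr 1; ring
      calc ∑ i ∈ S, |ex (X i) (a i)| * |a i| ≤ ∑ i ∈ S, (a i ^ 2 - p2 (X i / 32) ^ 2) :=
            Finset.sum_le_sum hterm
        _ = ∑ i ∈ S, a i ^ 2 - ∑ i ∈ S, p2 (X i / 32) ^ 2 := Finset.sum_sub_distrib _ _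
        _ ≤ ∑ i ∈ S, a i ^ 2 - p2 (X j / 16) := by
            have := Finset.single_le_sum (f := fun i => p2 (X i / 32) ^ 2)
              (fun i _ => sq_nonneg _) hjS
            rw [h16 j] at this
            linarith
    have hS2 : ∑ i ∈ S, a i ^ 2 ≤ ∑ i ∈ (Fat X m).filter (fun i => X i ≤ X j), a i ^ 2 :=
      Finset.sum_le_sum_of_subset_of_nonneg hsub fun i _ _ => sq_nonneg _
    rw [Finset.sum_sub_distrib, Finset.sum_const, nsmul_eq_mul] at hpre
    have hcard := potA_card_fat_le hp hjF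
    have hbig := potA_tau_big hp.hm hXj
    have hCC : (0 : ℝ) ≤ CC := by unfold CC; norm_num
    have h5 := mul_le_mul_of_nonneg_left hcard hCC
    nlinarith

/-! ### structure of the fat sets -/

theorem potA_fat_next_subset {X : I → ℝ} {m m' : ℕ} (hp : Par X m m') :
    Fat (nx X m) m' ⊆ Fat X m := by
  intro i hi
  have h1 : 3 * (m' : ℝ) ≤ nx X m i := (mem_filter.1 hi).2
  have h2 : (399 : ℝ) * m ≤ 400 * m' := by exact_mod_cast hp.h1
  have hm0 : (0 : ℝ) ≤ m := Nat.cast_nonneg m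
  refine mem_filter.2 ⟨mem_univ _, ?_⟩
  unfold nx at h1
  linarith

theorem potA_fat_compl_split {X : I → ℝ} {m m' : ℕ} (hp : Par X m m') (f : I → ℝ) :
    ∑ i ∈ (Fat (nx X m) m')ᶜ, f i = ∑ i ∈ (Fat X m)ᶜ, f i + ∑ i ∈ NewMid X m m', f i := by
  classical
  have hsub := potA_fat_next_subset hp
  rw [← Finset.sum_union]
  · congr 1
    ext i
    unfold NewMid
    simp only [mem_compl, mem_union, mem_sdiff]
    constructor
    · intro h
      by_cases h' : i ∈ Fat X m
      · exact Or.inr ⟨h', h⟩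
      · exact Or.inl h'
    · rintro (h | h)
      · exact fun h' => h (hsub h')
      · exact h.2
  · rw [Finset.disjoint_left]
    intro i h1 h2
    exact (mem_compl.1 h1) (mem_sdiff.1 h2).1

theorem potA_fat_filter_split {X : I → ℝ} {m m' : ℕ} (hp : Par X m m') {j : I}
    (hj : j ∈ Fat (nx X m) m') :
    (Fat X m).filter (fun i => X i ≤ X j) =
      NewMid X m m' ∪ (Fat (nx X m) m').filter (fun i => nx X m i ≤ nx X m j) := by
  classical
  have hsub := potA_fat_next_subset hp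
  have hj' : 3 * (m' : ℝ) ≤ nx X m j := (mem_filter.1 hj).2
  ext i
  unfold NewMid
  simp only [mem_filter, mem_union, mem_sdiff]
  constructor
  · rintro ⟨h1, h2⟩
    by_cases h' : i ∈ Fat (nx X m) m'
    · right
      exact ⟨h', by unfold nx; linarith⟩
    · left
      exact ⟨h1, h'⟩
  · rintro (⟨h1, h2⟩ | ⟨h1, h2⟩)
    · refine ⟨h1, ?_⟩
      have h3 : ¬ 3 * (m' : ℝ) ≤ nx X m i := fun h => h2 (mem_filter.2 ⟨mem_univ _, h⟩)
      push Not at h3
      unfold nx at h3 hj'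
      linarith
    · refine ⟨hsub h1, ?_⟩
      unfold nx at h2
      linarith

theorem potA_newmid_disj {X : I → ℝ} {m m' : ℕ} {j : I} :
    Disjoint (NewMid X m m') ((Fat (nx X m) m').filter (fun i => nx X m i ≤ nx X m j)) := by
  rw [Finset.disjoint_left]
  intro i h1 h2
  exact (mem_sdiff.1 h1).2 (mem_filter.1 h2).1

theorem potA_newmid_filter {X : I → ℝ} {m m' : ℕ} (h : (NewMid X m m').Nonempty) :
    ∃ j ∈ NewMid X m m', (Fat X m).filter (fun i => X i ≤ X j) = NewMid X m m' := by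
  classical
  obtain ⟨j, hj, hmax⟩ := (NewMid X m m').exists_max_image X h
  refine ⟨j, hj, ?_⟩
  have hj2 : ¬ 3 * (m' : ℝ) ≤ nx X m j :=
    fun h => (mem_sdiff.1 hj).2 (mem_filter.2 ⟨mem_univ _, h⟩)
  push Not at hj2
  ext i
  simp only [mem_filter]
  constructor
  · rintro ⟨h1, h2⟩
    refine mem_sdiff.2 ⟨h1, fun h3 => ?_⟩
    have h4 : 3 * (m' : ℝ) ≤ nx X m i := (mem_filter.1 h3).2
    unfold nx at h4 hj2
    linarith
  · intro hi
    exact ⟨(mem_sdiff.1 hi).1, hmax i hi⟩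

theorem potA_eta_fat {X : I → ℝ} {m : ℕ} {i : I} (h : i ∈ Fat X m) : eta X m i = 0 := by
  unfold eta
  rw [if_pos (mem_filter.1 h).2]

theorem potA_eta_pos_of_not_fat {X : I → ℝ} {m : ℕ} {i : I} (h : i ∉ Fat X m) : 0 < eta X m i := by
  unfold eta
  have : ¬ 3 * (m : ℝ) ≤ X i := fun h' => h (mem_filter.2 ⟨mem_univ _, h'⟩)
  rw [if_neg this]
  split_ifs
  · exact p2A_pos _
  · norm_num

theorem etaA_nonneg (X : I → ℝ) (m : ℕ) (i : I) : 0 ≤ eta X m i := by
  by_cases h : i ∈ Fat X m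
  · rw [potA_eta_fat h]
  · exact (potA_eta_pos_of_not_fat h).le

theorem potA_sq_eta {η u y : ℝ} (hη : 0 < η) : (u + y) ^ 2 / (1 + η) ≤ u ^ 2 + (1 / η) * y ^ 2 := by
  rw [div_le_iff₀ (by linarith)]
  have e : (u ^ 2 + (1 / η) * y ^ 2) * (1 + η) - (u + y) ^ 2 = (η * u - y) ^ 2 / η := by
    field_simp
    ring
  have h : 0 ≤ (η * u - y) ^ 2 / η := by positivity
  linarith

theorem potA_w_div_le {w η : ℝ} (hw : 0 ≤ w) (hη : 0 ≤ η) : w / (1 + η) ≤ w :=
  div_le_self hw (by linarith)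

/-- [P3] -/
theorem pot_interior {X : I → ℝ} {m m' : ℕ} (hp : Par X m m')
    {w : I → ℝ} (hw0 : ∀ i, 0 ≤ w i) (hw1 : ∀ i, w i ≤ 1) {P Q : ℝ} {a c : I → ℝ}
    (ha : Pot X m w P a) (hc : Pot X m w P c) (θ : ℝ) (h0 : 0 ≤ θ) (h1 : θ ≤ 1)
    (p k y : I → ℝ) (hfat : ∀ i ∈ Fat X m, p i = (1 - θ) * ex (X i) (a i) +
      θ * ex (X i) (c i) + k i)
    (hk1 : ∀ i ∈ Fat X m, |k i| ≤ p2 (X i / 32) / 2)
    (hk2 : ∀ j ∈ Fat X m, ∑ i ∈ (Fat X m).filter (fun i => X i ≤ X j), k i ^ 2 ≤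
      4096 * (8 * (((Fat X m).filter (fun i => X i ≤ X j)).card : ℝ) + 4 * (2 * m + 5)))
    (hnon : ∀ i, i ∉ Fat X m → p i = (1 - θ) * a i + θ * c i + y i)
    (hy : ∑ i ∈ (Fat X m)ᶜ, (1 / eta X m i) * y i ^ 2 ≤ Q) :
    Pot (nx X m) m' (fun i => w i / (1 + eta X m i))
      (P + (16384 * (2 * m + 5) - u0) + (CC + u0) * ((NewMid X m m').card : ℝ) + Q) p := by
  classical
  have hθ : 0 ≤ 1 - θ := by linarith
  have ea := pot_exc hp ha
  have ec := pot_exc hp hc
  have hu0 : 0 ≤ u0 := by unfold u0; norm_num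
  have hCC : (0 : ℝ) ≤ CC := by unfold CC; norm_num
  have hm' : (1024 : ℝ) ≤ m := by exact_mod_cast hp.hm
  -- nonfat part
  have hN : ∑ i ∈ (Fat X m)ᶜ, w i / (1 + eta X m i) * p i ^ 2 ≤
      (1 - θ) * ∑ i ∈ (Fat X m)ᶜ, w i * a i ^ 2 + θ * ∑ i ∈ (Fat X m)ᶜ, w i * c i ^ 2 + Q := by
    refine le_trans ?_ (add_le_add le_rfl hy)
    rw [Finset.mul_sum, Finset.mul_sum, ← Finset.sum_add_distrib, ← Finset.sum_add_distrib]
    refine Finset.sum_le_sum fun i hi => ?_
    have hi' : i ∉ Fat X m := mem_compl.1 hi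
    have hη := potA_eta_pos_of_not_fat hi'
    rw [hnon i hi']
    have s1 := potA_sq_eta (u := (1 - θ) * a i + θ * c i) (y := y i) hη
    have s2 : ((1 - θ) * a i + θ * c i) ^ 2 ≤ (1 - θ) * a i ^ 2 + θ * c i ^ 2 := by
      have : (1 - θ) * a i ^ 2 + θ * c i ^ 2 - ((1 - θ) * a i + θ * c i) ^ 2 =
        (1 - θ) * θ * (a i - c i) ^ 2 := by ring
      nlinarith [mul_nonneg (mul_nonneg hθ h0) (sq_nonneg (a i - c i))]
    have s3 : 0 ≤ (1 / eta X m i) * y i ^ 2 := by positivity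
    have s4 : w i / (1 + eta X m i) * ((1 - θ) * a i + θ * c i + y i) ^ 2 =
        w i * (((1 - θ) * a i + θ * c i + y i) ^ 2 / (1 + eta X m i)) := by ring
    rw [s4]
    have s5 := mul_le_mul_of_nonneg_left (s1.trans (add_le_add s2 le_rfl)) (hw0 i)
    have s6 : w i * ((1 / eta X m i) * y i ^ 2) ≤ (1 / eta X m i) * y i ^ 2 := by
      nlinarith [hw1 i]
    nlinarith
  -- fat part
  have hF : ∀ T : Finset I, T ⊆ Fat X m → ∑ i ∈ T, w i / (1 + eta X m i) * p i ^ 2 ≤
      ∑ i ∈ T, p i ^ 2 := by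
    intro T hT
    refine Finset.sum_le_sum fun i hi => ?_
    rw [potA_eta_fat (hT hi), add_zero, div_one]
    nlinarith [hw1 i, sq_nonneg (p i)]
  have hFs : ∀ T : Finset I, T ⊆ Fat X m → ∑ i ∈ T, p i ^ 2 ≤
      (1 - θ) * ∑ i ∈ Fat X m, |ex (X i) (a i)| * |a i| +
        θ * ∑ i ∈ Fat X m, |ex (X i) (c i)| * |c i| + ∑ i ∈ T, k i ^ 2 := by
    intro T hT
    have t1 : ∑ i ∈ T, p i ^ 2 ≤ ∑ i ∈ T, ((1 - θ) * (|ex (X i) (a i)| * |a i|) +
        θ * (|ex (X i) (c i)| * |c i|) + k i ^ 2) := by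
      refine Finset.sum_le_sum fun i hi => ?_
      rw [hfat i (hT hi)]
      exact soft _ _ _ _ _ h0 h1 (hk1 i (hT hi))
    rw [Finset.sum_add_distrib, Finset.sum_add_distrib, ← Finset.mul_sum, ← Finset.mul_sum] at t1
    have t2 : ∑ i ∈ T, |ex (X i) (a i)| * |a i| ≤ ∑ i ∈ Fat X m, |ex (X i) (a i)| * |a i| :=
      Finset.sum_le_sum_of_subset_of_nonneg hT
        fun i _ _ => mul_nonneg (abs_nonneg _) (abs_nonneg _)
    have t3 : ∑ i ∈ T, |ex (X i) (c i)| * |c i| ≤ ∑ i ∈ Fat X m, |ex (X i) (c i)| * |c i| :=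
      Finset.sum_le_sum_of_subset_of_nonneg hT
        fun i _ _ => mul_nonneg (abs_nonneg _) (abs_nonneg _)
    have t4 := mul_le_mul_of_nonneg_left t2 hθ
    have t5 := mul_le_mul_of_nonneg_left t3 h0
    linarith
  have hcomb : (1 - θ) * ∑ i ∈ (Fat X m)ᶜ, w i * a i ^ 2 +
      θ * ∑ i ∈ (Fat X m)ᶜ, w i * c i ^ 2 +
      ((1 - θ) * ∑ i ∈ Fat X m, |ex (X i) (a i)| * |a i| +
        θ * ∑ i ∈ Fat X m, |ex (X i) (c i)| * |c i|) ≤ P - u0 := by
    have t1 := mul_le_mul_of_nonneg_left ea hθ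
    have t2 := mul_le_mul_of_nonneg_left ec h0
    nlinarith
  refine ⟨?_, ?_⟩
  · rw [potA_fat_compl_split hp]
    rcases (NewMid X m m').eq_empty_or_nonempty with he | hne
    · rw [he, Finset.sum_empty, Finset.card_empty]
      have b1 := mul_le_mul_of_nonneg_left ha.base hθ
      have b2 := mul_le_mul_of_nonneg_left hc.base h0
      have b3 : u0 ≤ 16384 * (2 * (m : ℝ) + 5) := by
        unfold u0; nlinarith
      push_cast
      nlinarith
    · obtain ⟨j, hj, hjf⟩ := potA_newmid_filter hne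
      have hjF : j ∈ Fat X m := (mem_sdiff.1 hj).1
      have hNM : NewMid X m m' ⊆ Fat X m := fun i hi => (mem_sdiff.1 hi).1
      have k2 := hk2 j hjF
      rw [hjf] at k2
      have t1 := (hF _ hNM).trans (hFs _ hNM)
      have hcard : (1 : ℝ) ≤ ((NewMid X m m').card : ℝ) := by
        exact_mod_cast Finset.card_pos.2 hne
      have hCCe : CC = 32768 := rfl
      rw [hCCe]
      nlinarith
  · intro j hj
    rw [potA_fat_compl_split hp]
    have hjF : j ∈ Fat X m := potA_fat_next_subset hp hj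
    have hsplit := potA_fat_filter_split hp hj
    have k2 := hk2 j hjF
    rw [hsplit] at k2
    rw [Finset.card_union_of_disjoint potA_newmid_disj] at k2
    push_cast at k2
    have hTsub : NewMid X m m' ∪ (Fat (nx X m) m').filter (fun i => nx X m i ≤ nx X m j) ⊆
        Fat X m := by
      rw [← hsplit]; exact filter_subset _ _
    have hNM : NewMid X m m' ⊆ Fat X m := fun i hi => (mem_sdiff.1 hi).1
    have t1 := hFs _ hTsub
    rw [Finset.sum_union potA_newmid_disj] at t1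
    have t2 := hF _ hNM
    rw [Finset.sum_sub_distrib, Finset.sum_const, nsmul_eq_mul]
    have hCCe : CC = 32768 := rfl
    rw [hCCe]
    have hcard : (0 : ℝ) ≤ ((NewMid X m m').card : ℝ) := Nat.cast_nonneg _
    have hcu : 0 ≤ u0 * ((NewMid X m m').card : ℝ) := mul_nonneg hu0 hcard
    nlinarith

/-- [P4] old endpoints. -/
theorem pot_old {X : I → ℝ} {m m' : ℕ} (hp : Par X m m') {w : I → ℝ} (hw0 : ∀ i, 0 ≤ w i)
    (hw1 : ∀ i, w i ≤ 1) {P : ℝ} {a : I → ℝ} (ha : Pot X m w P a) :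
    Pot (nx X m) m' (fun i => w i / (1 + eta X m i))
      (P + (CC + u0) * ((NewMid X m m').card : ℝ)) a := by
  classical
  have hu0 : 0 ≤ u0 := by unfold u0; norm_num
  have hCC : (0 : ℝ) ≤ CC := by unfold CC; norm_num
  have hN : ∑ i ∈ (Fat X m)ᶜ, w i / (1 + eta X m i) * a i ^ 2 ≤
      ∑ i ∈ (Fat X m)ᶜ, w i * a i ^ 2 := by
    refine Finset.sum_le_sum fun i _ => ?_
    exact mul_le_mul_of_nonneg_right (potA_w_div_le (hw0 i) (etaA_nonneg X m i)) (sq_nonneg _)
  have hF : ∀ T : Finset I, T ⊆ Fat X m → ∑ i ∈ T, w i / (1 + eta X m i) * a i ^ 2 ≤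
      ∑ i ∈ T, a i ^ 2 := by
    intro T hT
    refine Finset.sum_le_sum fun i hi => ?_
    rw [potA_eta_fat (hT hi), add_zero, div_one]
    nlinarith [hw1 i, sq_nonneg (a i)]
  have hNM : NewMid X m m' ⊆ Fat X m := fun i hi => (mem_sdiff.1 hi).1
  refine ⟨?_, ?_⟩
  · rw [potA_fat_compl_split hp]
    rcases (NewMid X m m').eq_empty_or_nonempty with he | hne
    · rw [he, Finset.sum_empty, Finset.card_empty]
      have := ha.base
      push_cast
      linarith
    · obtain ⟨j, hj, hjf⟩ := potA_newmid_filter hne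
      have hjF : j ∈ Fat X m := (mem_sdiff.1 hj).1
      have hpre := ha.pre j hjF
      rw [hjf, Finset.sum_sub_distrib, Finset.sum_const, nsmul_eq_mul] at hpre
      have hcard : (1 : ℝ) ≤ ((NewMid X m m').card : ℝ) := by
        exact_mod_cast Finset.card_pos.2 hne
      have t1 := hF _ hNM
      nlinarith
  · intro j hj
    rw [potA_fat_compl_split hp]
    have hjF : j ∈ Fat X m := potA_fat_next_subset hp hj
    have hpre := ha.pre j hjF
    rw [potA_fat_filter_split hp hj, Finset.sum_union potA_newmid_disj, Finset.sum_sub_distrib,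
      Finset.sum_const, nsmul_eq_mul] at hpre
    have t1 := hF _ hNM
    have hcard : (0 : ℝ) ≤ ((NewMid X m m').card : ℝ) := Nat.cast_nonneg _
    have hcu : 0 ≤ u0 * ((NewMid X m m').card : ℝ) := mul_nonneg hu0 hcard
    nlinarith

theorem potA_thin_next_not_fat {X : I → ℝ} {m m' : ℕ} (hp : Par X m m') {i : I}
    (hi : i ∈ Thin (nx X m) m') : i ∉ Fat X m ∧ i ∉ Fat (nx X m) m' := by
  have h1 : nx X m i < -(16 * (m' : ℝ)) := (mem_filter.1 hi).2
  have h2 : (399 : ℝ) * m ≤ 400 * m' := by exact_mod_cast hp.h1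
  have hm0 : (1024 : ℝ) ≤ m := by exact_mod_cast hp.hm
  have hm0' : (0 : ℝ) ≤ m' := Nat.cast_nonneg m'
  constructor
  · intro h
    have h3 : 3 * (m : ℝ) ≤ X i := (mem_filter.1 h).2
    unfold nx at h1
    linarith
  · intro h
    have h3 : 3 * (m' : ℝ) ≤ nx X m i := (mem_filter.1 h).2
    linarith

/-- [P5] -/
theorem pot_mod {X : I → ℝ} {m m' : ℕ} (hp : Par X m m') {w : I → ℝ} (hw0 : ∀ i, 0 ≤ w i)
    (hw1 : ∀ i, w i ≤ 1) {P Q : ℝ} {a b δ : I → ℝ}
    (ha : Pot (nx X m) m' (fun i => w i / (1 + eta X m i)) P a)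
    (hb : ∀ i, i ∉ Thin (nx X m) m' → b i = a i)
    (hδ : ∀ i ∈ Thin (nx X m) m', |b i - a i| ≤ δ i)
    (hQ : ∑ i ∈ Thin (nx X m) m', (1 / eta X m i) * δ i ^ 2 ≤ Q) :
    Pot (nx X m) m' (nw X m w) (P + Q) b := by
  classical
  have hsub : Thin (nx X m) m' ⊆ (Fat (nx X m) m')ᶜ :=
    fun i hi => mem_compl.2 (potA_thin_next_not_fat hp hi).2
  have hN : ∑ i ∈ (Fat (nx X m) m')ᶜ, nw X m w i * b i ^ 2 ≤
      ∑ i ∈ (Fat (nx X m) m')ᶜ, w i / (1 + eta X m i) * a i ^ 2 + Q := by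
    have e1 : ∑ i ∈ Thin (nx X m) m', (1 / eta X m i) * δ i ^ 2 =
        ∑ i ∈ (Fat (nx X m) m')ᶜ,
          if i ∈ Thin (nx X m) m' then (1 / eta X m i) * δ i ^ 2 else 0 := by
      rw [← Finset.sum_filter]
      congr 1
      ext i
      simp only [mem_filter]
      exact ⟨fun h => ⟨hsub h, h⟩, fun h => h.2⟩
    refine le_trans ?_ (add_le_add le_rfl hQ)
    rw [e1, ← Finset.sum_add_distrib]
    refine Finset.sum_le_sum fun i _ => ?_
    have hη0 := etaA_nonneg X m i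
    have hpos : 0 < 1 + eta X m i := by linarith
    have enw : nw X m w i = w i / (1 + eta X m i) / (1 + eta X m i) := by
      unfold nw
      rw [sq, div_div]
    have hw' : 0 ≤ w i / (1 + eta X m i) := div_nonneg (hw0 i) hpos.le
    have hw1' : w i / (1 + eta X m i) ≤ 1 := (potA_w_div_le (hw0 i) hη0).trans (hw1 i)
    split_ifs with hT
    · have hη := potA_eta_pos_of_not_fat (potA_thin_next_not_fat hp hT).1
      have s1 := potA_sq_eta (u := a i) (y := b i - a i) hη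
      have e2 : a i + (b i - a i) = b i := by ring
      rw [e2] at s1
      have s2 : (b i - a i) ^ 2 ≤ δ i ^ 2 := by
        rw [← sq_abs (b i - a i)]
        exact pow_le_pow_left₀ (abs_nonneg _) (hδ i hT) 2
      have s3 : (1 / eta X m i) * (b i - a i) ^ 2 ≤ (1 / eta X m i) * δ i ^ 2 :=
        mul_le_mul_of_nonneg_left s2 (by positivity)
      have s4 : 0 ≤ (1 / eta X m i) * δ i ^ 2 := by positivity
      rw [enw]
      have e3 : w i / (1 + eta X m i) / (1 + eta X m i) * b i ^ 2 =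
          w i / (1 + eta X m i) * (b i ^ 2 / (1 + eta X m i)) := by ring
      rw [e3]
      have s5 := mul_le_mul_of_nonneg_left (s1.trans (add_le_add le_rfl s3)) hw'
      have s6 : w i / (1 + eta X m i) * ((1 / eta X m i) * δ i ^ 2) ≤
          (1 / eta X m i) * δ i ^ 2 := by nlinarith
      nlinarith
    · rw [hb i hT, add_zero, enw]
      exact mul_le_mul_of_nonneg_right (potA_w_div_le hw' hη0) (sq_nonneg _)
  refine ⟨?_, ?_⟩
  · have := ha.base
    linarith
  · intro j hj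
    have hpre := ha.pre j hj
    have e1 : ∑ i ∈ (Fat (nx X m) m').filter (fun i => nx X m i ≤ nx X m j), (b i ^ 2 - CC) =
        ∑ i ∈ (Fat (nx X m) m').filter (fun i => nx X m i ≤ nx X m j), (a i ^ 2 - CC) := by
      refine Finset.sum_congr rfl fun i hi => ?_
      rw [hb i]
      intro hT
      exact (potA_thin_next_not_fat hp hT).2 (mem_filter.1 hi).1
    rw [e1]
    linarith

end P262C
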