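import Vale.Agent.P262.Full.Child
import Vale.Agent.P262.Full.PotA

/-!
# P262 full: potential
-/

open Finset

namespace P262C

variable {ι I : Type} [Fintype I] [DecidableEq I] [DecidableEq ι]

/-- monotonicity in `P` -/
theorem Pot.mono {X : I → ℝ} {m : ℕ} {w : I → ℝ} {P P' : ℝ} {a : I → ℝ} (h : Pot X m w P a)
    (hP : P ≤ P') : Pot X m w P' a :=
  ⟨h.base.trans hP, fun j hj => (h.pre j hj).trans hP⟩

theorem cst_nonneg {I : Type} [Fintype I] [DecidableEq I] (X : I → ℝ) (m : ℕ) :
    0 ≤ cst X m := by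
  unfold cst
  have h := nn_nonneg X
  split_ifs <;> positivity

theorem tv_eq_of_not_thin {v : ι → I → ℝ} {X : I → ℝ} {m : ℕ} {i : I} (h : i ∉ Thin X m)
    (e : ι) : tv v X m e i = v e i := by
  rw [mem_Thin] at h
  unfold tv
  rw [if_neg fun h' => h h'.1]

theorem filter_succ_sum (G : Finset ι) (pos : ι → ℕ) (j : ℕ) (φ : ι → ℝ) :
    ∑ e ∈ G.filter (fun e => pos e < j + 1), φ e =
      ∑ e ∈ G.filter (fun e => pos e < j), φ e + ∑ e ∈ G.filter (fun e => pos e = j), φ e := by
  rw [Finset.sum_filter, Finset.sum_filter, Finset.sum_filter, ← Finset.sum_add_distrib]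
  refine Finset.sum_congr rfl fun e _ => ?_
  rcases lt_trichotomy (pos e) j with h | h | h
  · rw [if_pos (by omega), if_pos h, if_neg (by omega), add_zero]
  · rw [if_pos (by omega), if_neg (by omega), if_pos h, zero_add]
  · rw [if_neg (by omega), if_neg (by omega), if_neg (by omega), add_zero]

/-- potential of all checkpoints -/
theorem step_pot {v : ι → I → ℝ} {G : Finset ι} {X : I → ℝ} {m m' : ℕ}
    (hp : Par X m m') {w : I → ℝ} (hw0 : ∀ i, 0 ≤ w i)
    (hw1 : ∀ i, w i ≤ 1) {P : ℝ} {a c : I → ℝ} (h : Inv v X m w P G a c) {pos : ι → ℕ}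
    (hs : WSplit v G X m m' a c pos) (j : ℕ) (hj : j ≤ 2 ^ (2 * m)) :
    Pot (nx X m) m' (fun i => w i / (1 + eta X m i))
      (P + (16384 * (2 * m + 5) - u0) + (CC + u0) * ((NewMid X m m').card : ℝ) + cst X m / 2)
      (fun i => a i + ∑ e ∈ G.filter (fun e => pos e < j), tv v X m e i) := by
  have hmR := hp.hmR
  have hc0 := cst_nonneg X m
  have hu : 0 ≤ 16384 * (2 * (m : ℝ) + 5) - u0 := by unfold u0; linarith
  rcases Nat.eq_zero_or_pos j with rfl | hj0
  · have h1 : (fun i => a i + ∑ e ∈ G.filter (fun e => pos e < 0), tv v X m e i) = a := by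
      funext i
      simp
    rw [h1]
    exact (pot_old hp hw0 hw1 h.pa).mono (by linarith)
  rcases hj.eq_or_lt with hj1 | hj1
  · have h1 : (fun i => a i + ∑ e ∈ G.filter (fun e => pos e < j), tv v X m e i) = c := by
      funext i
      rw [h.sum i, Finset.filter_true_of_mem]
      intro e he
      rw [hj1]
      exact hs.lt e he
    rw [h1]
    exact (pot_old hp hw0 hw1 h.pc).mono (by linarith)
  obtain ⟨k, d, hk, hd, hkd, hfat⟩ := hs.chk j hj0 hj1
  have hN : (0 : ℝ) < 2 ^ (2 * m) := by positivity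
  have hjN : (j : ℝ) ≤ 2 ^ (2 * m) := by exact_mod_cast hj
  have hfun := fun i => chk_fun hkd (fun e => tv v X m e i)
  have hca : ∀ i, ∑ e ∈ G, tv v X m e i = c i - a i := fun i => by rw [h.sum i]; ring
  refine pot_interior hp hw0 hw1 h.pa h.pc ((j : ℝ) / 2 ^ (2 * m)) (by positivity)
    ((div_le_one hN).mpr hjN) _ (fun i => pr G k (fun e => v e i))
    (fun i => pr G k (fun e => tv v X m e i) + pr G d (fun e => tv v X m e i)) ?_ hk.k1 hk.q2 ?_
    (nonfat_err hp h.light hk hd)
  · intro i hi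
    have h1 : i ∉ Thin X m := by
      rw [mem_Thin]
      rw [mem_Fat] at hi
      intro h2
      linarith
    have h2 := hfun i
    rw [hca i] at h2
    have h3 := hfat i hi
    have h4 : pr G d (fun e => tv v X m e i) = ∑ e ∈ G, d e * v e i := by
      unfold pr
      exact Finset.sum_congr rfl fun e _ => by simp only [tv_eq_of_not_thin h1]
    have h5 : pr G k (fun e => tv v X m e i) = pr G k (fun e => v e i) := by
      unfold pr
      exact Finset.sum_congr rfl fun e _ => by simp only [tv_eq_of_not_thin h1]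
    rw [h4, h3, h5] at h2
    simp only [ex]
    rw [h2]
    ring
  · intro i hi
    have h2 := hfun i
    rw [hca i] at h2
    rw [h2]
    ring

/-- [St] one window step: children of a node.  `p_j = a + ∑_{pos < j} tv`; for `1 ≤ j < 2^(2m)` it is
`(1-θ) a + θ c + pr k tv + pr d tv` (`θ = j/2^(2m)`), for `j = 0` it is `a`, for `j = 2^(2m)` it is
`c`.  The end of the child `j` is `p_j + ∑_{pos = j} tv' = p_{j+1} - ∑_{pos = j} (tv - tv')`. -/
theorem step [Fintype ι] {v : ι → I → ℝ} {G : Finset ι} {X : I → ℝ} {m m' : ℕ}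
    (hp : Par X m m') (hv : ∀ e ∈ G, ∑ i, v e i ^ 2 ≤ 1) {w : I → ℝ} (hw0 : ∀ i, 0 ≤ w i)
    (hw1 : ∀ i, w i ≤ 1) {P : ℝ} {a c : I → ℝ} (h : Inv v X m w P G a c) :
    ∃ pos : ι → ℕ, (∀ e ∈ G, pos e < 2 ^ (2 * m)) ∧ ∀ j < 2 ^ (2 * m),
      Inv v (nx X m) m' (nw X m w) (P + chg X m m') (G.filter (fun e => pos e = j))
        (fun i => a i + ∑ e ∈ G.filter (fun e => pos e < j), tv v X m e i)
        (fun i => a i + ∑ e ∈ G.filter (fun e => pos e < j), tv v X m e i +
          ∑ e ∈ G.filter (fun e => pos e = j), tv v (nx X m) m' e i) ∧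
      ∑ i ∈ Thin (nx X m) m', (1 / eta X m i) * (∑ e ∈ G.filter (fun e => pos e = j),
        |tv v X m e i - tv v (nx X m) m' e i|) ^ 2 ≤ cst X m / 2 := by
  obtain ⟨pos, hs⟩ := window_pos hp hv h.gram a c
  refine ⟨pos, hs.lt, fun j hj => ?_⟩
  have htv := child_tv hp h.light h.heavy hs j hj
  have hpot0 := step_pot hp hw0 hw1 h hs j hj.le
  have hpot1 := step_pot hp hw0 hw1 h hs (j + 1) hj
  have hc0 := cst_nonneg X m
  refine ⟨⟨fun i => rfl, child_gram hp h.gram hs j hj, child_light hp h.gram h.light hs j hj,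
    child_heavy hp h.gram h.light h.heavy hs j hj, ?_, ?_⟩, htv⟩
  · have h1 := pot_mod hp hw0 hw1 (Q := 0) (δ := fun _ => 0) (b := fun i => a i +
      ∑ e ∈ G.filter (fun e => pos e < j), tv v X m e i) hpot0 (fun i _ => rfl)
      (fun i _ => by simp) (by simp)
    refine h1.mono ?_
    unfold chg
    linarith
  · have h1 := pot_mod hp hw0 hw1 (Q := cst X m / 2)
      (δ := fun i => ∑ e ∈ G.filter (fun e => pos e = j),
        |tv v X m e i - tv v (nx X m) m' e i|)
      (b := fun i => a i + ∑ e ∈ G.filter (fun e => pos e < j), tv v X m e i +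
          ∑ e ∈ G.filter (fun e => pos e = j), tv v (nx X m) m' e i) hpot1 ?_ ?_ htv
    · refine h1.mono ?_
      unfold chg
      linarith
    · intro i hi
      have h2 : i ∉ Thin X m := fun h' => hi (Thin_sub hp h')
      rw [filter_succ_sum, ← add_assoc]
      congr 1
      exact Finset.sum_congr rfl fun e _ => by
        rw [tv_eq_of_not_thin hi, tv_eq_of_not_thin h2]
    · intro i _
      rw [filter_succ_sum]
      have h3 : a i + ∑ e ∈ G.filter (fun e => pos e < j), tv v X m e i +
          ∑ e ∈ G.filter (fun e => pos e = j), tv v (nx X m) m' e i -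
          (a i + (∑ e ∈ G.filter (fun e => pos e < j), tv v X m e i +
            ∑ e ∈ G.filter (fun e => pos e = j), tv v X m e i)) =
          -∑ e ∈ G.filter (fun e => pos e = j), (tv v X m e i - tv v (nx X m) m' e i) := by
        rw [Finset.sum_sub_distrib]
        ring
      rw [h3, abs_neg]
      exact Finset.abs_sum_le_sum_abs _ _

end P262C
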