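import Vale.Agent.P262.Full.WSign

/-!
# P262 full: the sequence of stages and the sums
-/

set_option linter.unusedSectionVars false
set_option linter.unusedVariables false

open Finset

namespace P262C

variable {I : Type} [Fintype I] [DecidableEq I]

/-- local parameter at level `t` -/
noncomputable def mf (x : I → ℝ) (t : ℕ) : ℕ :=
  1024 + ⌈16 * max 0 (Real.logb 2 (nn (fun i => x i - (t : ℝ))))⌉₊

/-- levels of the stages -/
noncomputable def tt (x : I → ℝ) : ℕ → ℕ
  | 0 => 0
  | n + 1 => tt x n + 2 * mf x (tt x n)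

noncomputable def mm (x : I → ℝ) (n : ℕ) : ℕ := mf x (tt x n)
noncomputable def XX (x : I → ℝ) (n : ℕ) : I → ℝ := fun i => x i - (tt x n : ℝ)

theorem tt_zero (x : I → ℝ) : tt x 0 = 0 := rfl

theorem tt_succ (x : I → ℝ) (n : ℕ) : tt x (n + 1) = tt x n + 2 * mm x n := rfl

theorem XX_succ (x : I → ℝ) (n : ℕ) : XX x (n + 1) = nx (XX x n) (mm x n) := by
  funext i
  simp only [XX, nx, mm, tt]
  push_cast
  ring

theorem XX_succ_apply (x : I → ℝ) (n : ℕ) (i : I) :
    XX x (n + 1) i = XX x n i - 2 * (mm x n : ℝ) := by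
  rw [XX_succ]
  rfl

theorem sq_p2_mono {a b : ℝ} (h : a ≤ b) : p2 a ≤ p2 b :=
  Real.rpow_le_rpow_of_exponent_le (by norm_num) h

theorem sq_p2_add (a b : ℝ) : p2 (a + b) = p2 a * p2 b :=
  Real.rpow_add (by norm_num) a b

theorem sq_p2_zero : p2 0 = 1 := by simp [p2]

theorem sq_p2_logb {a : ℝ} (ha : 0 < a) : p2 (Real.logb 2 a) = a :=
  Real.rpow_logb (by norm_num) (by norm_num) ha

theorem sq_om_pos (x : ℝ) : 0 < om x := p2_pos _

theorem sq_om_le_one (x : ℝ) : om x ≤ 1 := by
  rw [← sq_p2_zero]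
  apply sq_p2_mono
  have : 0 ≤ al * |x| := mul_nonneg (by norm_num [al]) (abs_nonneg x)
  linarith

theorem sq_nn_pos [Nonempty I] (X : I → ℝ) : 0 < nn X :=
  Finset.sum_pos (fun i _ => sq_om_pos _) univ_nonempty

theorem sq_nn_nonneg (X : I → ℝ) : 0 ≤ nn X :=
  Finset.sum_nonneg (fun i _ => (sq_om_pos _).le)

theorem sq_nn_le_card (X : I → ℝ) : nn X ≤ (Fintype.card I : ℝ) := by
  calc nn X ≤ ∑ _i : I, (1 : ℝ) := Finset.sum_le_sum (fun i _ => sq_om_le_one _)
    _ = _ := by simp

/-- change of the local density -/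
theorem sq_om_shift (y s : ℝ) (hs : 0 ≤ s) : om (y - s) ≤ p2 (al * s) * om y := by
  unfold om
  rw [← sq_p2_add]
  apply sq_p2_mono
  have h1 : |y| ≤ |y - s| + s := by
    have := abs_add_le (y - s) s
    rw [abs_of_nonneg hs] at this
    simpa using this
  have h2 : (0 : ℝ) ≤ al := by norm_num [al]
  nlinarith

theorem sq_om_shift' (y s : ℝ) (hs : 0 ≤ s) : om y ≤ p2 (al * s) * om (y - s) := by
  unfold om
  rw [← sq_p2_add]
  apply sq_p2_mono
  have h1 : |y - s| ≤ |y| + s := by
    have := abs_sub y s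
    rw [abs_of_nonneg hs] at this
    exact this
  have h2 : (0 : ℝ) ≤ al := by norm_num [al]
  nlinarith

theorem sq_nn_shift (X : I → ℝ) (s : ℝ) (hs : 0 ≤ s) :
    nn (fun i => X i - s) ≤ p2 (al * s) * nn X := by
  unfold nn
  rw [Finset.mul_sum]
  exact Finset.sum_le_sum (fun i _ => sq_om_shift _ _ hs)

theorem sq_nn_shift' (X : I → ℝ) (s : ℝ) (hs : 0 ≤ s) :
    nn X ≤ p2 (al * s) * nn (fun i => X i - s) := by
  unfold nn
  rw [Finset.mul_sum]
  exact Finset.sum_le_sum (fun i _ => sq_om_shift' _ _ hs)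

theorem sq_logb_p2_mul {a s : ℝ} (ha : 0 < a) : Real.logb 2 (p2 s * a) = s + Real.logb 2 a := by
  rw [Real.logb_mul (p2_pos s).ne' ha.ne']
  congr 1
  exact Real.logb_rpow (by norm_num) (by norm_num)

theorem mm_ge (x : I → ℝ) (n : ℕ) : 1024 ≤ mm x n := by
  unfold mm mf
  omega

/-- the real number under the ceiling -/
theorem mm_ge' (x : I → ℝ) (n : ℕ) :
    1024 + 16 * max 0 (Real.logb 2 (nn (XX x n))) ≤ (mm x n : ℝ) := by
  unfold mm mf
  push_cast
  have := Nat.le_ceil (16 * max 0 (Real.logb 2 (nn (fun i => x i - (tt x n : ℝ)))))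
  unfold XX
  linarith

theorem mm_le' (x : I → ℝ) (n : ℕ) :
    (mm x n : ℝ) ≤ 1025 + 16 * max 0 (Real.logb 2 (nn (XX x n))) := by
  unfold mm mf
  push_cast
  have h0 : 0 ≤ 16 * max 0 (Real.logb 2 (nn (fun i => x i - (tt x n : ℝ)))) := by
    have := le_max_left 0 (Real.logb 2 (nn (fun i => x i - (tt x n : ℝ))))
    linarith
  have := Nat.ceil_lt_add_one h0
  unfold XX
  linarith

/-- [Q1] `nn` changes by a factor at most `p2 (al * 2m)` in a window, so `m'` differs from `m` by at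
most `m/1024 + 1 ≤ m/400`. -/
theorem par_seq [Nonempty I] (x : I → ℝ) (n : ℕ) : Par (XX x n) (mm x n) (mm x (n + 1)) := by
  have hm := mm_ge x n
  have hmR : (1024 : ℝ) ≤ (mm x n : ℝ) := by exact_mod_cast hm
  have hge := mm_ge' x n
  have hle := mm_le' x n
  have hge1 := mm_ge' x (n + 1)
  have hle1 := mm_le' x (n + 1)
  have hX : XX x (n + 1) = fun i => XX x n i - 2 * (mm x n : ℝ) := by
    rw [XX_succ]; rfl
  have hs : (0 : ℝ) ≤ 2 * (mm x n : ℝ) := by positivity
  have h1 := sq_nn_shift (XX x n) _ hs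
  have h2 := sq_nn_shift' (XX x n) _ hs
  rw [← hX] at h1 h2
  have hp0 := sq_nn_pos (XX x n)
  have hp1 := sq_nn_pos (XX x (n + 1))
  have l1 : Real.logb 2 (nn (XX x (n + 1))) ≤ al * (2 * (mm x n : ℝ)) +
      Real.logb 2 (nn (XX x n)) := by
    rw [← sq_logb_p2_mul hp0]
    exact Real.logb_le_logb_of_le (by norm_num) hp1 h1
  have l2 : Real.logb 2 (nn (XX x n)) ≤ al * (2 * (mm x n : ℝ)) +
      Real.logb 2 (nn (XX x (n + 1))) := by
    rw [← sq_logb_p2_mul hp1]
    exact Real.logb_le_logb_of_le (by norm_num) hp0 h2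
  have hal : al * (2 * (mm x n : ℝ)) = (mm x n : ℝ) / 16384 := by
    unfold al; ring
  rw [hal] at l1 l2
  have k0 := le_max_left 0 (Real.logb 2 (nn (XX x n)))
  have k0' := le_max_right 0 (Real.logb 2 (nn (XX x n)))
  have k1 := le_max_left 0 (Real.logb 2 (nn (XX x (n + 1))))
  have k1' := le_max_right 0 (Real.logb 2 (nn (XX x (n + 1))))
  have e1 : max 0 (Real.logb 2 (nn (XX x (n + 1)))) ≤
      (mm x n : ℝ) / 16384 + max 0 (Real.logb 2 (nn (XX x n))) := by
    apply max_le
    · positivity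
    · linarith
  have e2 : max 0 (Real.logb 2 (nn (XX x n))) ≤
      (mm x n : ℝ) / 16384 + max 0 (Real.logb 2 (nn (XX x (n + 1)))) := by
    apply max_le
    · positivity
    · linarith
  refine ⟨hm, ?_, ?_, ?_⟩
  · have : (399 : ℝ) * (mm x n : ℝ) ≤ 400 * (mm x (n + 1) : ℝ) := by linarith
    exact_mod_cast this
  · have : (400 : ℝ) * (mm x (n + 1) : ℝ) ≤ 401 * (mm x n : ℝ) := by linarith
    exact_mod_cast this
  · rw [← sq_p2_logb hp0]
    apply sq_p2_mono
    linarith

theorem sq_p2_sixteenth : p2 (-(1 / 16)) ≤ 31 / 32 := by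
  unfold p2
  have h : ((2 : ℝ) ^ (-(1 / 16) : ℝ)) ^ 16 ≤ (31 / 32 : ℝ) ^ 16 := by
    rw [← Real.rpow_natCast, ← Real.rpow_mul (by norm_num)]
    norm_num
  exact le_of_pow_le_pow_left₀ (by norm_num) (by norm_num) h

theorem tt_gap (x : I → ℝ) (n : ℕ) : (tt x n : ℝ) + 2048 ≤ (tt x (n + 1) : ℝ) := by
  have := mm_ge x n
  rw [tt_succ]
  push_cast
  have : (1024 : ℝ) ≤ (mm x n : ℝ) := by exact_mod_cast this
  linarith

/-- one dimensional potential -/
noncomputable def Phi (y t : ℝ) : ℝ :=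
  if t ≤ y then 32 * p2 (-(al * (y - t))) else 64 - 32 * p2 (-(al * (t - y)))

theorem Phi_nonneg (y t : ℝ) : 0 ≤ Phi y t := by
  unfold Phi
  split_ifs with h
  · have := p2_pos (-(al * (y - t)))
    linarith
  · push Not at h
    have h1 : p2 (-(al * (t - y))) ≤ 1 := by
      rw [← sq_p2_zero]
      apply sq_p2_mono
      have : 0 ≤ al * (t - y) := mul_nonneg (by norm_num [al]) (by linarith)
      linarith
    linarith

theorem Phi_le (y t : ℝ) : Phi y t ≤ 64 := by
  unfold Phi
  split_ifs with h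
  · have h1 : p2 (-(al * (y - t))) ≤ 1 := by
      rw [← sq_p2_zero]
      apply sq_p2_mono
      have : 0 ≤ al * (y - t) := mul_nonneg (by norm_num [al]) (by linarith)
      linarith
    linarith
  · have := p2_pos (-(al * (t - y)))
    linarith

theorem sq_p2_step {a b : ℝ} (h : a + 1 / 16 ≤ b) : p2 a ≤ 31 / 32 * p2 b := by
  have h1 : p2 a ≤ p2 (-(1 / 16) + b) := sq_p2_mono (by linarith)
  rw [sq_p2_add] at h1
  have h2 := sq_p2_sixteenth
  have h3 := p2_pos b
  nlinarith

theorem Phi_step (y t t' : ℝ) (h : t + 2048 ≤ t') : Phi y t + om (y - t) ≤ Phi y t' := by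
  unfold Phi om
  split_ifs with h1 h2 h2
  · rw [abs_of_nonneg (by linarith)]
    have h3 : p2 (-(al * (y - t))) ≤ 31 / 32 * p2 (-(al * (y - t'))) := by
      apply sq_p2_step
      unfold al
      linarith
    have h4 := p2_pos (-(al * (y - t)))
    linarith
  · push Not at h2
    rw [abs_of_nonneg (by linarith)]
    have h3 : p2 (-(al * (y - t))) * p2 (-(al * (t' - y))) ≤ 31 / 32 := by
      rw [← sq_p2_add]
      have := sq_p2_step (a := -(al * (y - t)) + -(al * (t' - y))) (b := 0) (by unfold al; linarith)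
      rw [sq_p2_zero] at this
      linarith
    have h4 := p2_pos (-(al * (y - t)))
    have h5 := p2_pos (-(al * (t' - y)))
    have h6 : p2 (-(al * (y - t))) ≤ 1 := by
      rw [← sq_p2_zero]
      apply sq_p2_mono
      have : 0 ≤ al * (y - t) := mul_nonneg (by norm_num [al]) (by linarith)
      linarith
    have h7 : p2 (-(al * (t' - y))) ≤ 1 := by
      rw [← sq_p2_zero]
      apply sq_p2_mono
      have : 0 ≤ al * (t' - y) := mul_nonneg (by norm_num [al]) (by linarith)
      linarith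
    nlinarith
  · exfalso
    linarith
  · push Not at h1 h2
    rw [abs_of_nonpos (by linarith)]
    have h3 : p2 (-(al * (t' - y))) ≤ 31 / 32 * p2 (-(al * (t - y))) := by
      apply sq_p2_step
      unfold al
      linarith
    have h5 : -(al * -(y - t)) = -(al * (t - y)) := by ring
    rw [h5]
    linarith

theorem sum_om (x : I → ℝ) (W : ℕ) (i : I) :
    ∑ n ∈ range W, om (XX x n i) ≤ Phi (x i) (tt x W) := by
  induction W with
  | zero => simpa using Phi_nonneg _ _
  | succ W ih =>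
    rw [sum_range_succ]
    have := Phi_step (x i) (tt x W) (tt x (W + 1)) (tt_gap x W)
    unfold XX at ih ⊢
    linarith

/-- [Q2] `∑_{t ∈ ℕ} p2 (-al |x - t|) ≤ 2^18`; `tt` is strictly increasing. -/
theorem sum_nn64 (x : I → ℝ) (W : ℕ) :
    ∑ n ∈ range W, nn (XX x n) ≤ 64 * (Fintype.card I : ℝ) := by
  unfold nn
  rw [Finset.sum_comm]
  calc ∑ i, ∑ n ∈ range W, om (XX x n i) ≤ ∑ _i : I, (64 : ℝ) :=
        Finset.sum_le_sum (fun i _ => (sum_om x W i).trans (Phi_le _ _))
    _ = _ := by simp [mul_comm]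

theorem sum_nn (x : I → ℝ) (W : ℕ) :
    ∑ n ∈ range W, nn (XX x n) ≤ 262144 * (Fintype.card I : ℝ) := by
  refine (sum_nn64 x W).trans ?_
  have : (0 : ℝ) ≤ (Fintype.card I : ℝ) := by positivity
  linarith

theorem tt_add (x : I → ℝ) (n k : ℕ) :
    (tt x (n + k) : ℝ) = tt x n + 2 * ∑ j ∈ range k, (mm x (n + j) : ℝ) := by
  induction k with
  | zero => simp
  | succ k ih =>
    rw [← add_assoc, tt_succ, sum_range_succ]
    push_cast
    rw [ih]
    ring

theorem mm_fwd [Nonempty I] (x : I → ℝ) (n k : ℕ) (hk : k ≤ 400) :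
    (400 - (k : ℝ)) * (mm x n : ℝ) ≤ 400 * (mm x (n + k) : ℝ) := by
  induction k with
  | zero => simp
  | succ k ih =>
    have ih' := ih (by omega)
    have h1 := (par_seq x (n + k)).h1
    have h1' : (399 : ℝ) * (mm x (n + k) : ℝ) ≤ 400 * (mm x (n + k + 1) : ℝ) := by
      exact_mod_cast h1
    rw [← add_assoc]
    push_cast
    have h2 : (0 : ℝ) ≤ (mm x n : ℝ) := by positivity
    have h3 : (0 : ℝ) ≤ (k : ℝ) := by positivity
    have h4 : (0 : ℝ) ≤ (k : ℝ) * (mm x n : ℝ) := by positivity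
    nlinarith

theorem mm_bwd [Nonempty I] (x : I → ℝ) (n k : ℕ) (hk : k ≤ 400) :
    (400 - (k : ℝ)) * (mm x (n + k) : ℝ) ≤ 400 * (mm x n : ℝ) := by
  induction k with
  | zero => simp
  | succ k ih =>
    have ih' := ih (by omega)
    have h1 := (par_seq x (n + k)).h2
    have h1' : (400 : ℝ) * (mm x (n + k + 1) : ℝ) ≤ 401 * (mm x (n + k) : ℝ) := by
      exact_mod_cast h1
    rw [← add_assoc]
    push_cast
    have h2 : (0 : ℝ) ≤ (mm x (n + k + 1) : ℝ) := by positivity
    have h3 : (0 : ℝ) ≤ (k : ℝ) := by positivity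
    have h4 : (0 : ℝ) ≤ (k : ℝ) * (mm x (n + k + 1) : ℝ) := by positivity
    have h5 : (k : ℝ) + 1 ≤ 400 := by exact_mod_cast hk
    have h6 : (399 : ℝ) * (mm x (n + k + 1) : ℝ) ≤ 400 * (mm x (n + k) : ℝ) := by
      linarith
    have h7 : (400 - (k : ℝ)) * ((399 : ℝ) * (mm x (n + k + 1) : ℝ)) ≤
        (400 - (k : ℝ)) * (400 * (mm x (n + k) : ℝ)) :=
      mul_le_mul_of_nonneg_left h6 (by linarith)
    nlinarith

theorem mem_Mid_iff (X : I → ℝ) (m : ℕ) (i : I) :
    i ∈ Mid X m ↔ -(16 * (m : ℝ)) ≤ X i ∧ X i < 3 * (m : ℝ) := by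
  simp [Mid]

theorem tt_mono (x : I → ℝ) {a b : ℕ} (h : a ≤ b) : (tt x a : ℝ) ≤ (tt x b : ℝ) := by
  obtain ⟨k, rfl⟩ := Nat.exists_eq_add_of_le h
  rw [tt_add]
  have : (0 : ℝ) ≤ ∑ j ∈ range k, (mm x (a + j) : ℝ) := Finset.sum_nonneg (fun j _ => by positivity)
  linarith

/-- [Q3] a direction is in the middle zone of at most 20 stages: if `n₁ ≤ n₂` are such stages,
`∑_{n₁ ≤ n < n₂} 2 m_n = X_{n₁} - X_{n₂} ≤ 3 m_{n₁} + 16 m_{n₂}`, while for `n₂ - n₁ ≥ 20` the sum is
at least `38 m_{n₁}` and at least `38 m_{n₂}`. -/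
theorem mid_gap [Nonempty I] (x : I → ℝ) (i : I) (a b : ℕ)
    (ha : i ∈ Mid (XX x a) (mm x a)) (hb : i ∈ Mid (XX x b) (mm x b)) (hab : a ≤ b) :
    b < a + 20 := by
  by_contra hlt
  push Not at hlt
  rw [mem_Mid_iff] at ha hb
  obtain ⟨c, rfl⟩ := Nat.exists_eq_add_of_le' (show 20 ≤ b by omega)
  have hac : a ≤ c := by omega
  have h1 : (tt x (a + 20) : ℝ) ≤ tt x (c + 20) := tt_mono x (by omega)
  have h2 : (tt x a : ℝ) ≤ tt x c := tt_mono x hac
  have h3 := tt_add x a 20
  have h4 := tt_add x c 20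
  have h5 : (20 : ℝ) * (381 / 400 * (mm x a : ℝ)) ≤ ∑ j ∈ range 20, (mm x (a + j) : ℝ) := by
    have : ∑ j ∈ range 20, (381 / 400 * (mm x a : ℝ)) ≤ ∑ j ∈ range 20, (mm x (a + j) : ℝ) := by
      apply Finset.sum_le_sum
      intro j hj
      rw [mem_range] at hj
      have := mm_fwd x a j (by omega)
      have hj' : (j : ℝ) ≤ 19 := by exact_mod_cast (by omega : j ≤ 19)
      have h0 : (0 : ℝ) ≤ (mm x a : ℝ) := by positivity
      nlinarith
    simpa using this
  have h6 : (20 : ℝ) * (380 / 400 * (mm x (c + 20) : ℝ)) ≤ ∑ j ∈ range 20, (mm x (c + j) : ℝ) := by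
    have : ∑ j ∈ range 20, (380 / 400 * (mm x (c + 20) : ℝ)) ≤
        ∑ j ∈ range 20, (mm x (c + j) : ℝ) := by
      apply Finset.sum_le_sum
      intro j hj
      rw [mem_range] at hj
      have := mm_bwd x (c + j) (20 - j) (by omega)
      have h7 : c + j + (20 - j) = c + 20 := by omega
      rw [h7] at this
      have hj' : ((20 - j : ℕ) : ℝ) ≤ 20 := by exact_mod_cast (by omega : 20 - j ≤ 20)
      have h0 : (0 : ℝ) ≤ (mm x (c + 20) : ℝ) := by positivity
      nlinarith
    simpa using this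
  have g1 : (1024 : ℝ) ≤ (mm x a : ℝ) := by exact_mod_cast mm_ge x a
  have g2 : (1024 : ℝ) ≤ (mm x (c + 20) : ℝ) := by exact_mod_cast mm_ge x (c + 20)
  have e1 : XX x a i = x i - tt x a := rfl
  have e2 : XX x (c + 20) i = x i - tt x (c + 20) := rfl
  rw [e1] at ha
  rw [e2] at hb
  linarith [ha.2, hb.1]

theorem mid_count [Nonempty I] (x : I → ℝ) (W : ℕ) (i : I) :
    ((range W).filter (fun n => i ∈ Mid (XX x n) (mm x n))).card ≤ 20 := by
  classical
  rcases ((range W).filter (fun n => i ∈ Mid (XX x n) (mm x n))).eq_empty_or_nonempty with h | h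
  · rw [h]; simp
  · obtain ⟨a, ha⟩ : ∃ a, a = ((range W).filter (fun n => i ∈ Mid (XX x n) (mm x n))).min' h :=
      ⟨_, rfl⟩
    have hmem := Finset.min'_mem _ h
    rw [← ha] at hmem
    have hsub : (range W).filter (fun n => i ∈ Mid (XX x n) (mm x n)) ⊆ Ico a (a + 20) := by
      intro b hb
      rw [mem_Ico]
      have h1 : a ≤ b := by
        rw [ha]
        exact Finset.min'_le _ _ hb
      refine ⟨h1, ?_⟩
      rw [mem_filter] at hb hmem
      exact mid_gap x i a b hmem.2 hb.2 h1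
    have := Finset.card_le_card hsub
    simpa using this

theorem sum_mid [Nonempty I] (x : I → ℝ) (W : ℕ) :
    ∑ n ∈ range W, ((Mid (XX x n) (mm x n)).card : ℝ) ≤ 20 * (Fintype.card I : ℝ) := by
  have h1 : ∑ n ∈ range W, (Mid (XX x n) (mm x n)).card =
      ∑ i : I, ((range W).filter (fun n => i ∈ Mid (XX x n) (mm x n))).card := by
    simp only [Finset.card_eq_sum_ones, Finset.sum_filter, Mid, mem_filter, mem_univ, true_and]
    rw [Finset.sum_comm]
  have h2 : ∑ i : I, ((range W).filter (fun n => i ∈ Mid (XX x n) (mm x n))).card ≤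
      ∑ _i : I, 20 := Finset.sum_le_sum (fun i _ => mid_count x W i)
  rw [← h1] at h2
  have h3 : ∑ _i : I, 20 = 20 * Fintype.card I := by simp [mul_comm]
  rw [h3] at h2
  exact_mod_cast h2

theorem fat_sub [Nonempty I] (x : I → ℝ) (n : ℕ) :
    Fat (XX x (n + 1)) (mm x (n + 1)) ⊆ Fat (XX x n) (mm x n) := by
  intro i hi
  simp only [Fat, mem_filter, mem_univ, true_and] at hi ⊢
  rw [XX_succ_apply] at hi
  have h1 := (par_seq x n).h1
  have h1' : (399 : ℝ) * (mm x n : ℝ) ≤ 400 * (mm x (n + 1) : ℝ) := by exact_mod_cast h1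
  have h0 : (0 : ℝ) ≤ (mm x n : ℝ) := by positivity
  linarith

/-- [Q4] -/
theorem sum_newmid [Nonempty I] (x : I → ℝ) (W : ℕ) :
    ∑ n ∈ range W, ((NewMid (XX x n) (mm x n) (mm x (n + 1))).card : ℝ) ≤
      (Fintype.card I : ℝ) := by
  have key : ∀ W, ∑ n ∈ range W, ((NewMid (XX x n) (mm x n) (mm x (n + 1))).card : ℝ) +
      ((Fat (XX x W) (mm x W)).card : ℝ) ≤ (Fintype.card I : ℝ) := by
    intro W
    induction W with
    | zero =>
      simp only [range_zero, sum_empty, zero_add]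
      exact_mod_cast Finset.card_le_univ _
    | succ W ih =>
      rw [sum_range_succ]
      have h1 : (NewMid (XX x W) (mm x W) (mm x (W + 1))).card +
          (Fat (XX x (W + 1)) (mm x (W + 1))).card = (Fat (XX x W) (mm x W)).card := by
        unfold NewMid
        rw [← XX_succ]
        exact Finset.card_sdiff_add_card_eq_card (fat_sub x W)
      have h2 : ((NewMid (XX x W) (mm x W) (mm x (W + 1))).card : ℝ) +
          ((Fat (XX x (W + 1)) (mm x (W + 1))).card : ℝ) = ((Fat (XX x W) (mm x W)).card : ℝ) := by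
        exact_mod_cast h1
      linarith
  have := key W
  have h0 : (0 : ℝ) ≤ ((Fat (XX x W) (mm x W)).card : ℝ) := by positivity
  linarith

theorem inv_log_two : 1 / Real.log 2 ≤ 3 / 2 := by
  have h := Real.log_two_gt_d9
  rw [div_le_div_iff₀ (by linarith) (by norm_num)]
  linarith

/-- [Q5] `m = 1024` if `nn ≤ 1`, else `m ≤ 1025 + 16 logb 2 nn ≤ 1025 + 24 nn`. -/
theorem mm_le [Nonempty I] (x : I → ℝ) (n : ℕ) :
    (mm x n : ℝ) ≤ 1024 + 25 * nn (XX x n) := by
  have hpos := sq_nn_pos (XX x n)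
  rcases le_or_gt (nn (XX x n)) 1 with h | h
  · have h1 : Real.logb 2 (nn (XX x n)) ≤ 0 := by
      apply Real.logb_nonpos (by norm_num) hpos.le h
    have h2 : mm x n = 1024 := by
      unfold mm mf
      have h3 : max 0 (Real.logb 2 (nn (fun i => x i - (tt x n : ℝ)))) = 0 := by
        apply max_eq_left
        exact h1
      rw [h3]
      simp
    rw [h2]
    push_cast
    linarith
  · have h1 : Real.logb 2 (nn (XX x n)) ≤ 3 / 2 * (nn (XX x n) - 1) := by
      unfold Real.logb
      have h2 := Real.log_le_sub_one_of_pos hpos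
      have h3 := inv_log_two
      have h4 : 0 ≤ Real.log (nn (XX x n)) := Real.log_nonneg h.le
      rw [div_eq_mul_one_div]
      have h5 : 0 < 1 / Real.log 2 := by
        have := Real.log_two_gt_d9
        positivity
      nlinarith
    have h2 := mm_le' x n
    have h3 : max 0 (Real.logb 2 (nn (XX x n))) ≤ 3 / 2 * (nn (XX x n) - 1) := by
      apply max_le
      · linarith
      · exact h1
    linarith

theorem cst_le [Nonempty I] (x : I → ℝ) (n : ℕ) :
    cst (XX x n) (mm x n) ≤ 524288 * (2054 * ((Mid (XX x n) (mm x n)).card : ℝ) +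
      50 * nn (XX x n)) + 2 * nn (XX x n) := by
  have h1 := mm_le x n
  have h2 := sq_nn_nonneg (XX x n)
  unfold cst
  split_ifs with h
  · have h3 : (0 : ℝ) ≤ ((Mid (XX x n) (mm x n)).card : ℝ) := by positivity
    linarith
  · have h3 : (1 : ℝ) ≤ ((Mid (XX x n) (mm x n)).card : ℝ) := by
      exact_mod_cast Nat.one_le_iff_ne_zero.mpr h
    linarith

/-- [Q6] total costs. (`(2m+5) 1[Mid ≠ ∅] ≤ 2053 #Mid + 50 nn`.) -/
theorem sum_cst' [Nonempty I] (x : I → ℝ) (W : ℕ) :
    ∑ n ∈ range W, cst (XX x n) (mm x n) ≤ 10 ^ 12 * (Fintype.card I : ℝ) := by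
  have h1 : ∑ n ∈ range W, cst (XX x n) (mm x n) ≤
      ∑ n ∈ range W, (524288 * (2054 * ((Mid (XX x n) (mm x n)).card : ℝ) +
      50 * nn (XX x n)) + 2 * nn (XX x n)) := Finset.sum_le_sum (fun n _ => cst_le x n)
  have h2 := sum_mid x W
  have h3 := sum_nn64 x W
  have h4 : (0 : ℝ) ≤ (Fintype.card I : ℝ) := by positivity
  have h5 : ∑ n ∈ range W, (524288 * (2054 * ((Mid (XX x n) (mm x n)).card : ℝ) +
      50 * nn (XX x n)) + 2 * nn (XX x n)) =
      524288 * (2054 * ∑ n ∈ range W, ((Mid (XX x n) (mm x n)).card : ℝ) +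
      50 * ∑ n ∈ range W, nn (XX x n)) + 2 * ∑ n ∈ range W, nn (XX x n) := by
    simp only [mul_add, sum_add_distrib, mul_sum]
  rw [h5] at h1
  linarith

theorem sum_cst [Nonempty I] (x : I → ℝ) (W : ℕ) :
    ∑ n ∈ range W, cst (XX x n) (mm x n) ≤ 10 ^ 14 * (Fintype.card I : ℝ) := by
  have h := sum_cst' x W
  have h4 : (0 : ℝ) ≤ (Fintype.card I : ℝ) := by positivity
  linarith

theorem sum_chg' [Nonempty I] (x : I → ℝ) (W : ℕ) :
    ∑ n ∈ range W, chg (XX x n) (mm x n) (mm x (n + 1)) ≤ 10 ^ 13 * (Fintype.card I : ℝ) := by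
  have h1 : ∑ n ∈ range W, chg (XX x n) (mm x n) (mm x (n + 1)) ≤
      ∑ n ∈ range W, (819200 * nn (XX x n) +
      33669120 * ((NewMid (XX x n) (mm x n) (mm x (n + 1))).card : ℝ) +
        cst (XX x n) (mm x n)) := by
    apply Finset.sum_le_sum
    intro n _
    have := mm_le x n
    unfold chg u0 CC
    have h3 : (0 : ℝ) ≤ ((NewMid (XX x n) (mm x n) (mm x (n + 1))).card : ℝ) := by positivity
    linarith
  have h2 := sum_newmid x W
  have h3 := sum_nn64 x W
  have h6 := sum_cst' x W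
  have h4 : (0 : ℝ) ≤ (Fintype.card I : ℝ) := by positivity
  have h5 : ∑ n ∈ range W, (819200 * nn (XX x n) +
      33669120 * ((NewMid (XX x n) (mm x n) (mm x (n + 1))).card : ℝ) +
        cst (XX x n) (mm x n)) =
      819200 * ∑ n ∈ range W, nn (XX x n) +
      33669120 * ∑ n ∈ range W, ((NewMid (XX x n) (mm x n) (mm x (n + 1))).card : ℝ) +
        ∑ n ∈ range W, cst (XX x n) (mm x n) := by
    simp only [sum_add_distrib, mul_sum]
  rw [h5] at h1
  linarith

theorem sum_chg [Nonempty I] (x : I → ℝ) (W : ℕ) :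
    ∑ n ∈ range W, chg (XX x n) (mm x n) (mm x (n + 1)) ≤ 10 ^ 15 * (Fintype.card I : ℝ) := by
  have h := sum_chg' x W
  have h4 : (0 : ℝ) ≤ (Fintype.card I : ℝ) := by positivity
  linarith

/-- growth product -/
noncomputable def ph (x : I → ℝ) (n : ℕ) (i : I) : ℝ :=
  ∏ k ∈ range n, (1 + eta (XX x k) (mm x k) i)

theorem ph_succ (x : I → ℝ) (n : ℕ) (i : I) :
    ph x (n + 1) i = ph x n i * (1 + eta (XX x n) (mm x n) i) := by
  simp only [ph, prod_range_succ]

theorem ph_zero (x : I → ℝ) (i : I) : ph x 0 i = 1 := by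
  simp only [ph, range_zero, prod_empty]

theorem sq_eta_nonneg (X : I → ℝ) (m : ℕ) (i : I) : 0 ≤ eta X m i := by
  unfold eta
  split_ifs
  · exact le_refl 0
  · exact (p2_pos _).le
  · norm_num

/-- [Q7] -/
theorem one_le_ph (x : I → ℝ) (n : ℕ) (i : I) : 1 ≤ ph x n i := by
  induction n with
  | zero => rw [ph_zero]
  | succ n ih =>
    rw [ph_succ]
    have := sq_eta_nonneg (XX x n) (mm x n) i
    nlinarith

/-- sum of the thin allowances before stage `n` -/
noncomputable def sthin (x : I → ℝ) (n : ℕ) (i : I) : ℝ :=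
  ∑ k ∈ range n, if XX x k i < -(16 * (mm x k : ℝ)) then p2 (XX x k i / 16) else 0

theorem sthin_le (x : I → ℝ) (n : ℕ) (i : I) :
    sthin x n i ≤ 1 - min 1 (2 * p2 (XX x n i / 16)) := by
  induction n with
  | zero =>
    simp only [sthin, range_zero, sum_empty]
    have := min_le_left (1 : ℝ) (2 * p2 (XX x 0 i / 16))
    linarith
  | succ n ih =>
    unfold sthin at ih ⊢
    rw [sum_range_succ]
    have hm : (1024 : ℝ) ≤ (mm x n : ℝ) := by exact_mod_cast mm_ge x n
    have hX := XX_succ_apply x n i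
    split_ifs with h
    · have h1 : p2 (XX x n i / 16) ≤ p2 (-1) := sq_p2_mono (by linarith)
      have h2 : p2 (-1) = 1 / 2 := by
        unfold p2
        rw [Real.rpow_neg_one]
        norm_num
      rw [min_eq_right (by linarith)] at ih
      have h3 : p2 (XX x (n + 1) i / 16) ≤ p2 (-1 + XX x n i / 16) := by
        apply sq_p2_mono
        rw [hX]
        linarith
      rw [sq_p2_add, h2] at h3
      have h4 := min_le_right (1 : ℝ) (2 * p2 (XX x (n + 1) i / 16))
      linarith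
    · have h3 : p2 (XX x (n + 1) i / 16) ≤ p2 (XX x n i / 16) := by
        apply sq_p2_mono
        rw [hX]
        linarith
      have h4 : min 1 (2 * p2 (XX x (n + 1) i / 16)) ≤ min 1 (2 * p2 (XX x n i / 16)) :=
        min_le_min le_rfl (by linarith)
      linarith

theorem sthin_le_one (x : I → ℝ) (n : ℕ) (i : I) : sthin x n i ≤ 1 := by
  have h := sthin_le x n i
  have h1 : 0 ≤ min 1 (2 * p2 (XX x n i / 16)) := by
    apply le_min
    · norm_num
    · have := p2_pos (XX x n i / 16)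
      linarith
  linarith

theorem ph_aux (x : I → ℝ) (n : ℕ) (i : I) :
    ph x n i ≤ 2 ^ ((range n).filter (fun k => i ∈ Mid (XX x k) (mm x k))).card *
      Real.exp (sthin x n i) := by
  induction n with
  | zero => simp [ph_zero, sthin]
  | succ n ih =>
    rw [ph_succ, range_add_one, filter_insert]
    have hs : sthin x (n + 1) i = sthin x n i +
        (if XX x n i < -(16 * (mm x n : ℝ)) then p2 (XX x n i / 16) else 0) := by
      unfold sthin
      rw [sum_range_succ]
    rw [hs, Real.exp_add]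
    have hm : (1024 : ℝ) ≤ (mm x n : ℝ) := by exact_mod_cast mm_ge x n
    have hpos := one_le_ph x n i
    have he := Real.exp_pos (sthin x n i)
    have hnot : n ∉ (range n).filter (fun k => i ∈ Mid (XX x k) (mm x k)) := by simp
    unfold eta
    by_cases h1 : 3 * (mm x n : ℝ) ≤ XX x n i
    · have h2 : i ∉ Mid (XX x n) (mm x n) := by
        rw [mem_Mid_iff]
        intro h
        linarith [h.2]
      have h3 : ¬ (XX x n i < -(16 * (mm x n : ℝ))) := by
        push Not
        linarith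
      rw [if_pos h1, if_neg h2, if_neg h3]
      simpa using ih
    · rw [if_neg h1]
      by_cases h3 : XX x n i < -(16 * (mm x n : ℝ))
      · have h2 : i ∉ Mid (XX x n) (mm x n) := by
          rw [mem_Mid_iff]
          intro h
          linarith [h.1]
        rw [if_pos h3, if_neg h2, if_pos h3]
        have h4 : 1 + p2 (XX x n i / 16) ≤ Real.exp (p2 (XX x n i / 16)) := by
          have := Real.add_one_le_exp (p2 (XX x n i / 16))
          linarith
        calc ph x n i * (1 + p2 (XX x n i / 16)) ≤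
            (2 ^ ((range n).filter (fun k => i ∈ Mid (XX x k) (mm x k))).card *
              Real.exp (sthin x n i)) * Real.exp (p2 (XX x n i / 16)) := by
              apply mul_le_mul ih h4
              · have := p2_pos (XX x n i / 16)
                linarith
              · positivity
          _ = _ := by ring
      · have h2 : i ∈ Mid (XX x n) (mm x n) := by
          rw [mem_Mid_iff]
          push Not at h1 h3
          exact ⟨h3, h1⟩
        rw [if_neg h3, if_pos h2, if_neg h3, card_insert_of_notMem hnot, pow_succ,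
          Real.exp_zero]
        nlinarith

/-- [Q8] at most 20 stages with factor 2; in the thin stages the exponents are
`X < -16·1024` and decrease by at least `2048` per stage, `∑ p2 (X/16) ≤ 1`. -/
theorem ph_le [Nonempty I] (x : I → ℝ) (n : ℕ) (i : I) : ph x n i ≤ 4194304 := by
  have h1 := ph_aux x n i
  have h2 := mid_count x n i
  have h3 : (2 : ℝ) ^ ((range n).filter (fun k => i ∈ Mid (XX x k) (mm x k))).card ≤ 2 ^ 20 :=
    pow_le_pow_right₀ (by norm_num) h2
  have h4 : Real.exp (sthin x n i) ≤ 4 := by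
    have h5 : Real.exp (sthin x n i) ≤ Real.exp 1 := Real.exp_le_exp.mpr (sthin_le_one x n i)
    have h6 := Real.exp_one_lt_d9
    linarith
  calc ph x n i ≤ _ := h1
    _ ≤ 2 ^ 20 * 4 := mul_le_mul h3 h4 (Real.exp_pos _).le (by positivity)
    _ = 4194304 := by norm_num

theorem tt_ge (x : I → ℝ) (n : ℕ) : 2048 * (n : ℝ) ≤ (tt x n : ℝ) := by
  induction n with
  | zero => simp [tt_zero]
  | succ n ih =>
    have := tt_gap x n
    push_cast
    linarith

/-- [Q9] eventually everything is thin and the truncation is below any `ρ > 0`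
(`tt x n ≥ 2048 n`, `mm x n` bounded by `1025 + 25 |I|`). -/
theorem bottom [Nonempty I] (x : I → ℝ) (ρ : ℝ) (hρ : 0 < ρ) :
    ∃ W : ℕ, ∀ i, i ∈ Thin (XX x W) (mm x W) ∧ p2 (XX x W i / 4) < ρ := by
  obtain ⟨W, hW⟩ := exists_nat_ge (∑ i, |x i| + 16 * (1024 + 25 * (Fintype.card I : ℝ)) +
    4 * |Real.logb 2 ρ| + 1)
  refine ⟨W, fun i => ?_⟩
  have h1 := tt_ge x W
  have h2 : (mm x W : ℝ) ≤ 1024 + 25 * (Fintype.card I : ℝ) := by
    have h3 := mm_le x W
    have h4 := sq_nn_le_card (XX x W)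
    linarith
  have h3 : x i ≤ ∑ i, |x i| :=
    (le_abs_self _).trans (Finset.single_le_sum (fun i _ => abs_nonneg (x i)) (mem_univ i))
  have h4 : (0 : ℝ) ≤ (Fintype.card I : ℝ) := by positivity
  have h5 : 0 ≤ |Real.logb 2 ρ| := abs_nonneg _
  have h6 : 0 ≤ ∑ i, |x i| := Finset.sum_nonneg (fun i _ => abs_nonneg (x i))
  have hX : XX x W i = x i - tt x W := rfl
  have hW2 : (W : ℝ) ≤ tt x W := by
    have : (0 : ℝ) ≤ (W : ℝ) := by positivity
    linarith
  constructor
  · simp only [Thin, mem_filter, mem_univ, true_and]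
    rw [hX]
    linarith
  · rw [← sq_p2_logb hρ]
    unfold p2
    apply Real.rpow_lt_rpow_of_exponent_lt (by norm_num)
    have h8 := neg_abs_le (Real.logb 2 ρ)
    rw [hX]
    linarith

end P262C
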