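import Vale.Agent.P262.BanC
import Vale.Agent.P262.Full.Defs

/-!
# P262 full: [S1] Gaussian tails, [S2] abstract signing theorem
-/

open MeasureTheory ProbabilityTheory Finset

namespace P262C

/-- [S1a] `⟪a, z⟫` is centred Gaussian with variance `‖a‖² ≤ 1`. -/
theorem gauss_tail {E : Type*} [NormedAddCommGroup E] [InnerProductSpace ℝ E]
    [FiniteDimensional ℝ E] [MeasurableSpace E] [BorelSpace E] (a : E) (ha : ‖a‖ ≤ 1) (Γ : ℝ)
    (hΓ : 0 ≤ Γ) :
    (stdGaussian E).real {z | Γ < |inner ℝ a z|} ≤ 2 * Real.exp (-(Γ ^ 2 / 2)) := by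
  have key : ∀ b : E, ‖b‖ ≤ 1 →
      (stdGaussian E).real {z | Γ ≤ inner ℝ b z} ≤ Real.exp (-(Γ ^ 2 / 2)) := by
    intro b hb
    have hmap : (stdGaussian E).map (fun z => inner ℝ b z) = gaussianReal 0 (‖b‖ ^ 2).toNNReal := by
      have h1 := IsGaussian.map_eq_gaussianReal (μ := stdGaussian E) (innerSL ℝ b)
      rw [integral_strongDual_stdGaussian, variance_dual_stdGaussian, innerSL_apply_norm] at h1
      exact h1
    have hmgf := mgf_gaussianReal hmap Γ
    have hint : Integrable (fun z => Real.exp (Γ * inner ℝ b z)) (stdGaussian E) := by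
      have h2 : Integrable (fun t : ℝ => Real.exp (Γ * t))
          ((stdGaussian E).map (fun z => inner ℝ b z)) := by
        rw [hmap]
        exact integrable_exp_mul_gaussianReal Γ
      exact h2.comp_measurable (by fun_prop)
    have h3 := measure_ge_le_exp_mul_mgf (μ := stdGaussian E) (X := fun z => inner ℝ b z) Γ hΓ hint
    refine h3.trans ?_
    rw [hmgf, ← Real.exp_add]
    apply Real.exp_le_exp.mpr
    have h4 : ((‖b‖ ^ 2).toNNReal : ℝ) = ‖b‖ ^ 2 := Real.coe_toNNReal _ (by positivity)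
    rw [h4]
    have h5 : ‖b‖ ^ 2 ≤ 1 := by nlinarith [norm_nonneg b]
    nlinarith [sq_nonneg Γ, mul_le_mul_of_nonneg_right h5 (sq_nonneg Γ)]
  have hsub : {z : E | Γ < |inner ℝ a z|} ⊆ {z | Γ ≤ inner ℝ a z} ∪ {z | Γ ≤ inner ℝ (-a) z} := by
    intro z hz
    simp only [Set.mem_ofPred_eq] at hz
    rcases lt_abs.mp hz with h | h
    · exact Or.inl h.le
    · refine Or.inr ?_
      simp only [Set.mem_ofPred_eq, inner_neg_left]
      exact h.le
  calc _ ≤ (stdGaussian E).real ({z | Γ ≤ inner ℝ a z} ∪ {z | Γ ≤ inner ℝ (-a) z}) :=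
        measureReal_mono hsub
    _ ≤ _ := measureReal_union_le _ _
    _ ≤ Real.exp (-(Γ ^ 2 / 2)) + Real.exp (-(Γ ^ 2 / 2)) :=
        add_le_add (key a ha) (key (-a) (by rwa [norm_neg]))
    _ = _ := by ring

theorem integral_exp_sq : ∫ x, Real.exp (x ^ 2 / 4) ∂(gaussianReal 0 1) = Real.sqrt 2 := by
  rw [integral_gaussianReal_eq_integral_smul one_ne_zero]
  have h1 : ∀ x : ℝ, gaussianPDFReal 0 1 x • Real.exp (x ^ 2 / 4) =
      (Real.sqrt (2 * Real.pi))⁻¹ * Real.exp (-(1 / 4) * x ^ 2) := by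
    intro x
    rw [gaussianPDFReal, smul_eq_mul, mul_assoc, ← Real.exp_add]
    congr 2
    · simp
    · push_cast
      ring
  simp only [h1]
  rw [MeasureTheory.integral_const_mul, integral_gaussian]
  have h2 : Real.sqrt (2 * Real.pi) ≠ 0 := by positivity
  have h3 : Real.sqrt (Real.pi / (1 / 4)) = Real.sqrt (2 * Real.pi) * Real.sqrt 2 := by
    rw [← Real.sqrt_mul (by positivity)]
    congr 1
    ring
  rw [h3, ← mul_assoc, inv_mul_cancel₀ h2, one_mul]

theorem integrable_exp_sq : Integrable (fun x : ℝ => Real.exp (x ^ 2 / 4)) (gaussianReal 0 1) := by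
  by_contra h
  have h1 := integral_undef h
  rw [integral_exp_sq] at h1
  have : (0 : ℝ) < Real.sqrt 2 := by positivity
  linarith

/-- [S1b] chi-square: `E exp(z²/4) = √2`, product over `A`, Markov. -/
theorem gauss_chi {κ : Type*} [Fintype κ] [DecidableEq κ] (A : Finset κ) (s : ℝ) (hs : 0 ≤ s) :
    (stdGaussian (EuclideanSpace ℝ κ)).real {z | 8 * (A.card : ℝ) + 4 * s < ∑ k ∈ A, z k ^ 2} ≤
      Real.exp (-(A.card : ℝ) - s) := by
  have _ := hs
  set μ : Measure (κ → ℝ) := Measure.pi (fun _ => gaussianReal 0 1) with hμ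
  have hmap : μ.map (WithLp.toLp 2) = stdGaussian (EuclideanSpace ℝ κ) := map_pi_eq_stdGaussian
  -- move to the product measure
  have hmeas : MeasurableSet {z : EuclideanSpace ℝ κ |
      8 * (A.card : ℝ) + 4 * s < ∑ k ∈ A, z k ^ 2} := by
    apply measurableSet_lt measurable_const
    fun_prop
  have h1 : (stdGaussian (EuclideanSpace ℝ κ)).real
      {z | 8 * (A.card : ℝ) + 4 * s < ∑ k ∈ A, z k ^ 2} =
      μ.real {x : κ → ℝ | 8 * (A.card : ℝ) + 4 * s < ∑ k ∈ A, x k ^ 2} := by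
    rw [← hmap, measureReal_def, Measure.map_apply (by fun_prop) hmeas, measureReal_def]
    rfl
  rw [h1]
  -- the exponential moment
  have hprod : ∀ x : κ → ℝ, Real.exp ((1 / 4) * ∑ k ∈ A, x k ^ 2) =
      ∏ k, (if k ∈ A then Real.exp (x k ^ 2 / 4) else 1) := by
    intro x
    rw [Finset.prod_ite_mem, Finset.univ_inter, ← Real.exp_sum, Finset.mul_sum]
    congr 1
    exact Finset.sum_congr rfl fun k _ => by ring
  have hint1 : ∀ k : κ, Integrable (fun t : ℝ => if k ∈ A then Real.exp (t ^ 2 / 4) else 1)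
      (gaussianReal 0 1) := by
    intro k
    split_ifs
    · exact integrable_exp_sq
    · exact integrable_const _
  have hint : Integrable (fun x : κ → ℝ => Real.exp ((1 / 4) * ∑ k ∈ A, x k ^ 2)) μ := by
    simp only [hprod]
    exact Integrable.fintype_prod (f := fun k t => if k ∈ A then Real.exp (t ^ 2 / 4) else 1) hint1
  have hmgf : mgf (fun x : κ → ℝ => ∑ k ∈ A, x k ^ 2) μ (1 / 4) = Real.sqrt 2 ^ A.card := by
    unfold mgf
    simp only [hprod]
    rw [integral_fintype_prod_eq_prod (fun k t => if k ∈ A then Real.exp (t ^ 2 / 4) else 1)]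
    have h2 : ∀ k : κ, ∫ t, (if k ∈ A then Real.exp (t ^ 2 / 4) else 1) ∂(gaussianReal 0 1) =
        if k ∈ A then Real.sqrt 2 else 1 := by
      intro k
      split_ifs
      · exact integral_exp_sq
      · simp
    simp only [h2]
    rw [Finset.prod_ite_mem, Finset.univ_inter, Finset.prod_const]
  have h3 := measure_ge_le_exp_mul_mgf (μ := μ) (X := fun x : κ → ℝ => ∑ k ∈ A, x k ^ 2)
    (8 * (A.card : ℝ) + 4 * s) (by norm_num : (0 : ℝ) ≤ 1 / 4) hint
  rw [hmgf] at h3
  have h4 : μ.real {x : κ → ℝ | 8 * (A.card : ℝ) + 4 * s < ∑ k ∈ A, x k ^ 2} ≤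
      μ.real {x : κ → ℝ | 8 * (A.card : ℝ) + 4 * s ≤ ∑ k ∈ A, x k ^ 2} :=
    measureReal_mono (fun x (hx : 8 * (A.card : ℝ) + 4 * s < ∑ k ∈ A, x k ^ 2) => by
      simp only [Set.mem_ofPred_eq]
      exact le_of_lt hx)
  refine h4.trans (h3.trans ?_)
  have h5 : Real.sqrt 2 ≤ Real.exp 1 := by
    have h6 : Real.sqrt 2 ≤ 2 := by
      rw [Real.sqrt_le_left (by norm_num)]
      norm_num
    have := Real.exp_one_gt_d9
    linarith
  calc Real.exp (-(1 / 4) * (8 * (A.card : ℝ) + 4 * s)) * Real.sqrt 2 ^ A.card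
      ≤ Real.exp (-(1 / 4) * (8 * (A.card : ℝ) + 4 * s)) * Real.exp 1 ^ A.card := by
        gcongr
    _ = Real.exp (-(A.card : ℝ) - s) := by
        rw [← Real.exp_nat_mul, ← Real.exp_add]
        congr 1
        ring

/-- unordered block step -/
theorem ban_set {E : Type*} [NormedAddCommGroup E] [InnerProductSpace ℝ E]
    [FiniteDimensional ℝ E] [MeasurableSpace E] [BorelSpace E] {ι : Type*} [DecidableEq ι]
    (u : ι → E) (x : ι → ℝ) (B : Finset ι)
    (hu : ∀ e ∈ B, ‖u e‖ ≤ 1 / 32) (hx : ∀ e ∈ B, |x e| ≤ 1 / 2) {K : Set E} (hK : IsClosed K)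
    (hc : Convex ℝ K) (hγ : 19 / 20 ≤ (stdGaussian E).real K) :
    ∃ K' : Set E, IsClosed K' ∧ Convex ℝ K' ∧
      (stdGaussian E).real K ≤ (stdGaussian E).real K' ∧
      ∀ z ∈ K', ∃ ε : ι → ℝ, (∀ e, ε e = 1 ∨ ε e = -1) ∧ z + ∑ e ∈ B, (ε e - x e) • u e ∈ K := by
  induction B using Finset.induction_on with
  | empty =>
    exact ⟨K, hK, hc, le_rfl, fun z hz => ⟨fun _ => 1, fun _ => Or.inl rfl, by simpa using hz⟩⟩
  | insert a B ha ih =>
    obtain ⟨K1, hK1, hc1, hγ1, h1⟩ := ih (fun e he => hu e (Finset.mem_insert_of_mem he))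
      (fun e he => hx e (Finset.mem_insert_of_mem he))
    obtain ⟨K2, hK2, hc2, h2, hγ2⟩ := P262B.ban_step hK1 hc1 (hγ.trans hγ1)
      (hu a (Finset.mem_insert_self a B)) (hx a (Finset.mem_insert_self a B))
    refine ⟨K2, hK2, hc2, hγ1.trans hγ2, ?_⟩
    intro z hz
    have hsign : ∃ s : ℝ, (s = 1 ∨ s = -1) ∧ z + (s - x a) • u a ∈ K1 := by
      rcases h2 z hz with h | h
      · exact ⟨1, Or.inl rfl, h⟩
      · refine ⟨-1, Or.inr rfl, ?_⟩
        have e : (-1 - x a) • u a = -((1 + x a) • u a) := by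
          rw [← neg_smul]; congr 1; ring
        rw [e, ← sub_eq_add_neg]
        exact h
    obtain ⟨s, hs, hsK⟩ := hsign
    obtain ⟨ε, hε, hεK⟩ := h1 _ hsK
    refine ⟨fun e => if e = a then s else ε e, ?_, ?_⟩
    · intro e
      by_cases h : e = a
      · simpa [h] using hs
      · simpa [h] using hε e
    · rw [Finset.sum_insert ha]
      have h4 : ∑ e ∈ B, ((if e = a then s else ε e) - x e) • u e =
          ∑ e ∈ B, (ε e - x e) • u e := by
        refine Finset.sum_congr rfl fun e he => ?_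
        have : e ≠ a := fun h => ha (h ▸ he)
        simp [this]
      simp only [if_true]
      rw [h4, ← add_assoc]
      exact hεK

theorem pos_chain {E : Type*} [NormedAddCommGroup E] [InnerProductSpace ℝ E]
    [FiniteDimensional ℝ E] [MeasurableSpace E] [BorelSpace E] {ι : Type*} [DecidableEq ι]
    (G : Finset ι) (u : ι → E) (x : ι → ℝ)
    (hu : ∀ e ∈ G, ‖u e‖ ≤ 1 / 32) (hx : ∀ e ∈ G, |x e| ≤ 1 / 2) {K : Set E} (hK : IsClosed K)
    (hc : Convex ℝ K) (pos : ι → ℕ) (n : ℕ) (hγ : (n : ℝ) * (stdGaussian E).real Kᶜ ≤ 1 / 20)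
    (m : ℕ) :
    ∀ j : ℕ, j + m = n → ∃ K' : Set E, IsClosed K' ∧ Convex ℝ K' ∧
      (stdGaussian E).real K'ᶜ ≤ (m : ℝ) * (stdGaussian E).real Kᶜ ∧
      ∀ z ∈ K', ∃ ε : ι → ℝ, (∀ e, ε e = 1 ∨ ε e = -1) ∧
        ∀ k, j < k → k ≤ n →
          z + ∑ e ∈ G.filter (fun e => j ≤ pos e ∧ pos e < k), (ε e - x e) • u e ∈ K := by
  have hK0 : 0 ≤ (stdGaussian E).real Kᶜ := measureReal_nonneg
  induction m with
  | zero =>
    intro j hj
    refine ⟨Set.univ, isClosed_univ, convex_univ, by simp, ?_⟩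
    intro z _
    refine ⟨fun _ => 1, fun _ => Or.inl rfl, ?_⟩
    intro k hk1 hk2
    omega
  | succ m ih =>
    intro j hj
    obtain ⟨L, hL, hLc, hLγ, hLs⟩ := ih (j + 1) (by omega)
    have hjn : j < n := by omega
    have hLK : (stdGaussian E).real (L ∩ K)ᶜ ≤ ((m + 1 : ℕ) : ℝ) * (stdGaussian E).real Kᶜ := by
      rw [Set.compl_inter]
      have h2 := measureReal_union_le (μ := stdGaussian E) Lᶜ Kᶜ
      push_cast
      linarith
    have hmn : ((m + 1 : ℕ) : ℝ) ≤ (n : ℝ) := by exact_mod_cast (by omega : m + 1 ≤ n)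
    have hL1 : 19 / 20 ≤ (stdGaussian E).real (L ∩ K) := by
      have h1 := probReal_add_probReal_compl (μ := stdGaussian E) (hL.inter hK).measurableSet
      have h2 : ((m + 1 : ℕ) : ℝ) * (stdGaussian E).real Kᶜ ≤ 1 / 20 :=
        (mul_le_mul_of_nonneg_right hmn hK0).trans hγ
      linarith
    obtain ⟨L', hL', hLc', hγ', hstep⟩ := ban_set u x (G.filter (fun e => pos e = j))
      (fun e he => hu e (Finset.mem_filter.mp he).1)
      (fun e he => hx e (Finset.mem_filter.mp he).1) (hL.inter hK) (hLc.inter hc) hL1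
    refine ⟨L', hL', hLc', ?_, ?_⟩
    · have e1 := probReal_add_probReal_compl (μ := stdGaussian E) (hL.inter hK).measurableSet
      have e2 := probReal_add_probReal_compl (μ := stdGaussian E) hL'.measurableSet
      linarith
    · intro z hz
      obtain ⟨ε1, hε1, hε1L⟩ := hstep z hz
      obtain ⟨ε2, hε2, hε2K⟩ := hLs _ hε1L.1
      refine ⟨fun e => if pos e = j then ε1 e else ε2 e, ?_, ?_⟩
      · intro e
        by_cases h : pos e = j
        · simpa [h] using hε1 e
        · simpa [h] using hε2 e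
      · intro k hk1 hk2
        have hset : G.filter (fun e => j ≤ pos e ∧ pos e < k) =
            G.filter (fun e => pos e = j) ∪
              G.filter (fun e => j + 1 ≤ pos e ∧ pos e < k) := by
          ext e
          simp only [Finset.mem_filter, Finset.mem_union]
          constructor
          · rintro ⟨h1, h2, h3⟩
            rcases Nat.eq_or_lt_of_le h2 with h4 | h4
            · exact Or.inl ⟨h1, h4.symm⟩
            · exact Or.inr ⟨h1, h4, h3⟩
          · rintro (⟨h1, h2⟩ | ⟨h1, h2, h3⟩)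
            · exact ⟨h1, by omega, by omega⟩
            · exact ⟨h1, by omega, h3⟩
        have hdisj : Disjoint (G.filter (fun e => pos e = j))
            (G.filter (fun e => j + 1 ≤ pos e ∧ pos e < k)) := by
          rw [Finset.disjoint_filter]
          intro e _ h1 h2
          omega
        have h4 : ∑ e ∈ G.filter (fun e => pos e = j),
            ((if pos e = j then ε1 e else ε2 e) - x e) • u e =
            ∑ e ∈ G.filter (fun e => pos e = j), (ε1 e - x e) • u e := by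
          refine Finset.sum_congr rfl fun e he => ?_
          rw [if_pos (Finset.mem_filter.mp he).2]
        have h5 : ∑ e ∈ G.filter (fun e => j + 1 ≤ pos e ∧ pos e < k),
            ((if pos e = j then ε1 e else ε2 e) - x e) • u e =
            ∑ e ∈ G.filter (fun e => j + 1 ≤ pos e ∧ pos e < k), (ε2 e - x e) • u e := by
          refine Finset.sum_congr rfl fun e he => ?_
          rw [if_neg]
          have := (Finset.mem_filter.mp he).2.1
          omega
        rw [hset, Finset.sum_union hdisj, h4, h5, ← add_assoc]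
        rcases Nat.eq_or_lt_of_le (Nat.succ_le_of_lt hk1) with h6 | h6
        · have h7 : G.filter (fun e => j + 1 ≤ pos e ∧ pos e < k) = ∅ := by
            rw [Finset.filter_eq_empty_iff]
            intro e _ h8
            omega
          rw [h7, Finset.sum_empty, add_zero]
          exact hε1L.2
        · exact hε2K k h6 hk2

theorem convex_sq_le {κ : Type*} [Fintype κ] (A : Finset κ) (c : ℝ) :
    Convex ℝ {z : EuclideanSpace ℝ κ | ∑ k ∈ A, z k ^ 2 ≤ c} := by
  intro y hy z hz a b ha hb hab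
  simp only [Set.mem_ofPred_eq] at hy hz ⊢
  have h1 : ∀ k, (a • y + b • z) k ^ 2 ≤ a * y k ^ 2 + b * z k ^ 2 := by
    intro k
    have : (a • y + b • z) k = a * y k + b * z k := rfl
    rw [this]
    have hb' : b = 1 - a := by linarith
    subst hb'
    nlinarith [mul_nonneg ha hb, mul_nonneg (mul_nonneg ha hb) (sq_nonneg (y k - z k))]
  calc ∑ k ∈ A, (a • y + b • z) k ^ 2 ≤ ∑ k ∈ A, (a * y k ^ 2 + b * z k ^ 2) :=
        Finset.sum_le_sum fun k _ => h1 k
    _ = a * ∑ k ∈ A, y k ^ 2 + b * ∑ k ∈ A, z k ^ 2 := by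
        rw [Finset.sum_add_distrib, Finset.mul_sum, Finset.mul_sum]
    _ ≤ a * c + b * c := by gcongr
    _ = c := by rw [← add_mul, hab, one_mul]

theorem convex_abs_le {E : Type*} [NormedAddCommGroup E] [InnerProductSpace ℝ E] (a : E) (c : ℝ) :
    Convex ℝ {z : E | |inner ℝ a z| ≤ c} := by
  have : {z : E | |inner ℝ a z| ≤ c} = (innerSL ℝ a).toLinearMap ⁻¹' Set.Icc (-c) c := by
    ext z
    simp [abs_le]
  rw [this]
  exact (convex_Icc _ _).linear_preimage _

theorem closed_abs_le {E : Type*} [NormedAddCommGroup E] [InnerProductSpace ℝ E] (a : E) (c : ℝ) :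
    IsClosed {z : E | |inner ℝ a z| ≤ c} := by
  apply isClosed_le _ continuous_const
  fun_prop

/-- [S2] Apply `P262B.ban_prefix` in `E = EuclideanSpace ℝ (κ ⊕ ι)` with
`V_e = (1/64) (f e ⊕ δ_e)` (`‖V_e‖² ≤ (3+1)/4096`, so `‖V_e‖ ≤ 1/32`), the elements of `G` listed
in the order of `pos` (ties arbitrary); the checkpoint after the last element with `pos e < j`
(for `1 ≤ j ≤ n`) carries the closed convex set `K = {z : |z_k| ≤ Γ k (k ∈ S),
|∑_{e∈G} h r e z_e| ≤ Γ' r ‖h r‖_G (r ∈ Rs), ∑_{k ∈ A t} z_k² ≤ 8 |A t| + 4 s (t ∈ T)}`, the other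
checkpoints (also checkpoint `0` if no element) carry `univ` (or `K`, which contains `0`).
`γ(Kᶜ) ≤` the bracket in `hn` by [S1a], [S1b]. -/
theorem signing {ι κ R τ : Type} [Fintype ι] [DecidableEq ι] [Fintype κ] [DecidableEq κ]
    (f : ι → κ → ℝ) (G : Finset ι) (hf : ∀ e ∈ G, ∑ k, f e k ^ 2 ≤ 3)
    (S : Finset κ) (Γ : κ → ℝ) (hΓ : ∀ k ∈ S, 0 ≤ Γ k)
    (Rs : Finset R) (h : R → ι → ℝ) (Γ' : R → ℝ) (hΓ' : ∀ r ∈ Rs, 0 ≤ Γ' r)
    (T : Finset τ) (A : τ → Finset κ) (s : ℝ) (hs : 0 ≤ s) (n : ℕ)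
    (hn : (n : ℝ) * (∑ k ∈ S, 2 * Real.exp (-(Γ k ^ 2 / 2)) +
      ∑ r ∈ Rs, 2 * Real.exp (-(Γ' r ^ 2 / 2)) +
      ∑ t ∈ T, Real.exp (-((A t).card : ℝ) - s)) ≤ 1 / 20)
    (pos : ι → ℕ) (x : ι → ℝ) (hx : ∀ e ∈ G, |x e| ≤ 1 / 2) :
    ∃ ε : ι → ℝ, (∀ e, ε e = 1 ∨ ε e = -1) ∧ ∀ j, 1 ≤ j → j ≤ n →
      (∀ k ∈ S, |pr G (fun e => if pos e < j then ε e - x e else 0) (fun e => f e k)| ≤
        64 * Γ k) ∧
      (∀ r ∈ Rs, |pr G (fun e => if pos e < j then ε e - x e else 0) (h r)| ≤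
        64 * Γ' r * Real.sqrt (∑ e ∈ G, h r e ^ 2)) ∧
      (∀ t ∈ T, ∑ k ∈ A t, pr G (fun e => if pos e < j then ε e - x e else 0)
        (fun e => f e k) ^ 2 ≤ 4096 * (8 * ((A t).card : ℝ) + 4 * s)) := by
  classical
  -- the vectors
  set V : ι → (EuclideanSpace ℝ (κ ⊕ ι)) := fun e => WithLp.toLp 2 (Sum.elim (fun k => f e k / 64)
    (fun e' => if e' = e then 1 / 64 else 0)) with hV
  have hVl : ∀ e k, V e (Sum.inl k) = f e k / 64 := fun e k => rfl
  have hVr : ∀ e e', V e (Sum.inr e') = if e' = e then 1 / 64 else 0 := fun e e' => rfl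
  have hVn : ∀ e ∈ G, ‖V e‖ ≤ 1 / 32 := by
    intro e he
    have h1 : ‖V e‖ ^ 2 ≤ (1 / 32) ^ 2 := by
      rw [EuclideanSpace.norm_sq_eq, Fintype.sum_sum_type]
      simp only [hVl, hVr, Real.norm_eq_abs, sq_abs, div_pow]
      have h2 : ∑ e' : ι, (if e' = e then (1 / 64 : ℝ) else 0) ^ 2 = 1 / 4096 := by
        have : ∀ e' : ι, (if e' = e then (1 / 64 : ℝ) else 0) ^ 2 =
            if e' = e then (1 / 4096 : ℝ) else 0 := by
          intro e'; split_ifs <;> norm_num
        simp only [this]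
        rw [Finset.sum_ite_eq' univ e]
        simp
      rw [h2, ← Finset.sum_div]
      have := hf e he
      norm_num
      linarith
    exact abs_le_of_sq_le_sq' h1 (by norm_num) |>.2
  -- the functionals
  set aS : κ → (EuclideanSpace ℝ (κ ⊕ ι)) := fun k => EuclideanSpace.single (Sum.inl k) 1 with haS
  have haSi : ∀ k (z : (EuclideanSpace ℝ (κ ⊕ ι))), inner ℝ (aS k) z = z (Sum.inl k) := by
    intro k z
    rw [haS]
    simp [EuclideanSpace.inner_single_left]
  set aR : R → (EuclideanSpace ℝ (κ ⊕ ι)) := fun r => WithLp.toLp 2 (Sum.elim (fun _ => (0 : ℝ))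
    (fun e => if e ∈ G then h r e else 0)) with haR
  have haRi : ∀ r (z : (EuclideanSpace ℝ (κ ⊕ ι))), inner ℝ (aR r) z = ∑ e ∈ G, h r e * z (Sum.inr e) := by
    intro r z
    rw [PiLp.inner_apply, Fintype.sum_sum_type]
    have h1 : ∀ k : κ, inner ℝ (aR r (Sum.inl k)) (z (Sum.inl k)) = 0 := by
      intro k
      have : aR r (Sum.inl k) = 0 := rfl
      rw [this]; simp
    have h2 : ∀ e : ι, inner ℝ (aR r (Sum.inr e)) (z (Sum.inr e)) =
        if e ∈ G then h r e * z (Sum.inr e) else 0 := by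
      intro e
      have : aR r (Sum.inr e) = if e ∈ G then h r e else 0 := rfl
      rw [this]
      split_ifs
      · simp [mul_comm]
      · simp
    simp only [h1, h2, Finset.sum_const_zero, zero_add]
    rw [Finset.sum_ite_mem, Finset.univ_inter]
  set nR : R → ℝ := fun r => Real.sqrt (∑ e ∈ G, h r e ^ 2) with hnR
  have hnorm : ∀ r, ‖aR r‖ = nR r := by
    intro r
    rw [EuclideanSpace.norm_eq, Fintype.sum_sum_type]
    have h1 : ∀ k : κ, ‖aR r (Sum.inl k)‖ ^ 2 = 0 := by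
      intro k
      have : aR r (Sum.inl k) = 0 := rfl
      rw [this]; simp
    have h2 : ∀ e : ι, ‖aR r (Sum.inr e)‖ ^ 2 = if e ∈ G then h r e ^ 2 else 0 := by
      intro e
      have : aR r (Sum.inr e) = if e ∈ G then h r e else 0 := rfl
      rw [this]
      split_ifs <;> simp
    simp only [h1, h2, Finset.sum_const_zero, zero_add]
    rw [Finset.sum_ite_mem, Finset.univ_inter]
  -- the body
  set KS : Set (EuclideanSpace ℝ (κ ⊕ ι)) := ⋂ k ∈ S, {z | |inner ℝ (aS k) z| ≤ Γ k} with hKS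
  set KR : Set (EuclideanSpace ℝ (κ ⊕ ι)) := ⋂ r ∈ Rs, {z | |inner ℝ (aR r) z| ≤ Γ' r * nR r} with hKR
  set A' : τ → Finset (κ ⊕ ι) := fun t => (A t).map ⟨Sum.inl, Sum.inl_injective⟩ with hA'
  have hA'c : ∀ t, (A' t).card = (A t).card := fun t => Finset.card_map _
  have hA's : ∀ t (z : (EuclideanSpace ℝ (κ ⊕ ι))), ∑ k ∈ A' t, z k ^ 2 = ∑ k ∈ A t, z (Sum.inl k) ^ 2 := by
    intro t z
    rw [hA', Finset.sum_map]
    rfl
  set KT : Set (EuclideanSpace ℝ (κ ⊕ ι)) := ⋂ t ∈ T, {z | ∑ k ∈ A' t, z k ^ 2 ≤ 8 * ((A' t).card : ℝ) + 4 * s} with hKT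
  set K : Set (EuclideanSpace ℝ (κ ⊕ ι)) := KS ∩ KR ∩ KT with hK
  have hKclosed : IsClosed K := by
    refine IsClosed.inter (IsClosed.inter ?_ ?_) ?_
    · exact isClosed_biInter fun k _ => closed_abs_le _ _
    · exact isClosed_biInter fun r _ => closed_abs_le _ _
    · refine isClosed_biInter fun t _ => ?_
      apply isClosed_le _ continuous_const
      fun_prop
  have hKconv : Convex ℝ K := by
    refine Convex.inter (Convex.inter ?_ ?_) ?_
    · exact convex_iInter₂ fun k _ => convex_abs_le _ _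
    · exact convex_iInter₂ fun r _ => convex_abs_le _ _
    · exact convex_iInter₂ fun t _ => convex_sq_le _ _
  -- the measure of the complement
  have hKγ : (stdGaussian (EuclideanSpace ℝ (κ ⊕ ι))).real Kᶜ ≤ ∑ k ∈ S, 2 * Real.exp (-(Γ k ^ 2 / 2)) +
      ∑ r ∈ Rs, 2 * Real.exp (-(Γ' r ^ 2 / 2)) +
      ∑ t ∈ T, Real.exp (-((A t).card : ℝ) - s) := by
    have hc1 : Kᶜ ⊆ (⋃ k ∈ S, {z : (EuclideanSpace ℝ (κ ⊕ ι)) | Γ k < |inner ℝ (aS k) z|}) ∪
        (⋃ r ∈ Rs, {z : (EuclideanSpace ℝ (κ ⊕ ι)) | Γ' r * nR r < |inner ℝ (aR r) z|}) ∪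
        (⋃ t ∈ T, {z : (EuclideanSpace ℝ (κ ⊕ ι)) | 8 * ((A' t).card : ℝ) + 4 * s < ∑ k ∈ A' t, z k ^ 2}) := by
      intro z hz
      by_contra hcon
      simp only [Set.mem_union, Set.mem_iUnion, Set.mem_ofPred_eq, exists_prop, not_or,
        not_exists, not_and, not_lt] at hcon
      apply hz
      refine ⟨⟨?_, ?_⟩, ?_⟩
      · exact Set.mem_iInter₂.mpr fun k hk => hcon.1.1 k hk
      · exact Set.mem_iInter₂.mpr fun r hr => hcon.1.2 r hr
      · exact Set.mem_iInter₂.mpr fun t ht => hcon.2 t ht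
    have m1 : (stdGaussian (EuclideanSpace ℝ (κ ⊕ ι))).real (⋃ k ∈ S, {z : (EuclideanSpace ℝ (κ ⊕ ι)) | Γ k < |inner ℝ (aS k) z|}) ≤
        ∑ k ∈ S, 2 * Real.exp (-(Γ k ^ 2 / 2)) := by
      refine (measureReal_biUnion_finset_le _ _).trans (Finset.sum_le_sum fun k hk => ?_)
      apply gauss_tail _ _ _ (hΓ k hk)
      rw [haS]; simp
    have m2 : (stdGaussian (EuclideanSpace ℝ (κ ⊕ ι))).real (⋃ r ∈ Rs, {z : (EuclideanSpace ℝ (κ ⊕ ι)) | Γ' r * nR r < |inner ℝ (aR r) z|}) ≤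
        ∑ r ∈ Rs, 2 * Real.exp (-(Γ' r ^ 2 / 2)) := by
      refine (measureReal_biUnion_finset_le _ _).trans (Finset.sum_le_sum fun r hr => ?_)
      have hn0 : 0 ≤ nR r := Real.sqrt_nonneg _
      rcases hn0.eq_or_lt with h0 | h0
      · have h1 : {z : (EuclideanSpace ℝ (κ ⊕ ι)) | Γ' r * nR r < |inner ℝ (aR r) z|} = ∅ := by
          ext z
          simp only [Set.mem_ofPred_eq, Set.mem_empty_iff_false, iff_false, not_lt]
          have h2 : aR r = 0 := by
            rw [← norm_eq_zero, hnorm]; exact h0.symm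
          rw [h2, ← h0]
          simp
        rw [h1]
        simp only [measureReal_empty]
        positivity
      · have h1 : {z : (EuclideanSpace ℝ (κ ⊕ ι)) | Γ' r * nR r < |inner ℝ (aR r) z|} ⊆
            {z : (EuclideanSpace ℝ (κ ⊕ ι)) | Γ' r < |inner ℝ ((nR r)⁻¹ • aR r) z|} := by
          intro z hz
          simp only [Set.mem_ofPred_eq] at hz ⊢
          rw [inner_smul_left, abs_mul]
          simp only [conj_trivial, abs_inv, abs_of_pos h0]
          rw [inv_mul_eq_div, lt_div_iff₀ h0]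
          exact hz
        refine (measureReal_mono h1).trans (gauss_tail _ ?_ _ (hΓ' r hr))
        rw [norm_smul, norm_inv, Real.norm_eq_abs, abs_of_pos h0, hnorm,
          inv_mul_cancel₀ h0.ne']
    have m3 : (stdGaussian (EuclideanSpace ℝ (κ ⊕ ι))).real (⋃ t ∈ T, {z : (EuclideanSpace ℝ (κ ⊕ ι)) | 8 * ((A' t).card : ℝ) + 4 * s <
        ∑ k ∈ A' t, z k ^ 2}) ≤ ∑ t ∈ T, Real.exp (-((A t).card : ℝ) - s) := by
      refine (measureReal_biUnion_finset_le _ _).trans (Finset.sum_le_sum fun t _ => ?_)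
      have := gauss_chi (A' t) s hs
      rw [hA'c] at this
      rw [hA'c]
      exact this
    refine (measureReal_mono hc1).trans ?_
    refine (measureReal_union_le _ _).trans (add_le_add ?_ m3)
    exact (measureReal_union_le _ _).trans (add_le_add m1 m2)
  have hγ : (n : ℝ) * (stdGaussian (EuclideanSpace ℝ (κ ⊕ ι))).real Kᶜ ≤ 1 / 20 :=
    (mul_le_mul_of_nonneg_left hKγ (Nat.cast_nonneg n)).trans hn
  obtain ⟨K0, hK0, hK0c, hK0γ, hK0s⟩ := pos_chain G V x hVn hx hKclosed hKconv pos n hγ n 0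
    (by omega)
  have h0 : (0 : (EuclideanSpace ℝ (κ ⊕ ι))) ∈ K0 := by
    apply P262B.zero_mem_of_gauss hK0 hK0c
    have := probReal_add_probReal_compl (μ := stdGaussian (EuclideanSpace ℝ (κ ⊕ ι))) hK0.measurableSet
    linarith
  obtain ⟨ε, hε, hεK⟩ := hK0s 0 h0
  refine ⟨ε, hε, ?_⟩
  intro j hj1 hjn
  have hmem := hεK j hj1 hjn
  rw [zero_add] at hmem
  set z : (EuclideanSpace ℝ (κ ⊕ ι)) := ∑ e ∈ G.filter (fun e => 0 ≤ pos e ∧ pos e < j), (ε e - x e) • V e with hz
  set y : ι → ℝ := fun e => if pos e < j then ε e - x e else 0 with hy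
  have hzapp : ∀ q, z q = ∑ e ∈ G, y e * V e q := by
    intro q
    have h1 : z q = ∑ e ∈ G.filter (fun e => 0 ≤ pos e ∧ pos e < j), (ε e - x e) * V e q := by
      rw [hz]
      simp
    rw [h1, Finset.sum_filter]
    refine Finset.sum_congr rfl fun e _ => ?_
    simp only [hy, zero_le, true_and]
    split_ifs <;> ring
  have hzl : ∀ k, z (Sum.inl k) = pr G y (fun e => f e k) / 64 := by
    intro k
    rw [hzapp]
    unfold pr
    rw [Finset.sum_div]
    refine Finset.sum_congr rfl fun e _ => ?_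
    rw [hVl]; ring
  have hzr : ∀ e ∈ G, z (Sum.inr e) = y e / 64 := by
    intro e he
    rw [hzapp]
    simp only [hVr]
    rw [Finset.sum_eq_single e]
    · simp; ring
    · intro b _ hb
      rw [if_neg (Ne.symm hb), mul_zero]
    · intro h; exact absurd he h
  obtain ⟨⟨mS, mR⟩, mT⟩ := hmem
  refine ⟨?_, ?_, ?_⟩
  · intro k hk
    have h1 : |inner ℝ (aS k) z| ≤ Γ k := Set.mem_iInter₂.mp mS k hk
    rw [haSi, hzl, abs_div, abs_of_pos (by norm_num : (0 : ℝ) < 64), div_le_iff₀ (by norm_num)]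
      at h1
    linarith
  · intro r hr
    have h1 : |inner ℝ (aR r) z| ≤ Γ' r * nR r := Set.mem_iInter₂.mp mR r hr
    have h2 : inner ℝ (aR r) z = pr G y (h r) / 64 := by
      rw [haRi]
      unfold pr
      rw [Finset.sum_div]
      refine Finset.sum_congr rfl fun e he => ?_
      rw [hzr e he]; ring
    rw [h2, abs_div, abs_of_pos (by norm_num : (0 : ℝ) < 64), div_le_iff₀ (by norm_num)] at h1
    linarith
  · intro t ht
    have h1 : ∑ k ∈ A' t, z k ^ 2 ≤ 8 * ((A' t).card : ℝ) + 4 * s := Set.mem_iInter₂.mp mT t ht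
    rw [hA's, hA'c] at h1
    have h2 : ∑ k ∈ A t, z (Sum.inl k) ^ 2 =
        (∑ k ∈ A t, pr G y (fun e => f e k) ^ 2) / 4096 := by
      rw [Finset.sum_div]
      refine Finset.sum_congr rfl fun k _ => ?_
      rw [hzl, div_pow]
      norm_num
    rw [h2, div_le_iff₀ (by norm_num)] at h1
    linarith

end P262C
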