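import Vale.Agent.P262.Full.SteerB

/-!
# P262 full: [L1] solving the Gram system, [L2] steering in a window
-/

open Finset

namespace P262C

/-- [L1] `A = μ^{1/2} (1 + E) μ^{1/2}` on `F` with `‖E‖_HS ≤ 1/2`, so `yᵀ A y ≥ (1/2) ∑ μ y²`; `A` is
injective hence surjective; `y = A⁻¹ w`; `(1/2) ∑ μ y² ≤ yᵀ A y = yᵀ w ≤ √(∑ μ y²) √(∑ w²/μ)`, and
`∑_e (∑_l y_l v_el)² = yᵀ A y`. -/
theorem steer_solve {ι I : Type*} [Fintype I] [DecidableEq I] (F : Finset I) (H : Finset ι)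
    (v : ι → I → ℝ) (μ : I → ℝ) (hμ : ∀ i ∈ F, 0 < μ i)
    (hD : ∑ i ∈ F, ∑ l ∈ F, ((∑ e ∈ H, v e i * v e l) - if i = l then μ i else 0) ^ 2 /
      (μ i * μ l) ≤ 1 / 4) (w : I → ℝ) :
    ∃ y : I → ℝ, (∀ i, i ∉ F → y i = 0) ∧
      (∀ i ∈ F, ∑ e ∈ H, (∑ l ∈ F, y l * v e l) * v e i = w i) ∧
      ∑ i ∈ F, μ i * y i ^ 2 ≤ 4 * ∑ i ∈ F, w i ^ 2 / μ i ∧
      ∑ e ∈ H, (∑ l ∈ F, y l * v e l) ^ 2 ≤ 2 * ∑ i ∈ F, w i ^ 2 / μ i :=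
  steer_solve' F H v μ hμ hD w

variable {ι I : Type} [Fintype I] [DecidableEq I] [DecidableEq ι]

/-- [L2a] the error of the Gram matrix of the first block:
`∑_H v_i v_l - 2^{-l₀} δ p2(X i) = 2^{-l₀} (Gram G - δ p2 X) + ∑_G (k + d) v_i v_l`. -/
theorem gram_H {v : ι → I → ℝ} {G H : Finset ι} {X : I → ℝ} {m m' : ℕ}
    (hgram : ∀ i l, i ∉ Thin X m → l ∉ Thin X m →
      |∑ e ∈ G, v e i * v e l - (if i = l then p2 (X i) else 0)| ≤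
        p2 ((m : ℝ) / 8 + (max 0 (X i) + max 0 (X l)) / 4))
    (l₀ : ℕ) (hH : H ⊆ G) (k d : ι → ℝ) (hk : WGood v G X m m' k) (hd : WDrift v G X m d)
    (hind : ∀ e ∈ G, (if e ∈ H then (1 : ℝ) else 0) - 1 / 2 ^ l₀ = k e + d e) (i l : I)
    (hi : i ∉ Thin X m) (hl : l ∉ Thin X m) :
    |∑ e ∈ H, v e i * v e l - (if i = l then p2 (X i) / 2 ^ l₀ else 0)| ≤
      p2 ((m : ℝ) / 8 + (max 0 (X i) + max 0 (X l)) / 4) / 2 ^ l₀ +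
      65 * p2 ((m : ℝ) / 16 + (max 0 (nx X m i) + max 0 (nx X m l)) / 4) :=
  gram_H' hgram l₀ hH k d hk hd hind i l hi hl

/-- [L2b] `∑_{Fat} p2(-X/2) ≤ p2 (m/16 - 3m/2 + 3 al m)`. -/
theorem fat_sum_half {X : I → ℝ} {m m' : ℕ} (hp : Par X m m') :
    ∑ i ∈ Fat X m, p2 (-(X i / 2)) ≤ p2 ((m : ℝ) / 16 - 3 * m / 2 + 3 * al * m) :=
  fat_sum_half' hp

/-- [L2c] relative accuracy on the fat directions.  With `μ i = p2 (X i) / 2^l₀`: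
`|D_il| ≤ 2^{-l₀} p2 (m/8 + (X_i+X_l)/4) + 65 p2 (m/16 + (X_i+X_l)/4 - m)`, so
`D²/(μ_i μ_l) ≤ 2 p2 (m/4 - (X_i+X_l)/2) + 8450 p2 (2 l₀ + m/8 - 2m - (X_i+X_l)/2)`, `l₀ ≤ 2m-1`,
and [L2b] squared. -/
theorem fat_rel {v : ι → I → ℝ} {G H : Finset ι} {X : I → ℝ} {m m' : ℕ} (hp : Par X m m')
    (hgram : ∀ i l, i ∉ Thin X m → l ∉ Thin X m →
      |∑ e ∈ G, v e i * v e l - (if i = l then p2 (X i) else 0)| ≤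
        p2 ((m : ℝ) / 8 + (max 0 (X i) + max 0 (X l)) / 4))
    (l₀ : ℕ) (hl₀ : l₀ < 2 * m) (hH : H ⊆ G) (k d : ι → ℝ) (hk : WGood v G X m m' k)
    (hd : WDrift v G X m d)
    (hind : ∀ e ∈ G, (if e ∈ H then (1 : ℝ) else 0) - 1 / 2 ^ l₀ = k e + d e) :
    ∑ i ∈ Fat X m, ∑ l ∈ Fat X m, ((∑ e ∈ H, v e i * v e l) -
      if i = l then p2 (X i) / 2 ^ l₀ else 0) ^ 2 / ((p2 (X i) / 2 ^ l₀) * (p2 (X l) / 2 ^ l₀)) ≤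
      1 / 4 :=
  fat_rel' hp hgram l₀ hl₀ hH k d hk hd hind

/-- [L2d] size of the target: `w_i² ≤ 4 p2 (X_i/16)`,
`∑_{Fat} w_i²/μ_i ≤ 4·2^l₀ ∑ p2(-15 X_i/16) ≤ 4·2^l₀ p2 (m/16 - 45 m/16 + 3 al m)`. -/
theorem target_size {X : I → ℝ} {m m' : ℕ} (hp : Par X m m') (l₀ : ℕ) (w : I → ℝ)
    (hw : ∀ i ∈ Fat X m, |w i| ≤ 2 * p2 (X i / 32)) :
    ∑ i ∈ Fat X m, w i ^ 2 / (p2 (X i) / 2 ^ l₀) ≤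
      4 * 2 ^ l₀ * p2 (-(11 * (m : ℝ) / 4) + 3 * al * m) :=
  target_size' hp l₀ w hw

/-- [L2] steering in a window.  `x e = ∑_{l ∈ Fat} y_l v_el` on `H` from [L1]; set
`ξ² = 2^{l₀+3} p2 (-11m/4 + 3 al m)`.
* `∑ x² ≤ ξ² ≤ 1` (`l₀ ≤ 2m-1`); `|x e|² ≤ ∑ y² ≤ (4 ∑ w²/μ)/min μ ≤ 1/4`, `min μ ≥ 2^{3m-l₀}`;
* `d2`: `|∑_H x v_i v_l| ≤ ξ (G_ii G_ll)^{1/4}` with `G_ii = ∑_H v_i²`, and
  `ξ² G_ii ≤ p2 (X'⁺_i)` by [L2a] (three terms, each at most a third);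
* `d5`: `Tf² ≤ v_i²`, so `|∑_H x Tf| ≤ ξ √G_ii ≤ 1` as `X'⁺ = 0`;
* `d3`: for `i ∈ Mid`: `∑_H x v_i = ∑_{l∈Fat} D_il y_l ≤ √(∑ D_il²/μ_l) √(∑ μ y²)`;
  `∑_l D_il²/μ_l ≤ 2·2^{-l₀} p2(m/4 + 3m/2) ∑ p2(-X_l/2) + 8450·2^l₀ p2(m/8 - m + m/2) ∑ p2(-X_l/2)`
  times `∑ μ y² ≤ 2^{l₀+4} p2 (-11m/4 + 3 al m)` is `≤ 1`. -/
theorem wsteer {v : ι → I → ℝ} {G H : Finset ι} {X : I → ℝ} {m m' : ℕ} (hp : Par X m m')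
    (hv : ∀ e ∈ G, ∑ i, v e i ^ 2 ≤ 1)
    (hgram : ∀ i l, i ∉ Thin X m → l ∉ Thin X m →
      |∑ e ∈ G, v e i * v e l - (if i = l then p2 (X i) else 0)| ≤
        p2 ((m : ℝ) / 8 + (max 0 (X i) + max 0 (X l)) / 4))
    (l₀ : ℕ) (hl₀ : l₀ < 2 * m) (hH : H ⊆ G) (k d : ι → ℝ) (hk : WGood v G X m m' k)
    (hd : WDrift v G X m d)
    (hind : ∀ e ∈ G, (if e ∈ H then (1 : ℝ) else 0) - 1 / 2 ^ l₀ = k e + d e) (w : I → ℝ)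
    (hw : ∀ i ∈ Fat X m, |w i| ≤ 2 * p2 (X i / 32)) :
    ∃ x : ι → ℝ, (∀ e, e ∉ H → x e = 0) ∧ (∀ e, |x e| ≤ 1 / 2) ∧ WDrift v G X m x ∧
      ∀ i ∈ Fat X m, ∑ e ∈ G, x e * v e i = w i :=
  wsteer' hp hv hgram l₀ hl₀ hH k d hk hd hind w hw

end P262C
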