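import Vale.Agent.P262.Full.SteerL1

/-!
# P262 full: [L2a], [L2b], [L2c], [L2d]
-/

open Finset

set_option linter.unusedSectionVars false

namespace P262C

variable {ι I : Type} [Fintype I] [DecidableEq I] [DecidableEq ι]

/-- splitting a sum over the first block -/
theorem sum_H {G H : Finset ι} (l₀ : ℕ) (hH : H ⊆ G) (k d : ι → ℝ)
    (hind : ∀ e ∈ G, (if e ∈ H then (1 : ℝ) else 0) - 1 / 2 ^ l₀ = k e + d e) (φ : ι → ℝ) :
    ∑ e ∈ H, φ e = (∑ e ∈ G, φ e) / 2 ^ l₀ + pr G k φ + pr G d φ := by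
  have h1 : ∑ e ∈ H, φ e = ∑ e ∈ G, (if e ∈ H then (1 : ℝ) else 0) * φ e := by
    rw [← Finset.sum_subset hH (f := fun e => (if e ∈ H then (1 : ℝ) else 0) * φ e)]
    · refine Finset.sum_congr rfl fun e he => ?_
      rw [if_pos he, one_mul]
    · intro e _ he
      rw [if_neg he, zero_mul]
  rw [h1, Finset.sum_div]
  unfold pr
  rw [← Finset.sum_add_distrib, ← Finset.sum_add_distrib]
  refine Finset.sum_congr rfl fun e he => ?_
  have h2 := hind e he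
  have h3 : (if e ∈ H then (1 : ℝ) else 0) = 1 / 2 ^ l₀ + k e + d e := by linarith
  rw [h3]
  ring

/-- [L2a] the error of the Gram matrix of the first block -/
theorem gram_H' {v : ι → I → ℝ} {G H : Finset ι} {X : I → ℝ} {m m' : ℕ}
    (hgram : ∀ i l, i ∉ Thin X m → l ∉ Thin X m →
      |∑ e ∈ G, v e i * v e l - (if i = l then p2 (X i) else 0)| ≤
        p2 ((m : ℝ) / 8 + (max 0 (X i) + max 0 (X l)) / 4))
    (l₀ : ℕ) (hH : H ⊆ G) (k d : ι → ℝ) (hk : WGood v G X m m' k) (hd : WDrift v G X m d)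
    (hind : ∀ e ∈ G, (if e ∈ H then (1 : ℝ) else 0) - 1 / 2 ^ l₀ = k e + d e) (i l : I)
    (hi : i ∉ Thin X m) (hl : l ∉ Thin X m) :
    |∑ e ∈ H, v e i * v e l - (if i = l then p2 (X i) / 2 ^ l₀ else 0)| ≤
      p2 ((m : ℝ) / 8 + (max 0 (X i) + max 0 (X l)) / 4) / 2 ^ l₀ +
      65 * p2 ((m : ℝ) / 16 + (max 0 (nx X m i) + max 0 (nx X m l)) / 4) := by
  have h1 := sum_H l₀ hH k d hind (fun e => v e i * v e l)
  have h2 := hgram i l hi hl
  have h3 := hk.k2 i l hi hl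
  have h4 := hd.d2 i l hi hl
  have h5 : p2 ((max 0 (nx X m i) + max 0 (nx X m l)) / 4) ≤
      p2 ((m : ℝ) / 16 + (max 0 (nx X m i) + max 0 (nx X m l)) / 4) := by
    apply p2_le
    have : (0 : ℝ) ≤ (m : ℝ) := Nat.cast_nonneg m
    linarith
  have h6 : ∑ e ∈ H, v e i * v e l - (if i = l then p2 (X i) / 2 ^ l₀ else 0) =
      (∑ e ∈ G, v e i * v e l - (if i = l then p2 (X i) else 0)) / 2 ^ l₀ +
        pr G k (fun e => v e i * v e l) + pr G d (fun e => v e i * v e l) := by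
    rw [h1]
    split_ifs <;> ring
  rw [h6]
  have h7 : |(∑ e ∈ G, v e i * v e l - (if i = l then p2 (X i) else 0)) / 2 ^ l₀| ≤
      p2 ((m : ℝ) / 8 + (max 0 (X i) + max 0 (X l)) / 4) / 2 ^ l₀ := by
    rw [abs_div, abs_of_pos (by positivity : (0 : ℝ) < 2 ^ l₀)]
    exact div_le_div_of_nonneg_right h2 (by positivity)
  have h8 := abs_add_three
    ((∑ e ∈ G, v e i * v e l - (if i = l then p2 (X i) else 0)) / 2 ^ l₀)
    (pr G k (fun e => v e i * v e l)) (pr G d (fun e => v e i * v e l))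
  linarith

/-- weighted sum over the fat directions: `∑_{Fat} p2(-β X) ≤ p2 (m/16 - 3 β m + 3 al m)` -/
theorem fat_sum {X : I → ℝ} {m m' : ℕ} (hp : Par X m m') (β : ℝ) (hβ : al ≤ β) :
    ∑ i ∈ Fat X m, p2 (-(β * X i)) ≤ p2 ((m : ℝ) / 16 - 3 * β * m + 3 * al * m) := by
  have hm := hp.hmR
  have h1 : ∀ i ∈ Fat X m, p2 (-(β * X i)) ≤ p2 (-(3 * β * m) + 3 * al * m) * om (X i) := by
    intro i hi
    rw [mem_Fat] at hi
    rw [om_of_nonneg (by linarith), ← p2_add]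
    apply p2_le
    nlinarith
  refine (sum_le_nn (p2_nonneg _) h1).trans ?_
  calc p2 (-(3 * β * m) + 3 * al * m) * nn X ≤ p2 (-(3 * β * m) + 3 * al * m) * p2 ((m : ℝ) / 16) :=
        mul_le_mul_of_nonneg_left hp.hn (p2_nonneg _)
    _ = p2 ((m : ℝ) / 16 - 3 * β * m + 3 * al * m) := by
        rw [← p2_add]; congr 1; ring

theorem al_le_half : al ≤ 1 / 2 := by unfold al; norm_num

/-- [L2b] -/
theorem fat_sum_half' {X : I → ℝ} {m m' : ℕ} (hp : Par X m m') :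
    ∑ i ∈ Fat X m, p2 (-(X i / 2)) ≤ p2 ((m : ℝ) / 16 - 3 * m / 2 + 3 * al * m) := by
  have h := fat_sum hp (1 / 2) al_le_half
  have e1 : ∀ i ∈ Fat X m, p2 (-(X i / 2)) = p2 (-(1 / 2 * X i)) := by
    intro i _
    congr 1; ring
  rw [Finset.sum_congr rfl e1]
  refine h.trans (le_of_eq ?_)
  congr 1; ring

/-- [L2d] size of the target -/
theorem target_size' {X : I → ℝ} {m m' : ℕ} (hp : Par X m m') (l₀ : ℕ) (w : I → ℝ)
    (hw : ∀ i ∈ Fat X m, |w i| ≤ 2 * p2 (X i / 32)) :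
    ∑ i ∈ Fat X m, w i ^ 2 / (p2 (X i) / 2 ^ l₀) ≤
      4 * 2 ^ l₀ * p2 (-(11 * (m : ℝ) / 4) + 3 * al * m) := by
  have h := fat_sum hp (15 / 16) (al_le_half.trans (by norm_num))
  have e1 : ∀ i ∈ Fat X m, w i ^ 2 / (p2 (X i) / 2 ^ l₀) ≤
      4 * 2 ^ l₀ * p2 (-(15 / 16 * X i)) := by
    intro i hi
    have h1 : w i ^ 2 ≤ 4 * p2 (X i / 16) := by
      have h2 := hw i hi
      have h3 : w i ^ 2 ≤ (2 * p2 (X i / 32)) ^ 2 := by
        rw [← sq_abs]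
        exact pow_le_pow_left₀ (abs_nonneg _) h2 2
      refine h3.trans (le_of_eq ?_)
      rw [mul_pow, p2_sq]
      norm_num
      congr 1; ring
    have h4 : w i ^ 2 / (p2 (X i) / 2 ^ l₀) = w i ^ 2 * 2 ^ l₀ * p2 (-(X i)) := by
      rw [p2_neg]
      have := p2_ne (X i)
      field_simp
    rw [h4]
    calc w i ^ 2 * 2 ^ l₀ * p2 (-(X i)) ≤ (4 * p2 (X i / 16)) * 2 ^ l₀ * p2 (-(X i)) := by
          apply mul_le_mul_of_nonneg_right _ (p2_nonneg _)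
          exact mul_le_mul_of_nonneg_right h1 (by positivity)
      _ = 4 * 2 ^ l₀ * (p2 (X i / 16) * p2 (-(X i))) := by ring
      _ = 4 * 2 ^ l₀ * p2 (-(15 / 16 * X i)) := by
          rw [← p2_add]; congr 2; ring
  refine (Finset.sum_le_sum e1).trans ?_
  rw [← Finset.mul_sum]
  apply mul_le_mul_of_nonneg_left _ (by positivity)
  refine h.trans (le_of_eq ?_)
  congr 1; ring

theorem Fat_not_Thin {X : I → ℝ} {m : ℕ} {i : I} (h : i ∈ Fat X m) : i ∉ Thin X m := by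
  rw [mem_Fat] at h
  rw [mem_Thin]
  have : (0 : ℝ) ≤ (m : ℝ) := Nat.cast_nonneg m
  intro h2
  linarith

/-- [L2c] relative accuracy on the fat directions -/
theorem fat_rel' {v : ι → I → ℝ} {G H : Finset ι} {X : I → ℝ} {m m' : ℕ} (hp : Par X m m')
    (hgram : ∀ i l, i ∉ Thin X m → l ∉ Thin X m →
      |∑ e ∈ G, v e i * v e l - (if i = l then p2 (X i) else 0)| ≤
        p2 ((m : ℝ) / 8 + (max 0 (X i) + max 0 (X l)) / 4))
    (l₀ : ℕ) (hl₀ : l₀ < 2 * m) (hH : H ⊆ G) (k d : ι → ℝ) (hk : WGood v G X m m' k)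
    (hd : WDrift v G X m d)
    (hind : ∀ e ∈ G, (if e ∈ H then (1 : ℝ) else 0) - 1 / 2 ^ l₀ = k e + d e) :
    ∑ i ∈ Fat X m, ∑ l ∈ Fat X m, ((∑ e ∈ H, v e i * v e l) -
      if i = l then p2 (X i) / 2 ^ l₀ else 0) ^ 2 / ((p2 (X i) / 2 ^ l₀) * (p2 (X l) / 2 ^ l₀)) ≤
      1 / 4 := by
  have hm := hp.hmR
  have hl₀R : (l₀ : ℝ) + 1 ≤ 2 * m := by exact_mod_cast hl₀
  have e1 : ∀ i ∈ Fat X m, ∀ l ∈ Fat X m, ((∑ e ∈ H, v e i * v e l) -
      if i = l then p2 (X i) / 2 ^ l₀ else 0) ^ 2 / ((p2 (X i) / 2 ^ l₀) * (p2 (X l) / 2 ^ l₀)) ≤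
      (2 * p2 ((m : ℝ) / 4) + 8450 * p2 (2 * l₀ + (m : ℝ) / 8 - 2 * m)) *
        (p2 (-(X i / 2)) * p2 (-(X l / 2))) := by
    intro i hi l hl
    have hb := gram_H' hgram l₀ hH k d hk hd hind i l (Fat_not_Thin hi) (Fat_not_Thin hl)
    rw [mem_Fat] at hi hl
    have m1 : max 0 (X i) = X i := max_eq_right (by linarith)
    have m2 : max 0 (X l) = X l := max_eq_right (by linarith)
    have m3 : max 0 (nx X m i) = X i - 2 * m := max_eq_right (by unfold nx; linarith)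
    have m4 : max 0 (nx X m l) = X l - 2 * m := max_eq_right (by unfold nx; linarith)
    rw [m1, m2, m3, m4] at hb
    set D := (∑ e ∈ H, v e i * v e l) - if i = l then p2 (X i) / 2 ^ l₀ else 0 with hDdef
    set A := p2 ((m : ℝ) / 8 + (X i + X l) / 4) / 2 ^ l₀ with hA
    set B := 65 * p2 ((m : ℝ) / 16 + (X i - 2 * m + (X l - 2 * m)) / 4) with hB
    have h1 : D ^ 2 ≤ 2 * A ^ 2 + 2 * B ^ 2 := by
      have h2 : D ^ 2 ≤ (A + B) ^ 2 := by
        rw [← sq_abs]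
        exact pow_le_pow_left₀ (abs_nonneg _) hb 2
      nlinarith [sq_nonneg (A - B)]
    have hM : p2 (l₀ : ℝ) = 2 ^ l₀ := p2_nat l₀
    have hA2 : A ^ 2 = p2 ((m : ℝ) / 4 + (X i + X l) / 2 - 2 * l₀) := by
      rw [hA, ← hM, ← p2_sub, p2_sq]
      congr 1; ring
    have hB2 : B ^ 2 = 4225 * p2 ((m : ℝ) / 8 + (X i + X l) / 2 - 2 * m) := by
      rw [hB, mul_pow, p2_sq]
      norm_num
      congr 1; ring
    have hmu : (p2 (X i) / 2 ^ l₀) * (p2 (X l) / 2 ^ l₀) = p2 (X i + X l - 2 * l₀) := by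
      rw [← hM, ← p2_sub, ← p2_sub, ← p2_add]
      congr 1; ring
    rw [hmu, div_le_iff₀ (p2_pos _)]
    refine h1.trans (le_of_eq ?_)
    rw [hA2, hB2]
    have e2 : p2 ((m : ℝ) / 4 + (X i + X l) / 2 - 2 * l₀) =
        p2 ((m : ℝ) / 4) * (p2 (-(X i / 2)) * p2 (-(X l / 2))) * p2 (X i + X l - 2 * l₀) := by
      rw [← p2_add, ← p2_add, ← p2_add]
      congr 1; ring
    have e3 : p2 ((m : ℝ) / 8 + (X i + X l) / 2 - 2 * m) =
        p2 (2 * l₀ + (m : ℝ) / 8 - 2 * m) * (p2 (-(X i / 2)) * p2 (-(X l / 2))) *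
          p2 (X i + X l - 2 * l₀) := by
      rw [← p2_add, ← p2_add, ← p2_add]
      congr 1; ring
    rw [e2, e3]
    ring
  refine (Finset.sum_le_sum fun i hi => Finset.sum_le_sum fun l hl => e1 i hi l hl).trans ?_
  have e4 : ∑ i ∈ Fat X m, ∑ l ∈ Fat X m,
      (2 * p2 ((m : ℝ) / 4) + 8450 * p2 (2 * l₀ + (m : ℝ) / 8 - 2 * m)) *
        (p2 (-(X i / 2)) * p2 (-(X l / 2))) =
      (2 * p2 ((m : ℝ) / 4) + 8450 * p2 (2 * l₀ + (m : ℝ) / 8 - 2 * m)) *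
        (∑ i ∈ Fat X m, p2 (-(X i / 2))) ^ 2 := by
    rw [sq, Finset.sum_mul_sum, Finset.mul_sum]
    refine Finset.sum_congr rfl fun i _ => ?_
    rw [Finset.mul_sum]
  rw [e4]
  have h5 := fat_sum_half' hp
  have h6 : (∑ i ∈ Fat X m, p2 (-(X i / 2))) ^ 2 ≤
      p2 (2 * ((m : ℝ) / 16 - 3 * m / 2 + 3 * al * m)) := by
    rw [← p2_sq]
    exact pow_le_pow_left₀ (Finset.sum_nonneg fun _ _ => p2_nonneg _) h5 2
  calc (2 * p2 ((m : ℝ) / 4) + 8450 * p2 (2 * l₀ + (m : ℝ) / 8 - 2 * m)) *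
        (∑ i ∈ Fat X m, p2 (-(X i / 2))) ^ 2
      ≤ (2 * p2 ((m : ℝ) / 4) + 8450 * p2 (2 * l₀ + (m : ℝ) / 8 - 2 * m)) *
        p2 (2 * ((m : ℝ) / 16 - 3 * m / 2 + 3 * al * m)) := by
        apply mul_le_mul_of_nonneg_left h6
        have := p2_pos ((m : ℝ) / 4)
        have := p2_pos (2 * l₀ + (m : ℝ) / 8 - 2 * m)
        positivity
    _ = 2 * p2 ((m : ℝ) / 4 + 2 * ((m : ℝ) / 16 - 3 * m / 2 + 3 * al * m)) +
        8450 * p2 (2 * l₀ + (m : ℝ) / 8 - 2 * m +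
          2 * ((m : ℝ) / 16 - 3 * m / 2 + 3 * al * m)) := by
        rw [p2_add ((m : ℝ) / 4), p2_add (2 * l₀ + (m : ℝ) / 8 - 2 * m)]
        ring
    _ ≤ p2 (-3) + p2 (-3) := by
        have hal : al = 1 / 32768 := rfl
        apply add_le_add
        · apply mul_p2_le' 1 (by norm_num)
          rw [hal]
          push_cast
          linarith
        · apply mul_p2_le' 14 (by norm_num)
          rw [hal]
          push_cast
          linarith
    _ = 1 / 4 := by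
        have : p2 (-3) = 1 / 8 := by
          have : (-3 : ℝ) = -((3 : ℕ) : ℝ) := by norm_num
          rw [this, p2_neg, p2_nat]
          norm_num
        rw [this]
        norm_num

end P262C
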