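import Vale.Agent.P262.Full.SteerA

/-!
# P262 full: [L2] steering in a window
-/

open Finset

set_option linter.unusedSectionVars false

namespace P262C

variable {ι I : Type} [Fintype I] [DecidableEq I] [DecidableEq ι]

theorem v_sq_le_one {v : ι → I → ℝ} {e : ι} (h : ∑ i, v e i ^ 2 ≤ 1) (i : I) : v e i ^ 2 ≤ 1 :=
  (Finset.single_le_sum (f := fun i => v e i ^ 2) (fun _ _ => sq_nonneg _)
    (Finset.mem_univ i)).trans h

/-- bound of the diagonal entry of the Gram matrix of the first block times `ξ²` -/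
theorem xi_gram {v : ι → I → ℝ} {G H : Finset ι} {X : I → ℝ} {m m' : ℕ} (hp : Par X m m')
    (hgram : ∀ i l, i ∉ Thin X m → l ∉ Thin X m →
      |∑ e ∈ G, v e i * v e l - (if i = l then p2 (X i) else 0)| ≤
        p2 ((m : ℝ) / 8 + (max 0 (X i) + max 0 (X l)) / 4))
    (l₀ : ℕ) (hl₀ : l₀ < 2 * m) (hH : H ⊆ G) (k d : ι → ℝ) (hk : WGood v G X m m' k)
    (hd : WDrift v G X m d)
    (hind : ∀ e ∈ G, (if e ∈ H then (1 : ℝ) else 0) - 1 / 2 ^ l₀ = k e + d e) (i : I)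
    (hi : i ∉ Thin X m) :
    (8 * 2 ^ l₀ * p2 (-(11 * (m : ℝ) / 4) + 3 * al * m)) * ∑ e ∈ H, v e i ^ 2 ≤
      p2 (max 0 (nx X m i)) := by
  have hm := hp.hmR
  have hl₀R : (l₀ : ℝ) + 1 ≤ 2 * m := by exact_mod_cast hl₀
  have hal : al = 1 / 32768 := rfl
  have hb := gram_H' hgram l₀ hH k d hk hd hind i i hi hi
  rw [if_pos rfl] at hb
  have h1 : ∑ e ∈ H, v e i ^ 2 = ∑ e ∈ H, v e i * v e i :=
    Finset.sum_congr rfl fun e _ => sq (v e i)
  have hM : p2 (l₀ : ℝ) = 2 ^ l₀ := p2_nat l₀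
  have hb2 := (abs_le.mp hb).2
  set Y := max 0 (nx X m i) with hY
  have hY0 : 0 ≤ Y := le_max_left _ _
  have hX1 : X i ≤ Y + 2 * m := by
    have : nx X m i ≤ Y := le_max_right _ _
    unfold nx at this
    linarith
  have hX2 : max 0 (X i) ≤ Y + 2 * m := max_le (by linarith) hX1
  have h2 : ∑ e ∈ H, v e i ^ 2 ≤ p2 (X i) / 2 ^ l₀ +
      p2 ((m : ℝ) / 8 + (max 0 (X i) + max 0 (X i)) / 4) / 2 ^ l₀ +
      65 * p2 ((m : ℝ) / 16 + (Y + Y) / 4) := by
    rw [h1]; linarith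
  have t1 : p2 (X i) / 2 ^ l₀ ≤ p2 (Y + 2 * m - l₀) := by
    rw [← hM, ← p2_sub]
    apply p2_le; linarith
  have t2 : p2 ((m : ℝ) / 8 + (max 0 (X i) + max 0 (X i)) / 4) / 2 ^ l₀ ≤
      p2 ((m : ℝ) / 8 + (Y + 2 * m) / 2 - l₀) := by
    rw [← hM, ← p2_sub]
    apply p2_le; linarith
  have h3 : ∑ e ∈ H, v e i ^ 2 ≤ p2 (Y + 2 * m - l₀) +
      p2 ((m : ℝ) / 8 + (Y + 2 * m) / 2 - l₀) + 65 * p2 ((m : ℝ) / 16 + (Y + Y) / 4) := by
    linarith
  calc (8 * 2 ^ l₀ * p2 (-(11 * (m : ℝ) / 4) + 3 * al * m)) * ∑ e ∈ H, v e i ^ 2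
      ≤ (8 * 2 ^ l₀ * p2 (-(11 * (m : ℝ) / 4) + 3 * al * m)) * (p2 (Y + 2 * m - l₀) +
      p2 ((m : ℝ) / 8 + (Y + 2 * m) / 2 - l₀) + 65 * p2 ((m : ℝ) / 16 + (Y + Y) / 4)) := by
        apply mul_le_mul_of_nonneg_left h3
        have := p2_pos (-(11 * (m : ℝ) / 4) + 3 * al * m)
        positivity
    _ = 8 * (p2 (l₀ : ℝ) * p2 (-(11 * (m : ℝ) / 4) + 3 * al * m) * p2 (Y + 2 * m - l₀)) +
        8 * (p2 (l₀ : ℝ) * p2 (-(11 * (m : ℝ) / 4) + 3 * al * m) *
          p2 ((m : ℝ) / 8 + (Y + 2 * m) / 2 - l₀)) +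
        520 * (p2 (l₀ : ℝ) * p2 (-(11 * (m : ℝ) / 4) + 3 * al * m) *
          p2 ((m : ℝ) / 16 + (Y + Y) / 4)) := by
        rw [hM]; ring
    _ ≤ p2 (Y + -2) + p2 (Y + -2) + p2 (Y + -2) := by
        rw [← p2_add, ← p2_add, ← p2_add, ← p2_add]
        refine add_le_add (add_le_add ?_ ?_) ?_
        · apply mul_p2_le' 3 (by norm_num)
          rw [hal]; push_cast; linarith
        · apply mul_p2_le' 3 (by norm_num)
          rw [hal]; push_cast; linarith
        · apply mul_p2_le' 10 (by norm_num)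
          rw [hal]; push_cast; linarith
    _ ≤ p2 Y := by
        have e1 : p2 (Y + -2) = p2 Y / 4 := by
          rw [p2_add]
          have : p2 (-2) = 1 / 4 := by
            have : (-2 : ℝ) = -((2 : ℕ) : ℝ) := by norm_num
            rw [this, p2_neg, p2_nat]
            norm_num
          rw [this]; ring
        rw [e1]
        have := p2_pos Y
        linarith

/-- row sum of the relative error against a middle direction -/
theorem mid_row {v : ι → I → ℝ} {G H : Finset ι} {X : I → ℝ} {m m' : ℕ} (hp : Par X m m')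
    (hgram : ∀ i l, i ∉ Thin X m → l ∉ Thin X m →
      |∑ e ∈ G, v e i * v e l - (if i = l then p2 (X i) else 0)| ≤
        p2 ((m : ℝ) / 8 + (max 0 (X i) + max 0 (X l)) / 4))
    (l₀ : ℕ) (hH : H ⊆ G) (k d : ι → ℝ) (hk : WGood v G X m m' k)
    (hd : WDrift v G X m d)
    (hind : ∀ e ∈ G, (if e ∈ H then (1 : ℝ) else 0) - 1 / 2 ^ l₀ = k e + d e) (i : I)
    (hi : i ∈ Mid X m) :
    ∑ l ∈ Fat X m, (∑ e ∈ H, v e i * v e l) ^ 2 / (p2 (X l) / 2 ^ l₀) ≤
      (2 * p2 (7 * (m : ℝ) / 4 - l₀) + 8450 * p2 (l₀ - 3 * (m : ℝ) / 8)) *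
        p2 ((m : ℝ) / 16 - 3 * m / 2 + 3 * al * m) := by
  have hm := hp.hmR
  rw [mem_Mid] at hi
  have hiT : i ∉ Thin X m := by
    rw [mem_Thin]; linarith [hi.1]
  have hM : p2 (l₀ : ℝ) = 2 ^ l₀ := p2_nat l₀
  have e1 : ∀ l ∈ Fat X m, (∑ e ∈ H, v e i * v e l) ^ 2 / (p2 (X l) / 2 ^ l₀) ≤
      (2 * p2 (7 * (m : ℝ) / 4 - l₀) + 8450 * p2 (l₀ - 3 * (m : ℝ) / 8)) *
        p2 (-(X l / 2)) := by
    intro l hl
    have hb := gram_H' hgram l₀ hH k d hk hd hind i l hiT (Fat_not_Thin hl)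
    rw [mem_Fat] at hl
    have hne : i ≠ l := by
      rintro rfl
      linarith [hi.2]
    rw [if_neg hne, sub_zero] at hb
    have m2 : max 0 (X l) = X l := max_eq_right (by linarith)
    have m4 : max 0 (nx X m l) = X l - 2 * m := max_eq_right (by unfold nx; linarith)
    have m1 : max 0 (X i) ≤ 3 * m := max_le (by linarith) hi.2.le
    have m3 : max 0 (nx X m i) ≤ m := max_le (by linarith) (by unfold nx; linarith [hi.2])
    rw [m2, m4] at hb
    set D := ∑ e ∈ H, v e i * v e l with hDdef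
    have hb' : |D| ≤ p2 (7 * (m : ℝ) / 8 + X l / 4) / 2 ^ l₀ +
        65 * p2 ((X l) / 4 - 3 * m / 16) := by
      refine hb.trans (add_le_add ?_ ?_)
      · apply div_le_div_of_nonneg_right _ (by positivity)
        apply p2_le; linarith
      · apply mul_le_mul_of_nonneg_left _ (by norm_num)
        apply p2_le; linarith
    set A := p2 (7 * (m : ℝ) / 8 + X l / 4) / 2 ^ l₀ with hA
    set B := 65 * p2 ((X l) / 4 - 3 * m / 16) with hB
    have h1 : D ^ 2 ≤ 2 * A ^ 2 + 2 * B ^ 2 := by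
      have h2 : D ^ 2 ≤ (A + B) ^ 2 := by
        rw [← sq_abs]
        exact pow_le_pow_left₀ (abs_nonneg _) hb' 2
      nlinarith [sq_nonneg (A - B)]
    have hA2 : A ^ 2 = p2 (7 * (m : ℝ) / 4 + X l / 2 - 2 * l₀) := by
      rw [hA, ← hM, ← p2_sub, p2_sq]
      congr 1; ring
    have hB2 : B ^ 2 = 4225 * p2 (X l / 2 - 3 * m / 8) := by
      rw [hB, mul_pow, p2_sq]
      norm_num
      congr 1; ring
    have hmu : p2 (X l) / 2 ^ l₀ = p2 (X l - l₀) := by rw [← hM, ← p2_sub]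
    rw [hmu, div_le_iff₀ (p2_pos _)]
    refine h1.trans (le_of_eq ?_)
    rw [hA2, hB2]
    have e2 : p2 (7 * (m : ℝ) / 4 + X l / 2 - 2 * l₀) =
        p2 (7 * (m : ℝ) / 4 - l₀) * p2 (-(X l / 2)) * p2 (X l - l₀) := by
      rw [← p2_add, ← p2_add]
      congr 1; ring
    have e3 : p2 (X l / 2 - 3 * (m : ℝ) / 8) =
        p2 (l₀ - 3 * (m : ℝ) / 8) * p2 (-(X l / 2)) * p2 (X l - l₀) := by
      rw [← p2_add, ← p2_add]
      congr 1; ring
    rw [e2, e3]
    ring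
  refine (Finset.sum_le_sum e1).trans ?_
  rw [← Finset.mul_sum]
  apply mul_le_mul_of_nonneg_left (fat_sum_half' hp)
  have := p2_pos (7 * (m : ℝ) / 4 - l₀)
  have := p2_pos (l₀ - 3 * (m : ℝ) / 8)
  positivity

theorem four_root {a b c : ℝ} {x y : ℝ}
    (h1 : c ^ 4 ≤ a * b) (hx : a ≤ p2 x) (hy : b ≤ p2 y) (_hb : 0 ≤ b) : c ≤ p2 ((x + y) / 4) := by
  have h2 : c ^ 4 ≤ p2 ((x + y) / 4) ^ 4 := by
    rw [p2_pow]
    have e : ((4 : ℕ) : ℝ) * ((x + y) / 4) = x + y := by push_cast; ring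
    rw [e, p2_add]
    exact h1.trans (mul_le_mul hx hy _hb (p2_nonneg _))
  exact le_of_pow_le_pow_left₀ (by norm_num) (p2_nonneg _) h2

/-- [L2] steering in a window -/
theorem wsteer' {v : ι → I → ℝ} {G H : Finset ι} {X : I → ℝ} {m m' : ℕ} (hp : Par X m m')
    (hv : ∀ e ∈ G, ∑ i, v e i ^ 2 ≤ 1)
    (hgram : ∀ i l, i ∉ Thin X m → l ∉ Thin X m →
      |∑ e ∈ G, v e i * v e l - (if i = l then p2 (X i) else 0)| ≤
        p2 ((m : ℝ) / 8 + (max 0 (X i) + max 0 (X l)) / 4))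
    (l₀ : ℕ) (hl₀ : l₀ < 2 * m) (hH : H ⊆ G) (k d : ι → ℝ) (hk : WGood v G X m m' k)
    (hd : WDrift v G X m d)
    (hind : ∀ e ∈ G, (if e ∈ H then (1 : ℝ) else 0) - 1 / 2 ^ l₀ = k e + d e) (w : I → ℝ)
    (hw : ∀ i ∈ Fat X m, |w i| ≤ 2 * p2 (X i / 32)) :
    ∃ x : ι → ℝ, (∀ e, e ∉ H → x e = 0) ∧ (∀ e, |x e| ≤ 1 / 2) ∧ WDrift v G X m x ∧
      ∀ i ∈ Fat X m, ∑ e ∈ G, x e * v e i = w i := by
  have hm := hp.hmR
  have hl₀R : (l₀ : ℝ) + 1 ≤ 2 * m := by exact_mod_cast hl₀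
  have hal : al = 1 / 32768 := rfl
  have hM : p2 (l₀ : ℝ) = 2 ^ l₀ := p2_nat l₀
  set F := Fat X m with hF
  set μ : I → ℝ := fun i => p2 (X i) / 2 ^ l₀ with hμ
  have hμ0 : ∀ i, 0 < μ i := fun i => div_pos (p2_pos _) (by positivity)
  obtain ⟨y, hy0, hy1, hy2, hy3⟩ := steer_solve' F H v μ (fun i _ => hμ0 i)
    (fat_rel' hp hgram l₀ hl₀ hH k d hk hd hind) w
  have hW := target_size' hp l₀ w hw
  set W := ∑ i ∈ F, w i ^ 2 / μ i with hWdef
  set Q := 2 ^ l₀ * p2 (-(11 * (m : ℝ) / 4) + 3 * al * m) with hQ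
  have hQ0 : 0 < Q := mul_pos (by positivity) (p2_pos _)
  have hW4 : W ≤ 4 * Q := by rw [hQ, ← mul_assoc]; exact hW
  set x : ι → ℝ := fun e => if e ∈ H then ∑ l ∈ F, y l * v e l else 0 with hx
  have hxH : ∀ e, e ∈ H → x e = ∑ l ∈ F, y l * v e l := fun e he => if_pos he
  have hx0 : ∀ e, e ∉ H → x e = 0 := fun e he => if_neg he
  -- sums over `G` reduce to sums over `H`
  have hGH : ∀ φ : ι → ℝ, pr G x φ = ∑ e ∈ H, (∑ l ∈ F, y l * v e l) * φ e := by
    intro φ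
    unfold pr
    rw [← Finset.sum_subset hH]
    · exact Finset.sum_congr rfl fun e he => by rw [hxH e he]
    · intro e _ he
      rw [hx0 e he, zero_mul]
  have hxx : ∑ e ∈ H, x e ^ 2 ≤ 8 * Q := by
    have : ∑ e ∈ H, x e ^ 2 = ∑ e ∈ H, (∑ l ∈ F, y l * v e l) ^ 2 :=
      Finset.sum_congr rfl fun e he => by rw [hxH e he]
    rw [this]
    linarith
  have hGH' : ∀ φ : ι → ℝ, pr G x φ = ∑ e ∈ H, x e * φ e := by
    intro φ
    rw [hGH]
    exact Finset.sum_congr rfl fun e he => by rw [hxH e he]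
  -- Cauchy-Schwarz
  have hCS : ∀ φ : ι → ℝ, pr G x φ ^ 2 ≤ 8 * Q * ∑ e ∈ H, φ e ^ 2 := by
    intro φ
    rw [hGH']
    refine (sum_cs_sq H x φ).trans ?_
    exact mul_le_mul_of_nonneg_right hxx (Finset.sum_nonneg fun _ _ => sq_nonneg _)
  have hxi : ∀ i, i ∉ Thin X m → 8 * Q * ∑ e ∈ H, v e i ^ 2 ≤ p2 (max 0 (nx X m i)) := by
    intro i hi
    have := xi_gram hp hgram l₀ hl₀ hH k d hk hd hind i hi
    rw [hQ]
    calc 8 * (2 ^ l₀ * p2 (-(11 * (m : ℝ) / 4) + 3 * al * m)) * ∑ e ∈ H, v e i ^ 2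
        = (8 * 2 ^ l₀ * p2 (-(11 * (m : ℝ) / 4) + 3 * al * m)) * ∑ e ∈ H, v e i ^ 2 := by ring
      _ ≤ _ := this
  have hQ1 : 8 * Q ≤ 1 := by
    rw [hQ, ← hM, ← p2_add]
    have := mul_p2_le' (c := 8) 3 (by norm_num)
      (x := (l₀ : ℝ) + (-(11 * (m : ℝ) / 4) + 3 * al * m)) (y := 0)
      (by rw [hal]; push_cast; linarith)
    rw [p2_zero] at this
    exact this
  refine ⟨x, hx0, ?_, ?_, ?_⟩
  · -- size
    intro e
    by_cases he : e ∈ H
    · rw [hxH e he]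
      have h1 := sum_cs_sq F y (fun l => v e l)
      have h2 : ∑ l ∈ F, v e l ^ 2 ≤ 1 :=
        (Finset.sum_le_sum_of_subset_of_nonneg (Finset.subset_univ F)
          fun _ _ _ => sq_nonneg _).trans (hv e (hH he))
      have h3 : ∑ l ∈ F, y l ^ 2 ≤ 16 * Q * (2 ^ l₀ / p2 (3 * m)) := by
        have h4 : ∀ l ∈ F, y l ^ 2 ≤ (μ l * y l ^ 2) * (2 ^ l₀ / p2 (3 * m)) := by
          intro l hl
          have h5 : 1 ≤ μ l * (2 ^ l₀ / p2 (3 * m)) := by
            rw [hF, mem_Fat] at hl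
            have h6 : p2 (3 * (m : ℝ)) ≤ p2 (X l) := p2_le hl
            have h7 : μ l * (2 ^ l₀ / p2 (3 * m)) = p2 (X l) / p2 (3 * m) := by
              rw [hμ]
              have := p2_ne (3 * (m : ℝ))
              field_simp
            rw [h7, one_le_div (p2_pos _)]
            exact h6
          nlinarith [sq_nonneg (y l)]
        refine (Finset.sum_le_sum h4).trans ?_
        rw [← Finset.sum_mul]
        apply mul_le_mul_of_nonneg_right _ (div_nonneg (by positivity) (p2_nonneg _))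
        linarith
      have h8 : 16 * Q * (2 ^ l₀ / p2 (3 * m)) ≤ (1 / 2) ^ 2 := by
        rw [hQ, ← hM, ← p2_sub, mul_assoc, mul_assoc, ← p2_add, ← p2_add]
        have := mul_p2_le' (c := 16) 4 (by norm_num)
          (x := (l₀ : ℝ) + (-(11 * (m : ℝ) / 4) + 3 * al * m + (l₀ - 3 * m))) (y := -2)
          (by rw [hal]; push_cast; linarith)
        refine this.trans (le_of_eq ?_)
        have : (-2 : ℝ) = -((2 : ℕ) : ℝ) := by norm_num
        rw [this, p2_neg, p2_nat]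
        norm_num
      have h9 : (∑ l ∈ F, y l * v e l) ^ 2 ≤ (1 / 2) ^ 2 := by
        calc (∑ l ∈ F, y l * v e l) ^ 2 ≤ (∑ l ∈ F, y l ^ 2) * ∑ l ∈ F, v e l ^ 2 := h1
          _ ≤ (∑ l ∈ F, y l ^ 2) * 1 :=
              mul_le_mul_of_nonneg_left h2 (Finset.sum_nonneg fun _ _ => sq_nonneg _)
          _ ≤ (1 / 2) ^ 2 := by rw [mul_one]; exact h3.trans h8
      exact abs_le_of_sq_le_sq h9 (by norm_num)
    · rw [hx0 e he, abs_zero]; norm_num
  · constructor
    · -- d0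
      have h1 : ∑ e ∈ G, x e ^ 2 = ∑ e ∈ H, x e ^ 2 := by
        symm
        apply Finset.sum_subset hH
        intro e _ he
        rw [hx0 e he]; norm_num
      rw [h1]
      exact hxx.trans hQ1
    · -- d2
      intro i l hi hl
      have h1 := hCS (fun e => v e i * v e l)
      have h2 : (∑ e ∈ H, (v e i * v e l) ^ 2) ^ 2 ≤
          (∑ e ∈ H, v e i ^ 2) * ∑ e ∈ H, v e l ^ 2 := by
        have h3 := sum_cs_sq H (fun e => v e i ^ 2) (fun e => v e l ^ 2)
        have e1 : ∑ e ∈ H, (v e i * v e l) ^ 2 = ∑ e ∈ H, v e i ^ 2 * v e l ^ 2 :=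
          Finset.sum_congr rfl fun e _ => mul_pow _ _ _
        rw [e1]
        refine h3.trans (mul_le_mul ?_ ?_ (Finset.sum_nonneg fun _ _ => sq_nonneg _)
          (Finset.sum_nonneg fun _ _ => sq_nonneg _))
        · apply Finset.sum_le_sum
          intro e he
          have := v_sq_le_one (hv e (hH he)) i
          nlinarith [sq_nonneg (v e i)]
        · apply Finset.sum_le_sum
          intro e he
          have := v_sq_le_one (hv e (hH he)) l
          nlinarith [sq_nonneg (v e l)]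
      have hs1 : 0 ≤ ∑ e ∈ H, v e i ^ 2 := Finset.sum_nonneg fun _ _ => sq_nonneg _
      have hs2 : 0 ≤ ∑ e ∈ H, v e l ^ 2 := Finset.sum_nonneg fun _ _ => sq_nonneg _
      have h8Q : 0 ≤ 8 * Q := by linarith
      refine four_root (a := 8 * Q * ∑ e ∈ H, v e i ^ 2) (b := 8 * Q * ∑ e ∈ H, v e l ^ 2)
        ?_ (hxi i hi) (hxi l hl) (mul_nonneg h8Q hs2)
      have h4 : |pr G x (fun e => v e i * v e l)| ^ 4 =
          (pr G x (fun e => v e i * v e l) ^ 2) ^ 2 := by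
        rw [← sq_abs (pr G x (fun e => v e i * v e l)), ← pow_mul]
      rw [h4]
      calc (pr G x (fun e => v e i * v e l) ^ 2) ^ 2
          ≤ (8 * Q * ∑ e ∈ H, (v e i * v e l) ^ 2) ^ 2 := pow_le_pow_left₀ (sq_nonneg _) h1 2
        _ = (8 * Q) ^ 2 * (∑ e ∈ H, (v e i * v e l) ^ 2) ^ 2 := by ring
        _ ≤ (8 * Q) ^ 2 * ((∑ e ∈ H, v e i ^ 2) * ∑ e ∈ H, v e l ^ 2) :=
            mul_le_mul_of_nonneg_left h2 (sq_nonneg _)
        _ = _ := by ring
    · -- d3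
      intro i hi
      have hrow := mid_row hp hgram l₀ hH k d hk hd hind i hi
      have h1 : pr G x (fun e => v e i) = ∑ l ∈ F, y l * ∑ e ∈ H, v e i * v e l := by
        rw [hGH]
        calc ∑ e ∈ H, (∑ l ∈ F, y l * v e l) * v e i
            = ∑ e ∈ H, ∑ l ∈ F, y l * (v e i * v e l) := by
              refine Finset.sum_congr rfl fun e _ => ?_
              rw [Finset.sum_mul]
              refine Finset.sum_congr rfl fun l _ => ?_
              ring
          _ = ∑ l ∈ F, ∑ e ∈ H, y l * (v e i * v e l) := Finset.sum_comm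
          _ = _ := by
              refine Finset.sum_congr rfl fun l _ => ?_
              rw [Finset.mul_sum]
      have h2 : pr G x (fun e => v e i) ^ 2 ≤ (∑ l ∈ F, μ l * y l ^ 2) *
          ∑ l ∈ F, (∑ e ∈ H, v e i * v e l) ^ 2 / μ l := by
        rw [h1]
        have h3 := sum_cs_sq F (fun l => Real.sqrt (μ l) * y l)
          (fun l => (∑ e ∈ H, v e i * v e l) / Real.sqrt (μ l))
        have e1 : ∑ l ∈ F, (Real.sqrt (μ l) * y l) *
            ((∑ e ∈ H, v e i * v e l) / Real.sqrt (μ l)) =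
            ∑ l ∈ F, y l * ∑ e ∈ H, v e i * v e l := by
          refine Finset.sum_congr rfl fun l hl => ?_
          have : Real.sqrt (μ l) ≠ 0 := (Real.sqrt_pos.mpr (hμ0 l)).ne'
          field_simp
        have e2 : ∑ l ∈ F, (Real.sqrt (μ l) * y l) ^ 2 = ∑ l ∈ F, μ l * y l ^ 2 := by
          refine Finset.sum_congr rfl fun l hl => ?_
          rw [mul_pow, Real.sq_sqrt (hμ0 l).le]
        have e3 : ∑ l ∈ F, ((∑ e ∈ H, v e i * v e l) / Real.sqrt (μ l)) ^ 2 =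
            ∑ l ∈ F, (∑ e ∈ H, v e i * v e l) ^ 2 / μ l := by
          refine Finset.sum_congr rfl fun l hl => ?_
          rw [div_pow, Real.sq_sqrt (hμ0 l).le]
        rw [e1, e2, e3] at h3
        exact h3
      have h4 : ∑ l ∈ F, μ l * y l ^ 2 ≤ 16 * Q := by linarith
      have h5 : pr G x (fun e => v e i) ^ 2 ≤ 1 ^ 2 := by
        calc pr G x (fun e => v e i) ^ 2 ≤ _ := h2
          _ ≤ (16 * Q) * ((2 * p2 (7 * (m : ℝ) / 4 - l₀) + 8450 * p2 (l₀ - 3 * (m : ℝ) / 8)) *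
              p2 ((m : ℝ) / 16 - 3 * m / 2 + 3 * al * m)) := by
              apply mul_le_mul h4 hrow (Finset.sum_nonneg fun l _ =>
                div_nonneg (sq_nonneg _) (hμ0 l).le) (by linarith)
          _ = 32 * (p2 (l₀ : ℝ) * p2 (-(11 * (m : ℝ) / 4) + 3 * al * m) *
                p2 (7 * (m : ℝ) / 4 - l₀) * p2 ((m : ℝ) / 16 - 3 * m / 2 + 3 * al * m)) +
              135200 * (p2 (l₀ : ℝ) * p2 (-(11 * (m : ℝ) / 4) + 3 * al * m) *
                p2 (l₀ - 3 * (m : ℝ) / 8) * p2 ((m : ℝ) / 16 - 3 * m / 2 + 3 * al * m)) := by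
              rw [hQ, hM]; ring
          _ ≤ p2 (-1) + p2 (-1) := by
              rw [← p2_add, ← p2_add, ← p2_add, ← p2_add, ← p2_add]
              refine add_le_add ?_ ?_
              · apply mul_p2_le' 5 (by norm_num)
                rw [hal]; push_cast; linarith
              · apply mul_p2_le' 18 (by norm_num)
                rw [hal]; push_cast; linarith
          _ = 1 ^ 2 := by
              rw [p2_neg, p2_one]; norm_num
      exact abs_le_of_sq_le_sq h5 (by norm_num)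
    · -- d5
      intro i hi hneg
      have h1 := hCS (Tf v (nx X m) i)
      have h2 : ∑ e ∈ H, Tf v (nx X m) i e ^ 2 ≤ ∑ e ∈ H, v e i ^ 2 := by
        apply Finset.sum_le_sum
        intro e _
        unfold Tf
        split_ifs
        · rw [sq_abs]
        · simpa using sq_nonneg (v e i)
      have h3 := hxi i hi
      have h4 : max 0 (nx X m i) = 0 := max_eq_left hneg.le
      rw [h4, p2_zero] at h3
      have h5 : pr G x (Tf v (nx X m) i) ^ 2 ≤ 1 ^ 2 := by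
        refine h1.trans ?_
        have := mul_le_mul_of_nonneg_left h2 (by linarith : 0 ≤ 8 * Q)
        linarith
      exact abs_le_of_sq_le_sq h5 (by norm_num)
  · -- the target
    intro i hi
    have := hGH (fun e => v e i)
    unfold pr at this
    rw [this]
    exact hy1 i hi

end P262C
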