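import Vale.Agent.P262.Full.P2

/-!
# P262 full: [L1] solving the Gram system
-/

open Finset

namespace P262C

theorem sum_cs_sq {α : Type*} (s : Finset α) (f g : α → ℝ) :
    (∑ i ∈ s, f i * g i) ^ 2 ≤ (∑ i ∈ s, f i ^ 2) * ∑ i ∈ s, g i ^ 2 :=
  Finset.sum_mul_sq_le_sq_mul_sq s f g

section L1

variable {ι I : Type*} [Fintype I] [DecidableEq I]

/-- the quadratic form as a sum of squares -/
theorem quad_eq (F : Finset I) (H : Finset ι) (v : ι → I → ℝ) (z : I → ℝ) :
    ∑ e ∈ H, (∑ l ∈ F, z l * v e l) ^ 2 =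
      ∑ i ∈ F, z i * ∑ l ∈ F, (∑ e ∈ H, v e i * v e l) * z l := by
  have h1 : ∀ e ∈ H, (∑ l ∈ F, z l * v e l) ^ 2 =
      ∑ i ∈ F, ∑ l ∈ F, z i * ((v e i * v e l) * z l) := by
    intro e _
    rw [sq, Finset.sum_mul_sum]
    refine Finset.sum_congr rfl fun i _ => Finset.sum_congr rfl fun l _ => ?_
    ring
  rw [Finset.sum_congr rfl h1, Finset.sum_comm]
  refine Finset.sum_congr rfl fun i _ => ?_
  rw [Finset.sum_comm, Finset.mul_sum]
  refine Finset.sum_congr rfl fun l _ => ?_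
  rw [← Finset.mul_sum, Finset.sum_mul]

theorem quad_lower (F : Finset I) (A : I → I → ℝ) (μ : I → ℝ) (hμ : ∀ i ∈ F, 0 < μ i)
    (hD : ∑ i ∈ F, ∑ l ∈ F, (A i l - if i = l then μ i else 0) ^ 2 /
      (μ i * μ l) ≤ 1 / 4) (z : I → ℝ) :
    (1 / 2) * ∑ i ∈ F, μ i * z i ^ 2 ≤ ∑ i ∈ F, z i * ∑ l ∈ F, A i l * z l := by
  set S := ∑ i ∈ F, μ i * z i ^ 2 with hS
  have hS0 : 0 ≤ S := Finset.sum_nonneg fun i hi => mul_nonneg (hμ i hi).le (sq_nonneg _)
  set D : I → I → ℝ := fun i l => A i l - if i = l then μ i else 0 with hDdef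
  have h1 : ∑ i ∈ F, z i * ∑ l ∈ F, A i l * z l = S + ∑ i ∈ F, z i * ∑ l ∈ F, D i l * z l := by
    rw [hS, ← Finset.sum_add_distrib]
    refine Finset.sum_congr rfl fun i hi => ?_
    have h2 : ∑ l ∈ F, D i l * z l = ∑ l ∈ F, A i l * z l - μ i * z i := by
      have h3 : ∑ l ∈ F, (if i = l then μ i else 0) * z l = μ i * z i := by
        rw [Finset.sum_eq_single i]
        · rw [if_pos rfl]
        · intro l _ hl
          rw [if_neg (Ne.symm hl), zero_mul]
        · intro h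
          exact absurd hi h
      rw [← h3, ← Finset.sum_sub_distrib]
      refine Finset.sum_congr rfl fun l _ => ?_
      rw [hDdef]
      ring
    rw [h2]
    ring
  set T := ∑ i ∈ F, z i * ∑ l ∈ F, D i l * z l with hT
  have h4 : T ^ 2 ≤ (S / 2) ^ 2 := by
    have h5 : T = ∑ p ∈ F ×ˢ F, (D p.1 p.2 / Real.sqrt (μ p.1 * μ p.2)) *
        (Real.sqrt (μ p.1 * μ p.2) * (z p.1 * z p.2)) := by
      rw [hT, Finset.sum_product]
      refine Finset.sum_congr rfl fun i hi => ?_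
      rw [Finset.mul_sum]
      refine Finset.sum_congr rfl fun l hl => ?_
      have h6 : Real.sqrt (μ i * μ l) ≠ 0 :=
        (Real.sqrt_pos.mpr (mul_pos (hμ i hi) (hμ l hl))).ne'
      field_simp
    have h7 := sum_cs_sq (F ×ˢ F) (fun p => D p.1 p.2 / Real.sqrt (μ p.1 * μ p.2))
      (fun p => Real.sqrt (μ p.1 * μ p.2) * (z p.1 * z p.2))
    rw [← h5] at h7
    have h8 : ∑ p ∈ F ×ˢ F, (D p.1 p.2 / Real.sqrt (μ p.1 * μ p.2)) ^ 2 ≤ 1 / 4 := by
      rw [Finset.sum_product]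
      refine le_trans (le_of_eq ?_) hD
      refine Finset.sum_congr rfl fun i hi => Finset.sum_congr rfl fun l hl => ?_
      rw [div_pow, Real.sq_sqrt (mul_pos (hμ i hi) (hμ l hl)).le]
    have h9 : ∑ p ∈ F ×ˢ F, (Real.sqrt (μ p.1 * μ p.2) * (z p.1 * z p.2)) ^ 2 = S ^ 2 := by
      rw [Finset.sum_product, hS, sq, Finset.sum_mul_sum]
      refine Finset.sum_congr rfl fun i hi => Finset.sum_congr rfl fun l hl => ?_
      rw [mul_pow, Real.sq_sqrt (mul_pos (hμ i hi) (hμ l hl)).le]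
      ring
    rw [h9] at h7
    calc T ^ 2 ≤ _ := h7
      _ ≤ (1 / 4) * S ^ 2 := mul_le_mul_of_nonneg_right h8 (sq_nonneg _)
      _ = (S / 2) ^ 2 := by ring
  have h10 := abs_le_of_sq_le_sq' h4 (by linarith)
  rw [h1]
  linarith [h10.1]

theorem steer_solve' (F : Finset I) (H : Finset ι)
    (v : ι → I → ℝ) (μ : I → ℝ) (hμ : ∀ i ∈ F, 0 < μ i)
    (hD : ∑ i ∈ F, ∑ l ∈ F, ((∑ e ∈ H, v e i * v e l) - if i = l then μ i else 0) ^ 2 /
      (μ i * μ l) ≤ 1 / 4) (w : I → ℝ) :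
    ∃ y : I → ℝ, (∀ i, i ∉ F → y i = 0) ∧
      (∀ i ∈ F, ∑ e ∈ H, (∑ l ∈ F, y l * v e l) * v e i = w i) ∧
      ∑ i ∈ F, μ i * y i ^ 2 ≤ 4 * ∑ i ∈ F, w i ^ 2 / μ i ∧
      ∑ e ∈ H, (∑ l ∈ F, y l * v e l) ^ 2 ≤ 2 * ∑ i ∈ F, w i ^ 2 / μ i := by
  set A : I → I → ℝ := fun i l => ∑ e ∈ H, v e i * v e l with hA
  let T : (I → ℝ) →ₗ[ℝ] (I → ℝ) :=
    { toFun := fun z i => if i ∈ F then ∑ l ∈ F, A i l * z l else z i
      map_add' := by
        intro x y
        funext i
        by_cases hi : i ∈ F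
        · simp only [hi, if_true, Pi.add_apply, mul_add, Finset.sum_add_distrib]
        · simp only [hi, if_false, Pi.add_apply]
      map_smul' := by
        intro c x
        funext i
        by_cases hi : i ∈ F
        · simp only [hi, if_true, Pi.smul_apply, smul_eq_mul, RingHom.id_apply, Finset.mul_sum]
          refine Finset.sum_congr rfl fun l _ => ?_
          ring
        · simp only [hi, if_false, Pi.smul_apply, smul_eq_mul, RingHom.id_apply] }
  have hTapp : ∀ z i, T z i = if i ∈ F then ∑ l ∈ F, A i l * z l else z i := fun z i => rfl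
  have hlow := fun z => quad_lower F A μ hμ hD z
  have hinj : Function.Injective T := by
    rw [injective_iff_map_eq_zero]
    intro z hz
    have h1 : ∀ i ∈ F, ∑ l ∈ F, A i l * z l = 0 := by
      intro i hi
      have := congrFun hz i
      rw [hTapp, if_pos hi] at this
      exact this
    have h2 : ∀ i, i ∉ F → z i = 0 := by
      intro i hi
      have := congrFun hz i
      rw [hTapp, if_neg hi] at this
      exact this
    have h3 := hlow z
    have h4 : ∑ i ∈ F, z i * ∑ l ∈ F, A i l * z l = 0 := by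
      refine Finset.sum_eq_zero fun i hi => ?_
      rw [h1 i hi, mul_zero]
    rw [h4] at h3
    have h5 : ∑ i ∈ F, μ i * z i ^ 2 = 0 := by
      apply le_antisymm (by linarith)
      exact Finset.sum_nonneg fun i hi => mul_nonneg (hμ i hi).le (sq_nonneg _)
    rw [Finset.sum_eq_zero_iff_of_nonneg
      (fun i hi => mul_nonneg (hμ i hi).le (sq_nonneg _))] at h5
    funext i
    by_cases hi : i ∈ F
    · have h6 := h5 i hi
      rcases mul_eq_zero.mp h6 with h7 | h7
      · exact absurd h7 (hμ i hi).ne'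
      · simpa using h7
    · exact h2 i hi
  have hsurj : Function.Surjective T := LinearMap.injective_iff_surjective.mp hinj
  obtain ⟨y, hy⟩ := hsurj (fun i => if i ∈ F then w i else 0)
  have hy1 : ∀ i, i ∉ F → y i = 0 := by
    intro i hi
    have := congrFun hy i
    rw [hTapp, if_neg hi, if_neg hi] at this
    exact this
  have hy2 : ∀ i ∈ F, ∑ l ∈ F, A i l * y l = w i := by
    intro i hi
    have := congrFun hy i
    rw [hTapp, if_pos hi, if_pos hi] at this
    exact this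
  set S := ∑ i ∈ F, μ i * y i ^ 2 with hS
  set W := ∑ i ∈ F, w i ^ 2 / μ i with hW
  have hS0 : 0 ≤ S := Finset.sum_nonneg fun i hi => mul_nonneg (hμ i hi).le (sq_nonneg _)
  have hW0 : 0 ≤ W := Finset.sum_nonneg fun i hi => div_nonneg (sq_nonneg _) (hμ i hi).le
  have hq : ∑ i ∈ F, y i * ∑ l ∈ F, A i l * y l = ∑ i ∈ F, y i * w i :=
    Finset.sum_congr rfl fun i hi => by rw [hy2 i hi]
  have h1 := hlow y
  rw [hq] at h1
  have hcs : (∑ i ∈ F, y i * w i) ^ 2 ≤ S * W := by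
    have h2 := sum_cs_sq F (fun i => Real.sqrt (μ i) * y i) (fun i => w i / Real.sqrt (μ i))
    have e1 : ∑ i ∈ F, (Real.sqrt (μ i) * y i) * (w i / Real.sqrt (μ i)) =
        ∑ i ∈ F, y i * w i := by
      refine Finset.sum_congr rfl fun i hi => ?_
      have : Real.sqrt (μ i) ≠ 0 := (Real.sqrt_pos.mpr (hμ i hi)).ne'
      field_simp
    have e2 : ∑ i ∈ F, (Real.sqrt (μ i) * y i) ^ 2 = S := by
      refine Finset.sum_congr rfl fun i hi => ?_
      rw [mul_pow, Real.sq_sqrt (hμ i hi).le]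
    have e3 : ∑ i ∈ F, (w i / Real.sqrt (μ i)) ^ 2 = W := by
      refine Finset.sum_congr rfl fun i hi => ?_
      rw [div_pow, Real.sq_sqrt (hμ i hi).le]
    rw [e1, e2, e3] at h2
    exact h2
  have hSW : S ≤ 4 * W := by
    rcases eq_or_lt_of_le hS0 with h0 | h0
    · rw [← h0]; linarith
    · have h3 : (1 / 2 * S) ^ 2 ≤ S * W := by
        refine le_trans ?_ hcs
        exact pow_le_pow_left₀ (by linarith) h1 2
      have h4 : S * (S / 4) ≤ S * W := by
        calc S * (S / 4) = (1 / 2 * S) ^ 2 := by ring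
          _ ≤ S * W := h3
      have h5 := le_of_mul_le_mul_left h4 h0
      linarith
  refine ⟨y, hy1, ?_, hSW, ?_⟩
  · intro i hi
    rw [← hy2 i hi]
    calc ∑ e ∈ H, (∑ l ∈ F, y l * v e l) * v e i
        = ∑ e ∈ H, ∑ l ∈ F, (v e i * v e l) * y l := by
          refine Finset.sum_congr rfl fun e _ => ?_
          rw [Finset.sum_mul]
          refine Finset.sum_congr rfl fun l _ => ?_
          ring
      _ = ∑ l ∈ F, ∑ e ∈ H, (v e i * v e l) * y l := Finset.sum_comm
      _ = ∑ l ∈ F, A i l * y l := by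
          refine Finset.sum_congr rfl fun l _ => ?_
          rw [hA, Finset.sum_mul]
  · rw [quad_eq F H v y]
    change ∑ i ∈ F, y i * ∑ l ∈ F, A i l * y l ≤ _
    rw [hq]
    have h6 : (∑ i ∈ F, y i * w i) ^ 2 ≤ (2 * W) ^ 2 := by
      calc (∑ i ∈ F, y i * w i) ^ 2 ≤ S * W := hcs
        _ ≤ (4 * W) * W := mul_le_mul_of_nonneg_right hSW hW0
        _ = (2 * W) ^ 2 := by ring
    exact (abs_le_of_sq_le_sq' h6 (by linarith)).2

end L1

end P262C
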