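import Vale.Agent.P262.Full.PotC
import Vale.Agent.P262.Full.Seq

/-!
# P262 full: recursion over the tree
-/

open Finset

namespace P262C

theorem concat_aux {ι : Type} [DecidableEq ι] (G : Finset ι) (pos : ι → ℕ) (Φ : ℕ → List ι → Prop)
    (n : ℕ)
    (hb : ∀ j < n, ∃ L : List ι, L.Nodup ∧ L.toFinset = G.filter (fun e => pos e = j) ∧
      ∀ P, P <+: L → Φ j P) (hn : 1 ≤ n) :
    ∃ L : List ι, L.Nodup ∧ L.toFinset = G.filter (fun e => pos e < n) ∧
      ∀ P, P <+: L → ∃ j < n, ∃ P' : List ι,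
      Φ j P' ∧ P'.Nodup ∧ P'.toFinset ⊆ G.filter (fun e => pos e = j) ∧
      ∀ f : ι → ℝ, (P.map f).sum = ∑ e ∈ G.filter (fun e => pos e < j), f e + (P'.map f).sum := by
  induction n with
  | zero => omega
  | succ n ih =>
    obtain ⟨L1, hL1, hL1G, hL1P⟩ := hb n (Nat.lt_succ_self n)
    rcases Nat.eq_zero_or_pos n with h0 | h0
    · subst h0
      refine ⟨L1, hL1, ?_, ?_⟩
      · rw [hL1G]
        ext e
        simp only [Finset.mem_filter]
        constructor <;> rintro ⟨h1, h2⟩ <;> exact ⟨h1, by omega⟩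
      · intro P hP
        refine ⟨0, Nat.one_pos, P, hL1P P hP, hL1.sublist hP.sublist, ?_, ?_⟩
        · rw [← hL1G]
          intro x hx
          rw [List.mem_toFinset] at hx ⊢
          exact hP.subset hx
        · intro f
          have : G.filter (fun e => pos e < 0) = ∅ := by
            ext e; simp
          rw [this]
          simp
    · obtain ⟨L0, hL0, hL0G, hL0P⟩ := ih (fun j hj => hb j (Nat.lt_succ_of_lt hj)) h0
      have hdisj : List.Disjoint L0 L1 := by
        intro e h1 h2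
        have h1' : e ∈ L0.toFinset := List.mem_toFinset.mpr h1
        have h2' : e ∈ L1.toFinset := List.mem_toFinset.mpr h2
        rw [hL0G, Finset.mem_filter] at h1'
        rw [hL1G, Finset.mem_filter] at h2'
        omega
      refine ⟨L0 ++ L1, List.Nodup.append hL0 hL1 hdisj, ?_, ?_⟩
      · rw [List.toFinset_append, hL0G, hL1G]
        ext e
        simp only [Finset.mem_union, Finset.mem_filter]
        constructor
        · rintro (⟨h1, h2⟩ | ⟨h1, h2⟩) <;> exact ⟨h1, by omega⟩
        · rintro ⟨h1, h2⟩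
          rcases Nat.lt_or_ge (pos e) n with h | h
          · exact Or.inl ⟨h1, h⟩
          · exact Or.inr ⟨h1, by omega⟩
      · intro P hP
        have hcase : P <+: L0 ∨ ∃ P', P = L0 ++ P' ∧ P' <+: L1 := by
          rcases Nat.lt_or_ge L0.length P.length with hlen | hlen
          · have h3 : L0 <+: P :=
              List.prefix_of_prefix_length_le (List.prefix_append _ _) hP (by omega)
            obtain ⟨P', rfl⟩ := h3
            exact Or.inr ⟨P', rfl, (List.prefix_append_right_inj L0).1 hP⟩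
          · exact Or.inl (List.prefix_of_prefix_length_le hP (List.prefix_append _ _) hlen)
        rcases hcase with h | ⟨P', h, hP'⟩
        · obtain ⟨j, hj, P', h1⟩ := hL0P P h
          exact ⟨j, Nat.lt_succ_of_lt hj, P', h1⟩
        · refine ⟨n, Nat.lt_succ_self n, P', hL1P P' hP', hL1.sublist hP'.sublist, ?_, ?_⟩
          · rw [← hL1G]
            intro x hx
            rw [List.mem_toFinset] at hx ⊢
            exact hP'.subset hx
          · intro f
            rw [h, List.map_append, List.sum_append, ← hL0G, List.sum_toFinset _ hL0]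
/-- [T1] concatenation of ordered blocks in the order of `pos`. -/
theorem concat_blocks {ι : Type} [DecidableEq ι] (G : Finset ι) (pos : ι → ℕ) (n : ℕ) (hn : 1 ≤ n)
    (hpos : ∀ e ∈ G, pos e < n) (Φ : ℕ → List ι → Prop)
    (hb : ∀ j < n, ∃ L : List ι, L.Nodup ∧ L.toFinset = G.filter (fun e => pos e = j) ∧
      ∀ P, P <+: L → Φ j P) :
    ∃ L : List ι, L.Nodup ∧ L.toFinset = G ∧ ∀ P, P <+: L → ∃ j < n, ∃ P' : List ι,
      Φ j P' ∧ P'.Nodup ∧ P'.toFinset ⊆ G.filter (fun e => pos e = j) ∧
      ∀ f : ι → ℝ, (P.map f).sum = ∑ e ∈ G.filter (fun e => pos e < j), f e + (P'.map f).sum := by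
  obtain ⟨L, h1, h2, h3⟩ := concat_aux G pos Φ n hb hn
  refine ⟨L, h1, ?_, h3⟩
  rw [h2, Finset.filter_true_of_mem hpos]

variable {ι I : Type} [Fintype ι] [DecidableEq ι] [Fintype I] [DecidableEq I]

/-- potential at stage `n` -/
noncomputable def PP (x : I → ℝ) (n : ℕ) : ℝ :=
  u0 + nn (XX x 0) + ∑ k ∈ range n, chg (XX x k) (mm x k) (mm x (k + 1))

/-- weights at stage `n` -/
noncomputable def ww (x : I → ℝ) (n : ℕ) (i : I) : ℝ := 1 / ph x n i ^ 2

/-- final bound at stage `n` for trees of depth `W` -/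
noncomputable def RB (x : I → ℝ) (W n : ℕ) : ℝ :=
  4194304 ^ 3 * PP x W + 4194304 * ∑ k ∈ Ico n W, cst (XX x k) (mm x k)

theorem eta_nonneg (X : I → ℝ) (m : ℕ) (i : I) : 0 ≤ eta X m i := by
  unfold eta
  split_ifs
  · exact le_rfl
  · exact p2_nonneg _
  · exact zero_le_one

theorem eta_pos {X : I → ℝ} {m : ℕ} {i : I} (h : i ∉ Fat X m) : 0 < eta X m i := by
  rw [mem_Fat] at h
  unfold eta
  rw [if_neg h]
  split_ifs
  · exact p2_pos _
  · exact zero_lt_one

theorem ph_pos (x : I → ℝ) (n : ℕ) (i : I) : 0 < ph x n i :=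
  zero_lt_one.trans_le (one_le_ph x n i)

theorem u0_nonneg : 0 ≤ u0 := by unfold u0; norm_num

/-- [T2] downward induction on `n` from `W`.  At `W` all `tv = 0`, any order works,
`∑ ph_i a_i² = ∑ ph_i³ (ww_i a_i²) ≤ 4194304³ PP` (no fat direction).  Step: [St], the children
lists from stage `n+1` concatenated by [T1]; with `p'_i = p_j + ∑_{P'} tv'` and
`p_i = a + ∑_{pos<j} tv + ∑_{P'} tv`, `|p_i - p'_i| ≤ ∑_{pos=j} |tv - tv'|` (zero unless `i` is in
`Thin (nx)`), `ph_n (1+η) = ph_{n+1}` and `ph_n (1+1/η) = ph_{n+1}/η ≤ 4194304/η`. -/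
theorem tree [Nonempty I] {v : ι → I → ℝ} (hv : ∀ e, ∑ i, v e i ^ 2 ≤ 1) (x : I → ℝ) (W : ℕ)
    (hW : ∀ i, i ∈ Thin (XX x W) (mm x W))
    (h0 : ∀ e i, tv v (XX x W) (mm x W) e i = 0) (n : ℕ) (hn : n ≤ W) (G : Finset ι)
    (a c : I → ℝ) (h : Inv v (XX x n) (mm x n) (ww x n) (PP x n) G a c) :
    ∃ L : List ι, L.Nodup ∧ L.toFinset = G ∧ ∀ P, P <+: L →
      ∑ i, ph x n i * (a i + (P.map (fun e => tv v (XX x n) (mm x n) e i)).sum) ^ 2 ≤
        RB x W n := by
  obtain ⟨k, hk⟩ : ∃ k, W - n = k := ⟨_, rfl⟩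
  induction k generalizing n G a c with
  | zero =>
    have hnW : n = W := by omega
    subst hnW
    refine ⟨G.toList, G.nodup_toList, G.toList_toFinset, fun P _ => ?_⟩
    have h1 : ∀ i, (P.map (fun e => tv v (XX x n) (mm x n) e i)).sum = 0 := by
      intro i
      simp [h0]
    simp only [h1, add_zero]
    have hF : (Fat (XX x n) (mm x n))ᶜ = univ := by
      ext i
      have h2 := hW i
      rw [mem_Thin] at h2
      simp only [Finset.mem_compl, mem_Fat, Finset.mem_univ, iff_true, not_le]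
      have h3 : (0 : ℝ) ≤ (mm x n : ℝ) := Nat.cast_nonneg _
      linarith
    have h2 := h.pa.base
    rw [hF] at h2
    have hu := u0_nonneg
    have h3 : ∑ i, ph x n i * a i ^ 2 ≤ 4194304 ^ 3 * ∑ i, ww x n i * a i ^ 2 := by
      rw [Finset.mul_sum]
      refine Finset.sum_le_sum fun i _ => ?_
      have h4 := ph_pos x n i
      have h5 := ph_le x n i
      have h6 : ph x n i * a i ^ 2 = ph x n i ^ 3 * (ww x n i * a i ^ 2) := by
        unfold ww
        field_simp
      rw [h6]
      refine mul_le_mul_of_nonneg_right (pow_le_pow_left₀ h4.le h5 3) ?_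
      unfold ww
      positivity
    unfold RB
    rw [Finset.Ico_self, Finset.sum_empty, mul_zero, add_zero]
    refine h3.trans (mul_le_mul_of_nonneg_left (by linarith) (by positivity))
  | succ k ih =>
    have hp := par_seq x n
    have hww0 : ∀ i, 0 ≤ ww x n i := fun i => by
      unfold ww
      have := ph_pos x n i
      positivity
    have hww1 : ∀ i, ww x n i ≤ 1 := fun i => by
      unfold ww
      have := one_le_ph x n i
      rw [div_le_one (by positivity)]
      nlinarith
    obtain ⟨pos, hpos, hch⟩ := step hp (fun e _ => hv e) hww0 hww1 h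
    have hnw : nw (XX x n) (mm x n) (ww x n) = ww x (n + 1) := by
      funext i
      unfold nw ww
      rw [ph_succ]
      have := ph_pos x n i
      have h2 := eta_nonneg (XX x n) (mm x n) i
      field_simp
    have hPP : PP x n + chg (XX x n) (mm x n) (mm x (n + 1)) = PP x (n + 1) := by
      unfold PP
      rw [Finset.sum_range_succ]
      ring
    rw [hnw, hPP, ← XX_succ] at hch
    obtain ⟨L, hL, hLG, hLP⟩ := concat_blocks G pos (2 ^ (2 * mm x n)) Nat.one_le_two_pow hpos
      (fun j P => ∑ i, ph x (n + 1) i *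
        ((a i + ∑ e ∈ G.filter (fun e => pos e < j), tv v (XX x n) (mm x n) e i) +
        (P.map (fun e => tv v (XX x (n + 1)) (mm x (n + 1)) e i)).sum) ^ 2 ≤ RB x W (n + 1))
      (fun j hj => ih (n + 1) (by omega) _ _ _ (hch j hj).1 (by omega))
    refine ⟨L, hL, hLG, fun P hP => ?_⟩
    obtain ⟨j, hj, P', hΦ, hP'n, hP's, hsum⟩ := hLP P hP
    have htv := (hch j hj).2
    set δ : I → ℝ := fun i => ∑ e ∈ G.filter (fun e => pos e = j),
      |tv v (XX x n) (mm x n) e i - tv v (XX x (n + 1)) (mm x (n + 1)) e i| with hδ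
    have hRB : RB x W n = RB x W (n + 1) + 4194304 * cst (XX x n) (mm x n) := by
      unfold RB
      rw [Finset.sum_eq_sum_Ico_succ_bot (by omega : n < W)]
      ring
    have hc0 := cst_nonneg (XX x n) (mm x n)
    -- pointwise
    have hpt : ∀ i, ph x n i * (a i + (P.map (fun e => tv v (XX x n) (mm x n) e i)).sum) ^ 2 ≤
        ph x (n + 1) i *
        ((a i + ∑ e ∈ G.filter (fun e => pos e < j), tv v (XX x n) (mm x n) e i) +
        (P'.map (fun e => tv v (XX x (n + 1)) (mm x (n + 1)) e i)).sum) ^ 2 +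
        (if i ∈ Thin (XX x (n + 1)) (mm x (n + 1)) then
          4194304 * ((1 / eta (XX x n) (mm x n) i) * δ i ^ 2) else 0) := by
      intro i
      have hph0 := ph_pos x n i
      have hph1 := ph_succ x n i
      have hη := eta_nonneg (XX x n) (mm x n) i
      set A := a i + ∑ e ∈ G.filter (fun e => pos e < j), tv v (XX x n) (mm x n) e i with hA
      set B := (P'.map (fun e => tv v (XX x (n + 1)) (mm x (n + 1)) e i)).sum with hB
      have h1 : a i + (P.map (fun e => tv v (XX x n) (mm x n) e i)).sum = A + B +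
          ∑ e ∈ P'.toFinset, (tv v (XX x n) (mm x n) e i -
            tv v (XX x (n + 1)) (mm x (n + 1)) e i) := by
        rw [hsum, hB, ← List.sum_toFinset _ hP'n, ← List.sum_toFinset _ hP'n,
          Finset.sum_sub_distrib, hA]
        ring
      rw [h1]
      set D := ∑ e ∈ P'.toFinset, (tv v (XX x n) (mm x n) e i -
            tv v (XX x (n + 1)) (mm x (n + 1)) e i) with hD
      split_ifs with hi
      · have h2 : |D| ≤ δ i := by
          rw [hD, hδ]
          refine (Finset.abs_sum_le_sum_abs _ _).trans ?_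
          exact Finset.sum_le_sum_of_subset_of_nonneg hP's fun _ _ _ => abs_nonneg _
        have hi' : i ∉ Fat (XX x n) (mm x n) := by
          rw [XX_succ] at hi
          exact Thin_fat hp hi
        have hη' := eta_pos hi'
        set η := eta (XX x n) (mm x n) i
        have h3 : (A + B + D) ^ 2 ≤ (1 + η) * (A + B) ^ 2 + (1 + η) * ((1 / η) * D ^ 2) := by
          have h4 : (1 + η) * (A + B) ^ 2 + (1 + η) * ((1 / η) * D ^ 2) - (A + B + D) ^ 2 =
              (η * (A + B) - D) ^ 2 / η := by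
            field_simp
            ring
          have h5 : 0 ≤ (η * (A + B) - D) ^ 2 / η := by positivity
          linarith
        have h6 : D ^ 2 ≤ δ i ^ 2 := by
          rw [← sq_abs D]
          exact pow_le_pow_left₀ (abs_nonneg _) h2 2
        have h7 := ph_le x (n + 1) i
        calc ph x n i * (A + B + D) ^ 2
            ≤ ph x n i * ((1 + η) * (A + B) ^ 2 + (1 + η) * ((1 / η) * D ^ 2)) :=
              mul_le_mul_of_nonneg_left h3 hph0.le
          _ = ph x (n + 1) i * (A + B) ^ 2 + ph x (n + 1) i * ((1 / η) * D ^ 2) := by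
              rw [hph1]; ring
          _ ≤ ph x (n + 1) i * (A + B) ^ 2 + 4194304 * ((1 / η) * δ i ^ 2) := by
              refine add_le_add le_rfl ?_
              exact mul_le_mul h7 (mul_le_mul_of_nonneg_left h6 (by positivity)) (by positivity)
                (by positivity)
      · have h2 : D = 0 := by
          rw [hD]
          refine Finset.sum_eq_zero fun e _ => ?_
          have h3 : i ∉ Thin (XX x n) (mm x n) := by
            intro h4
            refine hi ?_
            rw [XX_succ]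
            exact Thin_sub hp h4
          rw [tv_eq_of_not_thin hi, tv_eq_of_not_thin h3, sub_self]
        rw [h2, add_zero, add_zero, hph1]
        refine mul_le_mul_of_nonneg_right ?_ (sq_nonneg _)
        nlinarith
    refine (Finset.sum_le_sum fun i _ => hpt i).trans ?_
    rw [Finset.sum_add_distrib, Finset.sum_ite_mem, Finset.univ_inter, ← Finset.mul_sum, hRB]
    linarith

/-- heavy part of a thin direction at the root -/
theorem root_heavy {ι : Type} [Fintype ι] {g : ι → ℝ} {x : ℝ} (hs : ∑ e, g e ^ 2 = p2 x) :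
    ∑ e, (if p2 (x / 4) < |g e| then |g e| else 0) ≤ p2 (3 * x / 4) := by
  have h1 : ∀ e, (if p2 (x / 4) < |g e| then |g e| else 0) ≤ g e ^ 2 / p2 (x / 4) := by
    intro e
    have hp := p2_pos (x / 4)
    split_ifs with h
    · rw [le_div_iff₀ hp, ← sq_abs (g e)]
      have := abs_nonneg (g e)
      nlinarith
    · positivity
  refine (Finset.sum_le_sum fun e _ => h1 e).trans ?_
  rw [← Finset.sum_div, hs, ← p2_sub]
  apply le_of_eq
  congr 1
  ring

theorem root_diff {ι : Type} [Fintype ι] {I : Type} [Fintype I] [DecidableEq I]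
    (v : ι → I → ℝ) (X : I → ℝ) (m : ℕ) (i : I) (e : ι) :
    |v e i - tv v X m e i| ≤ (if p2 (X i / 4) < |v e i| then |v e i| else 0) := by
  unfold tv
  split_ifs with h1 h2 h3
  · simp
  · exact absurd h1.2 h2
  · simp
  · simp

theorem root_nonthin {ι : Type} [Fintype ι] {I : Type} [Fintype I] [DecidableEq I]
    (v : ι → I → ℝ) {X : I → ℝ} {m : ℕ} {i : I} (h : i ∉ Thin X m) (e : ι) :
    tv v X m e i = v e i := by
  unfold tv
  rw [mem_Thin] at h
  rw [if_neg (fun h' => h h'.1)]

theorem XX_zero (x : I → ℝ) : XX x 0 = x := by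
  funext i
  simp [XX, tt]

theorem ww_zero (x : I → ℝ) (i : I) : ww x 0 i = 1 := by
  simp [ww, ph]

theorem root_mm_ge (x : I → ℝ) (n : ℕ) : (1024 : ℝ) ≤ mm x n := by
  have : 1024 ≤ mm x n := by unfold mm mf; omega
  exact_mod_cast this

/-- [T3] root invariants.  `x i = logb 2 (K i)`. -/
theorem root_inv [Nonempty I] {v : ι → I → ℝ} {K : I → ℝ} (hK : ∀ i, 0 < K i)
    (hQ : ∀ i l, ∑ e, v e i * v e l = if i = l then K i else 0) (hs : ∀ i, ∑ e, v e i = 0) :
    Inv v (XX (fun i => Real.logb 2 (K i)) 0) (mm (fun i => Real.logb 2 (K i)) 0)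
      (ww (fun i => Real.logb 2 (K i)) 0) (PP (fun i => Real.logb 2 (K i)) 0) univ
      (fun _ => 0) (fun i => ∑ e, tv v (XX (fun i => Real.logb 2 (K i)) 0)
        (mm (fun i => Real.logb 2 (K i)) 0) e i) := by
  obtain ⟨x, hx⟩ : ∃ x : I → ℝ, x = fun i => Real.logb 2 (K i) := ⟨_, rfl⟩
  rw [← hx]
  have hKx : ∀ i, K i = p2 (x i) := fun i => by rw [hx]; exact (p2_logb (hK i)).symm
  have hsq : ∀ i, ∑ e, v e i ^ 2 = p2 (x i) := fun i => by
    have := hQ i i
    rw [if_pos rfl] at this
    rw [← hKx, ← this]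
    exact Finset.sum_congr rfl fun e _ => by ring
  have hm := root_mm_ge x 0
  rw [XX_zero]
  have hc : ∀ i, (∑ e, tv v x (mm x 0) e i) ^ 2 ≤ om (x i) := by
    intro i
    by_cases ht : i ∈ Thin x (mm x 0)
    · have h1 : ∑ e, tv v x (mm x 0) e i = -∑ e, (v e i - tv v x (mm x 0) e i) := by
        rw [Finset.sum_sub_distrib, hs i]; ring
      have h2 : |∑ e, tv v x (mm x 0) e i| ≤ p2 (3 * x i / 4) := by
        rw [h1, abs_neg]
        refine (Finset.abs_sum_le_sum_abs _ _).trans ?_
        exact (Finset.sum_le_sum fun e _ => root_diff v x (mm x 0) i e).trans (root_heavy (hsq i))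
      rw [← sq_abs]
      have h3 := pow_le_pow_left₀ (abs_nonneg _) h2 2
      refine h3.trans ?_
      rw [mem_Thin] at ht
      have hx0 : x i ≤ 0 := by linarith
      rw [p2_sq, om_of_nonpos hx0]
      apply p2_le
      unfold al
      linarith
    · have h1 : ∑ e, tv v x (mm x 0) e i = 0 := by
        rw [← hs i]
        exact Finset.sum_congr rfl fun e _ => root_nonthin v ht e
      rw [h1]
      have := om_nonneg (x i)
      simpa using this
  have hPP : PP x 0 = u0 + nn x := by
    unfold PP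
    rw [XX_zero]; simp
  refine ⟨fun i => by simp, ?_, ?_, ?_, ?_, ?_⟩
  · intro i l _ _
    rw [hQ i l]
    have : (if i = l then K i else 0) - (if i = l then p2 (x i) else 0) = 0 := by
      rw [hKx i]; ring
    rw [this, abs_zero]
    exact p2_nonneg _
  · intro i hi
    have h1 : ∑ e, gf v x i e ≤ ∑ e, v e i ^ 2 := by
      refine Finset.sum_le_sum fun e _ => ?_
      unfold gf
      split_ifs
      · exact le_rfl
      · positivity
    refine h1.trans ?_
    rw [hsq]
    apply p2_le
    linarith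
  · intro i _ hi
    refine (root_heavy (g := fun e => v e i) (hsq i)).trans ?_
    apply p2_le
    linarith
  · constructor
    · rw [hPP]
      have := nn_nonneg x
      simp only [ne_eq, OfNat.ofNat_ne_zero, not_false_eq_true, zero_pow, mul_zero,
        Finset.sum_const_zero]
      linarith
    · intro j _
      rw [hPP]
      have h1 := nn_nonneg x
      have h2 : ∑ i ∈ (Fat x (mm x 0)).filter (fun i => x i ≤ x j), ((0 : ℝ) ^ 2 - CC) ≤ 0 := by
        apply Finset.sum_nonpos
        intro i _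
        unfold CC; norm_num
      have h3 : (0 : ℝ) ≤ u0 := by unfold u0; norm_num
      simp only [ne_eq, OfNat.ofNat_ne_zero, not_false_eq_true, zero_pow, mul_zero,
        Finset.sum_const_zero] at h2 ⊢
      linarith
  · have hbase : ∑ i ∈ (Fat x (mm x 0))ᶜ, ww x 0 i * (∑ e, tv v x (mm x 0) e i) ^ 2 ≤ nn x := by
      have := sum_le_nn (X := x) (S := (Fat x (mm x 0))ᶜ) (c := 1)
        (f := fun i => ww x 0 i * (∑ e, tv v x (mm x 0) e i) ^ 2) zero_le_one (fun i _ => by
          rw [ww_zero, one_mul, one_mul]; exact hc i)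
      linarith
    constructor
    · rw [hPP]
      linarith
    · intro j _
      rw [hPP]
      have h2 : ∑ i ∈ (Fat x (mm x 0)).filter (fun i => x i ≤ x j),
          ((∑ e, tv v x (mm x 0) e i) ^ 2 - CC) ≤ 0 := by
        apply Finset.sum_nonpos
        intro i _
        have h3 := hc i
        have h4 := om_le_one (x i)
        unfold CC
        linarith
      have h3 : (0 : ℝ) ≤ u0 := by unfold u0; norm_num
      linarith

/-- [T4] truncation at the root: `∑_e |v - tv| ≤ K i / p2 (x/4) = p2 (3x/4)` for thin `i`. -/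
theorem root_tv [Nonempty I] {v : ι → I → ℝ} {K : I → ℝ} (hK : ∀ i, 0 < K i)
    (hQ : ∀ i l, ∑ e, v e i * v e l = if i = l then K i else 0) :
    ∑ i, (∑ e, |v e i - tv v (XX (fun i => Real.logb 2 (K i)) 0)
      (mm (fun i => Real.logb 2 (K i)) 0) e i|) ^ 2 ≤ (Fintype.card I : ℝ) := by
  obtain ⟨x, hx⟩ : ∃ x : I → ℝ, x = fun i => Real.logb 2 (K i) := ⟨_, rfl⟩
  rw [← hx]
  have hKx : ∀ i, K i = p2 (x i) := fun i => by rw [hx]; exact (p2_logb (hK i)).symm
  have hsq : ∀ i, ∑ e, v e i ^ 2 = p2 (x i) := fun i => by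
    have := hQ i i
    rw [if_pos rfl] at this
    rw [← hKx, ← this]
    exact Finset.sum_congr rfl fun e _ => by ring
  have hm := root_mm_ge x 0
  rw [XX_zero]
  have h1 : ∀ i ∈ (univ : Finset I), (∑ e, |v e i - tv v x (mm x 0) e i|) ^ 2 ≤ 1 := by
    intro i _
    have h0 : 0 ≤ ∑ e, |v e i - tv v x (mm x 0) e i| := Finset.sum_nonneg fun _ _ => abs_nonneg _
    have h2 : ∑ e, |v e i - tv v x (mm x 0) e i| ≤ 1 := by
      by_cases ht : i ∈ Thin x (mm x 0)
      · refine (Finset.sum_le_sum fun e _ => root_diff v x (mm x 0) i e).trans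
          ((root_heavy (hsq i)).trans ?_)
        rw [mem_Thin] at ht
        apply p2_le_one
        linarith
      · rw [Finset.sum_eq_zero fun e _ => by rw [root_nonthin v ht e, sub_self, abs_zero]]
        norm_num
    nlinarith
  refine (Finset.sum_le_sum h1).trans ?_
  simp

theorem nn_le_card (X : I → ℝ) : nn X ≤ (Fintype.card I : ℝ) := by
  unfold nn
  refine (Finset.sum_le_sum fun i _ => om_le_one (X i)).trans ?_
  simp

/-- [T5] assembly: `W` from [Q9] with `ρ` the least nonzero `|v e i|` (or `1`), root, tree, sums. -/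
theorem order_eigen [Nonempty I] {v : ι → I → ℝ} {K : I → ℝ} (hK : ∀ i, 0 < K i)
    (hv : ∀ e, ∑ i, v e i ^ 2 ≤ 1)
    (hQ : ∀ i l, ∑ e, v e i * v e l = if i = l then K i else 0) (hs : ∀ i, ∑ e, v e i = 0) :
    ∃ L : List ι, L.Nodup ∧ L.toFinset = univ ∧ ∀ P, P <+: L →
      ∑ i, ((P.map (fun e => v e i)).sum) ^ 2 ≤ 10 ^ 50 * (Fintype.card I : ℝ) := by
  obtain ⟨x, hx⟩ : ∃ x : I → ℝ, x = fun i => Real.logb 2 (K i) := ⟨_, rfl⟩
  have hroot := root_inv hK hQ hs
  have htv := root_tv hK hQ
  rw [← hx] at hroot htv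
  -- the least nonzero entry
  obtain ⟨ρ, hρ, hρv⟩ : ∃ ρ : ℝ, 0 < ρ ∧ ∀ e i, v e i ≠ 0 → ρ ≤ |v e i| := by
    classical
    obtain ⟨S, hS⟩ : ∃ S : Finset ℝ, S = insert 1 (((univ : Finset (ι × I)).image
      (fun q => |v q.1 q.2|)).filter (fun r => 0 < r)) := ⟨_, rfl⟩
    have hSne : S.Nonempty := ⟨1, by rw [hS]; exact mem_insert_self _ _⟩
    refine ⟨S.min' hSne, ?_, ?_⟩
    · have h1 : ∀ r ∈ S, 0 < r := by
        intro r hr
        rw [hS, mem_insert, mem_filter] at hr
        rcases hr with hr | hr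
        · rw [hr]; norm_num
        · exact hr.2
      exact h1 _ (S.min'_mem hSne)
    · intro e i hei
      apply S.min'_le
      rw [hS]
      refine mem_insert_of_mem (mem_filter.mpr ⟨mem_image.mpr ⟨(e, i), mem_univ _, rfl⟩, ?_⟩)
      exact abs_pos.mpr hei
  obtain ⟨W, hW⟩ := bottom x ρ hρ
  have h0 : ∀ e i, tv v (XX x W) (mm x W) e i = 0 := by
    intro e i
    have h1 := hW i
    have h2 := h1.1
    rw [mem_Thin] at h2
    unfold tv
    split_ifs with h3
    · rfl
    · by_contra h4
      have h5 := hρv e i h4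
      exact h3 ⟨h2, lt_of_lt_of_le h1.2 h5⟩
  obtain ⟨L, hL, hLu, hpre⟩ := tree hv x W (fun i => (hW i).1) h0 0 (Nat.zero_le _) univ _ _ hroot
  refine ⟨L, hL, hLu, fun P hP => ?_⟩
  have h1 := hpre P hP
  have hN : (1 : ℝ) ≤ Fintype.card I := by exact_mod_cast Fintype.card_pos
  -- compare sums
  have hPn : P.Nodup := hL.sublist hP.sublist
  have hcmp : ∀ i, ((P.map (fun e => v e i)).sum) ^ 2 ≤
      2 * (ph x 0 i * (0 + (P.map (fun e => tv v (XX x 0) (mm x 0) e i)).sum) ^ 2) +
      2 * (∑ e, |v e i - tv v (XX x 0) (mm x 0) e i|) ^ 2 := by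
    intro i
    have hph : ph x 0 i = 1 := by simp [ph]
    rw [hph, one_mul, zero_add]
    rw [← List.sum_toFinset _ hPn, ← List.sum_toFinset _ hPn]
    have h2 : |∑ e ∈ P.toFinset, v e i - ∑ e ∈ P.toFinset, tv v (XX x 0) (mm x 0) e i| ≤
        ∑ e, |v e i - tv v (XX x 0) (mm x 0) e i| := by
      rw [← Finset.sum_sub_distrib]
      refine (Finset.abs_sum_le_sum_abs _ _).trans ?_
      exact Finset.sum_le_sum_of_subset_of_nonneg (Finset.subset_univ _)
        fun _ _ _ => abs_nonneg _
    obtain ⟨A, hA⟩ : ∃ A, A = ∑ e ∈ P.toFinset, v e i := ⟨_, rfl⟩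
    obtain ⟨B, hB⟩ : ∃ B, B = ∑ e ∈ P.toFinset, tv v (XX x 0) (mm x 0) e i := ⟨_, rfl⟩
    obtain ⟨D, hD⟩ : ∃ D, D = ∑ e, |v e i - tv v (XX x 0) (mm x 0) e i| := ⟨_, rfl⟩
    rw [← hA, ← hB, ← hD] at h2
    rw [← hA, ← hB, ← hD]
    have h3 : (A - B) ^ 2 ≤ D ^ 2 := by
      rw [← sq_abs]
      exact pow_le_pow_left₀ (abs_nonneg _) h2 2
    nlinarith [sq_nonneg (A - 2 * B)]
  have hsum := Finset.sum_le_sum fun i (_ : i ∈ (univ : Finset I)) => hcmp i
  rw [Finset.sum_add_distrib, ← Finset.mul_sum, ← Finset.mul_sum] at hsum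
  -- bound for RB
  have hRB : RB x W 0 ≤ 10 ^ 40 * (Fintype.card I : ℝ) := by
    unfold RB PP
    have h2 := sum_chg x W
    have h3 := sum_cst x W
    have h4 := nn_le_card (XX x 0)
    rw [Finset.range_eq_Ico] at h3
    have h5 : u0 ≤ 10 ^ 8 * (Fintype.card I : ℝ) := by
      unfold u0
      linarith
    linarith
  linarith

end P262C
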