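import Vale.Agent.P262.Full.Sign
import Vale.Agent.P262.Full.P2

/-!
# P262 full: [S3] the window body is convex and symmetric, [S4] tail sums, [S5] signing in the body
-/

open Finset

set_option linter.unusedSectionVars false

namespace P262C

variable {ι I : Type} [Fintype I] [DecidableEq I] [DecidableEq ι]

theorem pr_zero' (G : Finset ι) (φ : ι → ℝ) : pr G 0 φ = 0 := by
  simp [pr]

theorem pr_neg' (G : Finset ι) (y φ : ι → ℝ) : pr G (fun e => -y e) φ = -pr G y φ := by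
  unfold pr
  rw [← Finset.sum_neg_distrib]
  exact Finset.sum_congr rfl fun e _ => by ring

theorem pr_half' (G : Finset ι) (y z φ : ι → ℝ) :
    pr G (fun e => (y e + z e) / 2) φ = (pr G y φ + pr G z φ) / 2 := by
  unfold pr
  rw [← Finset.sum_add_distrib, Finset.sum_div]
  exact Finset.sum_congr rfl fun e _ => by ring

theorem abs_half_le {a b c : ℝ} (ha : |a| ≤ c) (hb : |b| ≤ c) : |(a + b) / 2| ≤ c := by
  rw [abs_le] at *
  constructor <;> linarith [ha.1, ha.2, hb.1, hb.2]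

theorem sq_half_sum_le {κ : Type*} (s : Finset κ) (f g : κ → ℝ) {c : ℝ}
    (hf : ∑ k ∈ s, f k ^ 2 ≤ c) (hg : ∑ k ∈ s, g k ^ 2 ≤ c) :
    ∑ k ∈ s, ((f k + g k) / 2) ^ 2 ≤ c := by
  have h : ∑ k ∈ s, ((f k + g k) / 2) ^ 2 ≤ ∑ k ∈ s, (f k ^ 2 / 2 + g k ^ 2 / 2) :=
    Finset.sum_le_sum fun k _ => by nlinarith [sq_nonneg (f k - g k)]
  rw [Finset.sum_add_distrib, ← Finset.sum_div, ← Finset.sum_div] at h
  linarith

/-- [S3] -/
theorem WGood.zero (v : ι → I → ℝ) (G : Finset ι) (X : I → ℝ) (m m' : ℕ) :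
    WGood v G X m m' 0 := by
  constructor
  · intro i _
    rw [pr_zero', abs_zero]
    have := p2_nonneg (X i / 32)
    positivity
  · intro i l _ _
    rw [pr_zero', abs_zero]
    exact mul_nonneg (by norm_num) (p2_nonneg _)
  · intro i _ _
    rw [pr_zero', abs_zero]
    exact mul_nonneg (by norm_num) (p2_nonneg _)
  · intro i _
    rw [pr_zero', abs_zero]
    exact mul_nonneg (mul_nonneg (by norm_num) (p2_nonneg _)) (Real.sqrt_nonneg _)
  · intro i _
    rw [pr_zero', abs_zero]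
    exact mul_nonneg (mul_nonneg (by norm_num) (p2_nonneg _)) (Real.sqrt_nonneg _)
  · intro i _
    rw [pr_zero', abs_zero]
    exact mul_nonneg (mul_nonneg (by norm_num) (p2_nonneg _)) (Real.sqrt_nonneg _)
  · simp only [pr_zero']
    norm_num
    positivity
  · intro j _
    simp only [pr_zero']
    norm_num
    positivity
  · simp only [pr_zero']
    norm_num
    positivity

theorem WGood.neg {v : ι → I → ℝ} {G : Finset ι} {X : I → ℝ} {m m' : ℕ} {y : ι → ℝ}
    (h : WGood v G X m m' y) : WGood v G X m m' (fun e => -y e) := by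
  constructor
  · intro i hi
    rw [pr_neg', abs_neg]
    exact h.k1 i hi
  · intro i l hi hl
    rw [pr_neg', abs_neg]
    exact h.k2 i l hi hl
  · intro i hi hi'
    rw [pr_neg', abs_neg]
    exact h.k3 i hi hi'
  · intro i hi
    rw [pr_neg', abs_neg]
    exact h.k4 i hi
  · intro i hi
    rw [pr_neg', abs_neg]
    exact h.k5 i hi
  · intro i hi
    rw [pr_neg', abs_neg]
    exact h.k6 i hi
  · simp only [pr_neg', neg_sq]
    exact h.q1
  · intro j hj
    simp only [pr_neg', neg_sq]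
    exact h.q2 j hj
  · simp only [pr_neg', neg_sq]
    exact h.q3

theorem WGood.half {v : ι → I → ℝ} {G : Finset ι} {X : I → ℝ} {m m' : ℕ} {y z : ι → ℝ}
    (h : WGood v G X m m' y) (h' : WGood v G X m m' z) :
    WGood v G X m m' (fun e => (y e + z e) / 2) := by
  constructor
  · intro i hi
    rw [pr_half']
    exact abs_half_le (h.k1 i hi) (h'.k1 i hi)
  · intro i l hi hl
    rw [pr_half']
    exact abs_half_le (h.k2 i l hi hl) (h'.k2 i l hi hl)
  · intro i hi hi'
    rw [pr_half']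
    exact abs_half_le (h.k3 i hi hi') (h'.k3 i hi hi')
  · intro i hi
    rw [pr_half']
    exact abs_half_le (h.k4 i hi) (h'.k4 i hi)
  · intro i hi
    rw [pr_half']
    exact abs_half_le (h.k5 i hi) (h'.k5 i hi)
  · intro i hi
    rw [pr_half']
    exact abs_half_le (h.k6 i hi) (h'.k6 i hi)
  · simp only [pr_half']
    exact sq_half_sum_le _ _ _ h.q1 h'.q1
  · intro j hj
    simp only [pr_half']
    exact sq_half_sum_le _ _ _ (h.q2 j hj) (h'.q2 j hj)
  · simp only [pr_half']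
    exact sq_half_sum_le _ _ _ h.q3 h'.q3

theorem WDrift.zero (v : ι → I → ℝ) (G : Finset ι) (X : I → ℝ) (m : ℕ) :
    WDrift v G X m 0 := by
  constructor
  · simp
  · intro i l _ _
    rw [pr_zero', abs_zero]
    exact p2_nonneg _
  · intro i _
    rw [pr_zero', abs_zero]
    exact zero_le_one
  · intro i _ _
    rw [pr_zero', abs_zero]
    exact zero_le_one

theorem WDrift.neg {v : ι → I → ℝ} {G : Finset ι} {X : I → ℝ} {m : ℕ} {y : ι → ℝ}
    (h : WDrift v G X m y) : WDrift v G X m (fun e => -y e) := by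
  constructor
  · simp only [neg_sq]
    exact h.d0
  · intro i l hi hl
    rw [pr_neg', abs_neg]
    exact h.d2 i l hi hl
  · intro i hi
    rw [pr_neg', abs_neg]
    exact h.d3 i hi
  · intro i hi hi'
    rw [pr_neg', abs_neg]
    exact h.d5 i hi hi'

theorem WDrift.half {v : ι → I → ℝ} {G : Finset ι} {X : I → ℝ} {m : ℕ} {y z : ι → ℝ}
    (h : WDrift v G X m y) (h' : WDrift v G X m z) :
    WDrift v G X m (fun e => (y e + z e) / 2) := by
  constructor
  · exact sq_half_sum_le _ _ _ h.d0 h'.d0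
  · intro i l hi hl
    rw [pr_half']
    exact abs_half_le (h.d2 i l hi hl) (h'.d2 i l hi hl)
  · intro i hi
    rw [pr_half']
    exact abs_half_le (h.d3 i hi) (h'.d3 i hi)
  · intro i hi hi'
    rw [pr_half']
    exact abs_half_le (h.d5 i hi hi') (h'.d5 i hi hi')

/-- [S4a] `2^u ≥ 100 u` for `u ≥ 10` and `e > 2`. -/
theorem exp_neg_p2 {u : ℝ} (hu : 10 ≤ u) : Real.exp (-(p2 u)) ≤ p2 (-(100 * u)) := by
  have hlog1 : Real.log 2 < 0.6931471808 := Real.log_two_lt_d9
  have hlog2 : 0.6931471803 < Real.log 2 := Real.log_two_gt_d9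
  have h1 : p2 u = p2 10 * p2 (u - 10) := by
    rw [← p2_add]
    congr 1
    ring
  have h2 : p2 10 = 1024 := by
    have := p2_nat 10
    norm_num at this
    exact this
  have h3 : (u - 10) * Real.log 2 + 1 ≤ p2 (u - 10) := by
    have h4 := Real.add_one_le_exp ((u - 10) * Real.log 2)
    have h5 : p2 (u - 10) = Real.exp ((u - 10) * Real.log 2) := by
      unfold p2
      rw [Real.rpow_def_of_pos (by norm_num), mul_comm]
    rw [h5]
    exact h4
  have h6 : 100 * u * Real.log 2 ≤ p2 u := by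
    rw [h1, h2]
    nlinarith
  have h7 : p2 (-(100 * u)) = Real.exp (-(100 * u * Real.log 2)) := by
    unfold p2
    rw [Real.rpow_def_of_pos (by norm_num)]
    congr 1
    ring
  rw [h7]
  exact Real.exp_le_exp.2 (by linarith)

/-- the common form of the tail terms -/
theorem tail_term {w : ℝ} (hw : 11 / 2 ≤ w) :
    2 * Real.exp (-((p2 w) ^ 2 / 2)) ≤ p2 (101 - 200 * w) := by
  have h1 : (p2 w) ^ 2 / 2 = p2 (2 * w - 1) := by
    rw [p2_sq, p2_sub, p2_one]
  rw [h1]
  have h2 := exp_neg_p2 (u := 2 * w - 1) (by linarith)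
  have h3 : p2 (101 - 200 * w) = 2 * p2 (-(100 * (2 * w - 1))) := by
    rw [show (101 - 200 * w : ℝ) = 1 + -(100 * (2 * w - 1)) by ring, p2_add, p2_one]
  rw [h3]
  linarith

theorem rank_sum_aux (X : I → ℝ) : ∀ (n : ℕ) (F : Finset I), F.card = n →
    ∑ j ∈ F, Real.exp (-(((F.filter (fun i => X i ≤ X j)).card : ℝ))) ≤
      1 - Real.exp (-(n : ℝ)) := by
  intro n
  induction n with
  | zero =>
    intro F hF
    rw [Finset.card_eq_zero] at hF
    subst hF
    simp
  | succ n ih =>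
    intro F hF
    have hne : F.Nonempty := by
      rw [← Finset.card_pos]
      omega
    obtain ⟨j0, hj0, hmax⟩ := F.exists_max_image X hne
    have hcard : (F.erase j0).card = n := by
      rw [Finset.card_erase_of_mem hj0, hF]
      rfl
    have h1 := ih (F.erase j0) hcard
    rw [← Finset.add_sum_erase F _ hj0]
    have h2 : F.filter (fun i => X i ≤ X j0) = F :=
      Finset.filter_true_of_mem fun i hi => hmax i hi
    rw [h2, hF]
    have h3 : ∑ j ∈ F.erase j0, Real.exp (-(((F.filter (fun i => X i ≤ X j)).card : ℝ))) ≤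
        ∑ j ∈ F.erase j0,
          Real.exp (-((((F.erase j0).filter (fun i => X i ≤ X j)).card : ℝ))) := by
      refine Finset.sum_le_sum fun j _ => Real.exp_le_exp.2 ?_
      have h4 : ((F.erase j0).filter (fun i => X i ≤ X j)).card ≤
          (F.filter (fun i => X i ≤ X j)).card :=
        Finset.card_le_card (Finset.filter_subset_filter _ (Finset.erase_subset _ _))
      have h5 : (((F.erase j0).filter (fun i => X i ≤ X j)).card : ℝ) ≤
          ((F.filter (fun i => X i ≤ X j)).card : ℝ) := by exact_mod_cast h4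
      linarith
    have h6 : 2 * Real.exp (-((n + 1 : ℕ) : ℝ)) ≤ Real.exp (-(n : ℝ)) := by
      have h7 : Real.exp (-(n : ℝ)) = Real.exp 1 * Real.exp (-((n + 1 : ℕ) : ℝ)) := by
        rw [← Real.exp_add]
        congr 1
        push_cast
        ring
      have h8 : (2 : ℝ) ≤ Real.exp 1 := by
        have := Real.add_one_le_exp (1 : ℝ)
        linarith
      rw [h7]
      exact mul_le_mul_of_nonneg_right h8 (Real.exp_pos _).le
    linarith

/-- [S4b] for any finite set `F` and function `X` the ranks `#{i ∈ F : X i ≤ X j}` majorise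
`1, 2, 3, …`, so `∑_j exp(-rank) ≤ 1/(e-1) ≤ 1` (induction on `F`, remove a maximal element). -/
theorem rank_sum (F : Finset I) (X : I → ℝ) :
    ∑ j ∈ F, Real.exp (-(((F.filter (fun i => X i ≤ X j)).card : ℝ))) ≤ 1 := by
  have h := rank_sum_aux X F.card F rfl
  have := Real.exp_pos (-(F.card : ℝ))
  linarith

theorem al_lt : al < 1 / 32767 := by unfold al; norm_num

/-- from a pointwise bound of exponents -/
theorem fail_aux {X : I → ℝ} {m m' : ℕ} (hp : Par X m m') (S : Finset I) (w : I → ℝ)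
    (hw : ∀ i ∈ S, 11 / 2 ≤ w i)
    (h : ∀ i ∈ S, 101 - 200 * w i ≤ -(3 * (m : ℝ)) - (m : ℝ) / 16 - al * |X i|) :
    ∑ i ∈ S, 2 * Real.exp (-((p2 (w i)) ^ 2 / 2)) ≤ p2 (-(3 * (m : ℝ))) := by
  have h1 : ∑ i ∈ S, 2 * Real.exp (-((p2 (w i)) ^ 2 / 2)) ≤
      p2 (-(3 * (m : ℝ)) - (m : ℝ) / 16) * nn X := by
    refine sum_le_nn (p2_nonneg _) fun i hi => ?_
    refine (tail_term (hw i hi)).trans ?_
    unfold om
    rw [← p2_add]
    exact p2_le (by linarith [h i hi])
  refine h1.trans ?_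
  refine (mul_le_mul_of_nonneg_left hp.hn (p2_nonneg _)).trans ?_
  rw [← p2_add]
  exact p2_le (by linarith)

/-- [S4c] failure sum of `k1`: `2 exp(-2^{X/16-15})`, `X ≥ 3m ≥ 3072`, `≤ 2·2^{-100(X/16-15)}`,
`∑ ≤ 2·2^{-3m-…} nn`.  All the failure sums are `≤ p2 (-(3*m))`. -/
theorem fail1 {X : I → ℝ} {m m' : ℕ} (hp : Par X m m') :
    ∑ i ∈ Fat X m, 2 * Real.exp (-((p2 (X i / 32) / 128) ^ 2 / 2)) ≤ p2 (-(3 * (m : ℝ))) := by
  have h128 : p2 7 = 128 := by
    have := p2_nat 7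
    norm_num at this
    exact this
  have e : ∀ i ∈ Fat X m, 2 * Real.exp (-((p2 (X i / 32) / 128) ^ 2 / 2)) =
      2 * Real.exp (-((p2 (X i / 32 - 7)) ^ 2 / 2)) := by
    intro i _
    rw [p2_sub, h128]
  rw [Finset.sum_congr rfl e]
  have hm := hp.hmR
  refine fail_aux hp _ (fun i => X i / 32 - 7) (fun i hi => ?_) fun i hi => ?_
  · have h1 := mem_Fat.1 hi
    linarith
  · have h1 := mem_Fat.1 hi
    rw [abs_of_nonneg (by linarith)]
    unfold al
    linarith

/-- [S4d] pairs: `Γ = p2 (m/16 + (X'⁺_i + X'⁺_l)/4)`, `Γ²/2 = p2 (m/8 + (X'⁺_i+X'⁺_l)/2 - 1)`,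
`X' = X - 2m`; for `X i ≥ -16 m`: `1 ≤ om (X i) * p2 (al * (16 m + X⁺))`. -/
theorem fail2 {X : I → ℝ} {m m' : ℕ} (hp : Par X m m') :
    ∑ q ∈ ((Thin X m)ᶜ ×ˢ (Thin X m)ᶜ), 2 * Real.exp (-((p2 ((m : ℝ) / 16 +
      (max 0 (nx X m q.1) + max 0 (nx X m q.2)) / 4)) ^ 2 / 2)) ≤ p2 (-(3 * (m : ℝ))) := by
  have hm := hp.hmR
  have habs : ∀ i ∈ (Thin X m)ᶜ, |X i| ≤ 16 * (m : ℝ) + max 0 (nx X m i) := by
    intro i hi
    have h1 : -(16 * (m : ℝ)) ≤ X i := by
      have := Finset.mem_compl.1 hi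
      rw [mem_Thin, not_lt] at this
      exact this
    have h2 := le_max_left 0 (nx X m i)
    have h3 := le_max_right 0 (nx X m i)
    have h4 : nx X m i = X i - 2 * (m : ℝ) := rfl
    rw [abs_le]
    constructor <;> linarith
  have h1 : ∑ q ∈ ((Thin X m)ᶜ ×ˢ (Thin X m)ᶜ), 2 * Real.exp (-((p2 ((m : ℝ) / 16 +
      (max 0 (nx X m q.1) + max 0 (nx X m q.2)) / 4)) ^ 2 / 2)) ≤
      ∑ q ∈ ((Thin X m)ᶜ ×ˢ (Thin X m)ᶜ),
        p2 (-(3 * (m : ℝ)) - (m : ℝ) / 8) * (om (X q.1) * om (X q.2)) := by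
    refine Finset.sum_le_sum fun q hq => ?_
    obtain ⟨hq1, hq2⟩ := Finset.mem_product.1 hq
    have ha := habs q.1 hq1
    have hb := habs q.2 hq2
    have ha0 := le_max_left 0 (nx X m q.1)
    have hb0 := le_max_left 0 (nx X m q.2)
    refine (tail_term (by linarith)).trans ?_
    unfold om
    rw [← p2_add, ← p2_add]
    apply p2_le
    unfold al
    linarith
  refine h1.trans ?_
  rw [← Finset.mul_sum, Finset.sum_product]
  change p2 (-(3 * (m : ℝ)) - (m : ℝ) / 8) * ∑ x ∈ (Thin X m)ᶜ, ∑ y ∈ (Thin X m)ᶜ,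
    om (X x) * om (X y) ≤ _
  rw [← Finset.sum_mul_sum]
  have h2 : (∑ i ∈ (Thin X m)ᶜ, om (X i)) ≤ nn X := sum_om_le X _
  have h3 : 0 ≤ ∑ i ∈ (Thin X m)ᶜ, om (X i) := Finset.sum_nonneg fun _ _ => om_nonneg _
  have h4 : (∑ i ∈ (Thin X m)ᶜ, om (X i)) * (∑ i ∈ (Thin X m)ᶜ, om (X i)) ≤
      p2 ((m : ℝ) / 16) * p2 ((m : ℝ) / 16) :=
    mul_le_mul (h2.trans hp.hn) (h2.trans hp.hn) h3 (p2_nonneg _)
  refine (mul_le_mul_of_nonneg_left h4 (p2_nonneg _)).trans ?_
  rw [← p2_add, ← p2_add]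
  exact p2_le (by linarith)

/-- [S4e] -/
theorem fail3 {X : I → ℝ} {m m' : ℕ} (hp : Par X m m') :
    ∑ i ∈ (Thin X m)ᶜ.filter (fun i => nx X m i < 0),
      2 * Real.exp (-((p2 ((m : ℝ) / 16)) ^ 2 / 2)) ≤ p2 (-(3 * (m : ℝ))) := by
  have hm := hp.hmR
  refine fail_aux hp _ (fun _ => (m : ℝ) / 16) (fun _ _ => ?_) fun i hi => ?_
  · linarith
  · obtain ⟨h1, h2⟩ := Finset.mem_filter.1 hi
    have h3 : -(16 * (m : ℝ)) ≤ X i := by
      have := Finset.mem_compl.1 h1
      rw [mem_Thin, not_lt] at this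
      exact this
    have h4 : nx X m i = X i - 2 * (m : ℝ) := rfl
    have h5 : |X i| ≤ 16 * (m : ℝ) := by
      rw [abs_le]
      constructor <;> linarith
    unfold al
    linarith

/-- [S4f] -/
theorem fail4 {X : I → ℝ} {m m' : ℕ} (hp : Par X m m') :
    ∑ i ∈ Thin X m, 2 * Real.exp (-((p2 ((m : ℝ) / 16 - X i / 16)) ^ 2 / 2)) ≤
      p2 (-(3 * (m : ℝ))) := by
  have hm := hp.hmR
  refine fail_aux hp _ (fun i => (m : ℝ) / 16 - X i / 16) (fun i hi => ?_) fun i hi => ?_
  · have h1 := mem_Thin.1 hi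
    linarith
  · have h1 := mem_Thin.1 hi
    rw [abs_of_nonpos (by linarith)]
    unfold al
    linarith

/-- [S4g] -/
theorem fail5 {X : I → ℝ} {m m' : ℕ} (hp : Par X m m') :
    ∑ i ∈ univ.filter (fun i => nx X m i < 0),
      2 * Real.exp (-((p2 ((m : ℝ) / 16 - nx X m i / 16)) ^ 2 / 2)) ≤ p2 (-(3 * (m : ℝ))) := by
  have hm := hp.hmR
  refine fail_aux hp _ (fun i => (m : ℝ) / 16 - nx X m i / 16) (fun i hi => ?_) fun i hi => ?_
  · have h1 := (Finset.mem_filter.1 hi).2
    linarith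
  · have h1 := (Finset.mem_filter.1 hi).2
    have h4 : nx X m i = X i - 2 * (m : ℝ) := rfl
    have h5 : |X i| ≤ 2 * (m : ℝ) - nx X m i := by
      rw [abs_le]
      constructor <;> linarith
    unfold al
    linarith

/-! ### [S5] -/

section S5

variable (v : ι → I → ℝ) (X : I → ℝ) (m m' : ℕ)

/-- direct coordinates -/
noncomputable def s5f (e : ι) : I ⊕ ((I × I) ⊕ I) → ℝ
  | Sum.inl i => if i ∈ Thin X m then 0 else v e i
  | Sum.inr (Sum.inl q) => if q.1 ∈ Thin X m ∨ q.2 ∈ Thin X m then 0 else v e q.1 * v e q.2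
  | Sum.inr (Sum.inr i) => if i ∈ Thin X m then 0 else Tf v (nx X m) i e

theorem Tf_sq_le (X' : I → ℝ) (i : I) (e : ι) : Tf v X' i e ^ 2 ≤ v e i ^ 2 := by
  unfold Tf
  split_ifs
  · rw [sq_abs]
  · nlinarith [sq_nonneg (v e i)]

theorem s5f_sq (e : ι) (hv : ∑ i, v e i ^ 2 ≤ 1) : ∑ k, s5f v X m e k ^ 2 ≤ 3 := by
  rw [Fintype.sum_sum_type, Fintype.sum_sum_type]
  have h1 : ∑ i, s5f v X m e (Sum.inl i) ^ 2 ≤ 1 := by
    refine le_trans (Finset.sum_le_sum fun i _ => ?_) hv
    unfold s5f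
    simp only
    split_ifs
    · nlinarith [sq_nonneg (v e i)]
    · exact le_rfl
  have h2 : ∑ q, s5f v X m e (Sum.inr (Sum.inl q)) ^ 2 ≤ 1 := by
    have h3 : ∑ q : I × I, s5f v X m e (Sum.inr (Sum.inl q)) ^ 2 ≤
        ∑ q : I × I, v e q.1 ^ 2 * v e q.2 ^ 2 := by
      refine Finset.sum_le_sum fun q _ => ?_
      unfold s5f
      simp only
      split_ifs
      · nlinarith [mul_nonneg (sq_nonneg (v e q.1)) (sq_nonneg (v e q.2))]
      · rw [mul_pow]
    have h3' : ∑ q : I × I, v e q.1 ^ 2 * v e q.2 ^ 2 = (∑ i, v e i ^ 2) * (∑ i, v e i ^ 2) := by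
      rw [Fintype.sum_prod_type, Finset.sum_mul_sum]
    rw [h3'] at h3
    have h4 : 0 ≤ ∑ i, v e i ^ 2 := Finset.sum_nonneg fun _ _ => sq_nonneg _
    nlinarith
  have h5 : ∑ i, s5f v X m e (Sum.inr (Sum.inr i)) ^ 2 ≤ 1 := by
    refine le_trans (Finset.sum_le_sum fun i _ => ?_) hv
    unfold s5f
    simp only
    split_ifs
    · nlinarith [sq_nonneg (v e i)]
    · exact Tf_sq_le v _ i e
  linarith

/-- thresholds of the direct coordinates -/
noncomputable def s5G : I ⊕ ((I × I) ⊕ I) → ℝ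
  | Sum.inl i => p2 (X i / 32) / 128
  | Sum.inr (Sum.inl q) => p2 ((m : ℝ) / 16 + (max 0 (nx X m q.1) + max 0 (nx X m q.2)) / 4)
  | Sum.inr (Sum.inr _) => p2 ((m : ℝ) / 16)

/-- own functionals -/
noncomputable def s5h : I ⊕ (I ⊕ I) → ι → ℝ
  | Sum.inl i => fun e => tv v X m e i
  | Sum.inr (Sum.inl i) => gf v (nx X m) i
  | Sum.inr (Sum.inr i) => Rf v X m i

noncomputable def s5G' : I ⊕ (I ⊕ I) → ℝ
  | Sum.inl i => p2 ((m : ℝ) / 16 - X i / 16)
  | Sum.inr (Sum.inl i) => p2 ((m : ℝ) / 16 - nx X m i / 16)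
  | Sum.inr (Sum.inr i) => p2 ((m : ℝ) / 16 - X i / 16)

/-- chi-square families -/
noncomputable def s5A : Option (Option I) → Finset (I ⊕ ((I × I) ⊕ I))
  | none => (Mid X m).map Function.Embedding.inl
  | some none => (NewThin X m m').map
      ((Function.Embedding.inr : I ↪ (I × I) ⊕ I).trans Function.Embedding.inr)
  | some (some j) => ((Fat X m).filter (fun i => X i ≤ X j)).map Function.Embedding.inl

noncomputable def s5S : Finset (I ⊕ ((I × I) ⊕ I)) :=
  (Fat X m).disjSum (((Thin X m)ᶜ ×ˢ (Thin X m)ᶜ).disjSum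
    ((Thin X m)ᶜ.filter (fun i => nx X m i < 0)))

noncomputable def s5R : Finset (I ⊕ (I ⊕ I)) :=
  (Thin X m).disjSum ((univ.filter (fun i => nx X m i < 0)).disjSum (Thin X m))

noncomputable def s5T : Finset (Option (Option I)) :=
  insertNone (insertNone (Fat X m))

end S5

theorem s5_num {X : I → ℝ} {m m' : ℕ} (hp : Par X m m') (n : ℕ) (hn : n ≤ 2 ^ (2 * m - 1)) :
    (n : ℝ) * (∑ k ∈ s5S X m, 2 * Real.exp (-(s5G X m k ^ 2 / 2)) +
      ∑ r ∈ s5R X m, 2 * Real.exp (-(s5G' X m r ^ 2 / 2)) +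
      ∑ t ∈ s5T X m, Real.exp (-((s5A X m m' t).card : ℝ) - (2 * m + 5))) ≤ 1 / 20 := by
  have hm := hp.hmR
  have h1 : ∑ k ∈ s5S X m, 2 * Real.exp (-(s5G X m k ^ 2 / 2)) ≤ 3 * p2 (-(3 * (m : ℝ))) := by
    unfold s5S
    rw [Finset.sum_disjSum, Finset.sum_disjSum]
    have a1 := fail1 hp
    have a2 := fail2 hp
    have a3 := fail3 hp
    simp only [s5G]
    linarith
  have h2 : ∑ r ∈ s5R X m, 2 * Real.exp (-(s5G' X m r ^ 2 / 2)) ≤ 3 * p2 (-(3 * (m : ℝ))) := by
    unfold s5R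
    rw [Finset.sum_disjSum, Finset.sum_disjSum]
    have a1 := fail4 hp
    have a2 := fail5 hp
    simp only [s5G']
    linarith
  have h3 : ∑ t ∈ s5T X m, Real.exp (-((s5A X m m' t).card : ℝ) - (2 * m + 5)) ≤
      3 * Real.exp (-(2 * m + 5)) := by
    unfold s5T
    have e : ∀ c : ℝ, Real.exp (-c - (2 * m + 5)) = Real.exp (-c) * Real.exp (-(2 * m + 5)) := by
      intro c
      rw [sub_eq_add_neg, Real.exp_add]
    simp only [e]
    rw [← Finset.sum_mul]
    refine mul_le_mul_of_nonneg_right ?_ (Real.exp_pos _).le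
    rw [Finset.sum_insertNone, Finset.sum_insertNone]
    simp only [s5A, Finset.card_map]
    have a1 := rank_sum (Fat X m) X
    have a2 : Real.exp (-((Mid X m).card : ℝ)) ≤ 1 := by
      rw [Real.exp_le_one_iff]
      simp
    have a3 : Real.exp (-((NewThin X m m').card : ℝ)) ≤ 1 := by
      rw [Real.exp_le_one_iff]
      simp
    linarith
  have h4 : (n : ℝ) ≤ p2 (2 * m - 1) := by
    have h5 : (n : ℝ) ≤ (2 : ℝ) ^ (2 * m - 1) := by exact_mod_cast hn
    have h6 : (2 : ℝ) ^ (2 * m - 1) = p2 (2 * m - 1) := by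
      have h7 := p2_nat (2 * m - 1)
      have h8 : (((2 * m - 1 : ℕ)) : ℝ) = 2 * (m : ℝ) - 1 := by
        have := hp.hm
        rw [Nat.cast_sub (by omega)]
        push_cast
        ring
      rw [h8] at h7
      exact h7.symm
    rwa [h6] at h5
  have hn0 : (0 : ℝ) ≤ n := Nat.cast_nonneg n
  have h5 : (n : ℝ) * p2 (-(3 * (m : ℝ))) ≤ 1 / 1024 := by
    calc (n : ℝ) * p2 (-(3 * (m : ℝ))) ≤ p2 (2 * m - 1) * p2 (-(3 * (m : ℝ))) :=
          mul_le_mul_of_nonneg_right h4 (p2_nonneg _)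
      _ = p2 (2 * m - 1 + -(3 * (m : ℝ))) := (p2_add _ _).symm
      _ ≤ p2 (-10) := p2_le (by linarith)
      _ = 1 / 1024 := by
        rw [p2_neg]
        have := p2_nat 10
        norm_num at this
        rw [this]
        norm_num
  have h6 : (n : ℝ) * Real.exp (-(2 * m + 5)) ≤ 1 / 100 := by
    have h7 : p2 (2 * m - 1) ≤ Real.exp (2 * m) / 2 := by
      rw [p2_sub, p2_one]
      apply div_le_div_of_nonneg_right _ (by norm_num)
      unfold p2
      rw [Real.rpow_def_of_pos (by norm_num)]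
      apply Real.exp_le_exp.2
      have := Real.log_two_lt_d9
      nlinarith
    have h8 : Real.exp (-(2 * (m : ℝ) + 5)) = Real.exp (-(2 * m)) * Real.exp (-5) := by
      rw [← Real.exp_add]
      congr 1
      ring
    have h9 : Real.exp (2 * (m : ℝ)) * Real.exp (-(2 * m)) = 1 := by
      rw [← Real.exp_add]
      simp
    have h10 : Real.exp (-5 : ℝ) ≤ 1 / 50 := by
      rw [Real.exp_neg, inv_eq_one_div]
      apply one_div_le_one_div_of_le (by norm_num)
      have h11 : Real.exp (5 : ℝ) = Real.exp 1 ^ 5 := by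
        rw [← Real.exp_nat_mul]
        norm_num
      have h12 : (2.7182818283 : ℝ) < Real.exp 1 := Real.exp_one_gt_d9
      rw [h11]
      calc (50 : ℝ) ≤ 2.7 ^ 5 := by norm_num
        _ ≤ Real.exp 1 ^ 5 := pow_le_pow_left₀ (by norm_num) (by linarith) 5
    calc (n : ℝ) * Real.exp (-(2 * m + 5))
        ≤ (Real.exp (2 * m) / 2) * Real.exp (-(2 * m + 5)) :=
          mul_le_mul_of_nonneg_right (h4.trans h7) (Real.exp_pos _).le
      _ = (Real.exp (2 * m) * Real.exp (-(2 * m))) * Real.exp (-5) / 2 := by rw [h8]; ring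
      _ = Real.exp (-5) / 2 := by rw [h9, one_mul]
      _ ≤ 1 / 100 := by linarith
  calc _ ≤ (n : ℝ) * (3 * p2 (-(3 * (m : ℝ))) + 3 * p2 (-(3 * (m : ℝ))) +
        3 * Real.exp (-(2 * m + 5))) := by
        apply mul_le_mul_of_nonneg_left _ hn0
        linarith
    _ = 6 * ((n : ℝ) * p2 (-(3 * (m : ℝ)))) + 3 * ((n : ℝ) * Real.exp (-(2 * m + 5))) := by ring
    _ ≤ 6 * (1 / 1024) + 3 * (1 / 100) := by linarith
    _ ≤ 1 / 20 := by norm_num

/-- [S5] signing inside the body.  Direct coordinates `κ = I ⊕ (I × I) ⊕ I`: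
`v e i` (`i ∉ Thin`, else `0`), `v e i * v e l` (`i, l ∉ Thin`, else `0`), `Tf v (nx X m) i e`
(`i ∉ Thin` and `nx X m i < 0`, else `0`); each group has square sum `≤ 1`.  Own functionals
`R = I ⊕ I ⊕ I`: `tv`, `gf`, `Rf`.  `s = 2 m + 5`, `n ≤ 2^(2m-1)`.
Chi-square families: `Mid`, `NewThin`, the prefixes of `Fat`. -/
theorem wgood_sign [Fintype ι] {v : ι → I → ℝ} {G : Finset ι} {X : I → ℝ} {m m' : ℕ}
    (hp : Par X m m') (hv : ∀ e ∈ G, ∑ i, v e i ^ 2 ≤ 1) (n : ℕ) (pos : ι → ℕ) (x : ι → ℝ)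
    (hn : n ≤ 2 ^ (2 * m - 1)) (hx : ∀ e ∈ G, |x e| ≤ 1 / 2) :
    ∃ ε : ι → ℝ, (∀ e, ε e = 1 ∨ ε e = -1) ∧ ∀ j, 1 ≤ j → j ≤ n →
      WGood v G X m m' (fun e => if pos e < j then ε e - x e else 0) := by
  have hm := hp.hmR
  obtain ⟨ε, hε, hall⟩ := signing (s5f v X m) G (fun e he => s5f_sq v X m e (hv e he))
    (s5S X m) (s5G X m) (fun k _ => by
      rcases k with i | q | i
      · exact div_nonneg (p2_nonneg _) (by norm_num)
      · exact p2_nonneg _
      · exact p2_nonneg _)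
    (s5R X m) (s5h v X m) (s5G' X m) (fun r _ => by
      rcases r with i | i | i <;> exact p2_nonneg _)
    (s5T X m) (s5A X m m') (2 * m + 5) (by positivity) n (s5_num hp n hn) pos x hx
  refine ⟨ε, hε, fun j hj1 hjn => ?_⟩
  obtain ⟨H1, H2, H3⟩ := hall j hj1 hjn
  set y : ι → ℝ := fun e => if pos e < j then ε e - x e else 0 with hy
  have hnotThin_of_Fat : ∀ i ∈ Fat X m, i ∉ Thin X m := by
    intro i hi hc
    have h1 := mem_Fat.1 hi
    have h2 := mem_Thin.1 hc
    linarith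
  have hnotThin_of_Mid : ∀ i ∈ Mid X m, i ∉ Thin X m := by
    intro i hi hc
    have h1 := (mem_Mid.1 hi).1
    have h2 := mem_Thin.1 hc
    linarith
  have f1 : ∀ i, i ∉ Thin X m → (fun e => s5f v X m e (Sum.inl i)) = fun e => v e i := by
    intro i hi
    funext e
    simp only [s5f, if_neg hi]
  have f2 : ∀ i l, i ∉ Thin X m → l ∉ Thin X m →
      (fun e => s5f v X m e (Sum.inr (Sum.inl (i, l)))) = fun e => v e i * v e l := by
    intro i l hi hl
    funext e
    simp only [s5f]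
    rw [if_neg (not_or.2 ⟨hi, hl⟩)]
  have f3 : ∀ i, i ∉ Thin X m →
      (fun e => s5f v X m e (Sum.inr (Sum.inr i))) = Tf v (nx X m) i := by
    intro i hi
    funext e
    simp only [s5f, if_neg hi]
  constructor
  · intro i hi
    have h := H1 (Sum.inl i) (by
      unfold s5S
      exact Finset.inl_mem_disjSum.2 hi)
    rw [f1 i (hnotThin_of_Fat i hi)] at h
    refine h.trans (le_of_eq ?_)
    simp only [s5G]
    ring
  · intro i l hi hl
    have h := H1 (Sum.inr (Sum.inl (i, l))) (by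
      unfold s5S
      rw [Finset.inr_mem_disjSum, Finset.inl_mem_disjSum, Finset.mem_product]
      exact ⟨Finset.mem_compl.2 hi, Finset.mem_compl.2 hl⟩)
    rw [f2 i l hi hl] at h
    exact h
  · intro i hi hi'
    have h := H1 (Sum.inr (Sum.inr i)) (by
      unfold s5S
      rw [Finset.inr_mem_disjSum, Finset.inr_mem_disjSum, Finset.mem_filter]
      exact ⟨Finset.mem_compl.2 hi, hi'⟩)
    rw [f3 i hi] at h
    exact h
  · intro i hi
    exact H2 (Sum.inl i) (by
      unfold s5R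
      exact Finset.inl_mem_disjSum.2 hi)
  · intro i hi
    exact H2 (Sum.inr (Sum.inl i)) (by
      unfold s5R
      rw [Finset.inr_mem_disjSum, Finset.inl_mem_disjSum]
      exact Finset.mem_filter.2 ⟨Finset.mem_univ i, hi⟩)
  · intro i hi
    exact H2 (Sum.inr (Sum.inr i)) (by
      unfold s5R
      rw [Finset.inr_mem_disjSum, Finset.inr_mem_disjSum]
      exact hi)
  · have h := H3 none (by
      unfold s5T
      exact Finset.none_mem_insertNone)
    simp only [s5A, Finset.sum_map, Finset.card_map] at h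
    refine le_trans (le_of_eq (Finset.sum_congr rfl fun i hi => ?_)) h
    have := f1 i (hnotThin_of_Mid i hi)
    simp only [Function.Embedding.inl_apply]
    rw [this]
  · intro j' hj'
    have h := H3 (some (some j')) (by
      unfold s5T
      rw [Finset.some_mem_insertNone, Finset.some_mem_insertNone]
      exact hj')
    simp only [s5A, Finset.sum_map, Finset.card_map] at h
    refine le_trans (le_of_eq (Finset.sum_congr rfl fun i hi => ?_)) h
    have := f1 i (hnotThin_of_Fat i (Finset.mem_filter.1 hi).1)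
    simp only [Function.Embedding.inl_apply]
    rw [this]
  · have h := H3 (some none) (by
      unfold s5T
      rw [Finset.some_mem_insertNone]
      exact Finset.none_mem_insertNone)
    simp only [s5A, Finset.sum_map, Finset.card_map] at h
    refine le_trans (le_of_eq (Finset.sum_congr rfl fun i hi => ?_)) h
    have := f3 i (Finset.mem_sdiff.1 hi).2
    simp only [Function.Embedding.trans_apply, Function.Embedding.inr_apply]
    rw [this]

end P262C
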