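import Vale.Agent.P262.Full.WSign
import Vale.Agent.P262.Full.Fold
import Vale.Agent.P262.Full.Steer

/-!
# P262 full: [W1] the window, [W2] children as differences of checkpoints
-/

open Finset

namespace P262C

variable {ι I : Type} [Fintype I] [DecidableEq I] [DecidableEq ι]

/-- Result of a window of `2 m` folds with soft-threshold steering on the fat directions. -/
structure WSplit (v : ι → I → ℝ) (G : Finset ι) (X : I → ℝ) (m m' : ℕ) (a c : I → ℝ)
    (pos : ι → ℕ) : Prop where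
  lt : ∀ e ∈ G, pos e < 2 ^ (2 * m)
  chk : ∀ j, 1 ≤ j → j < 2 ^ (2 * m) → ∃ k d : ι → ℝ, WGood v G X m m' k ∧ WDrift v G X m d ∧
    (∀ e ∈ G, (if pos e < j then (1 : ℝ) else 0) - j / 2 ^ (2 * m) = k e + d e) ∧
    ∀ i ∈ Fat X m, ∑ e ∈ G, d e * v e i =
      -((1 - (j : ℝ) / 2 ^ (2 * m)) * cl (X i) (a i) + ((j : ℝ) / 2 ^ (2 * m)) * cl (X i) (c i))

theorem abs_cl_le (x z : ℝ) : |cl x z| ≤ p2 (x / 32) := by
  unfold cl
  rw [abs_le]
  have h := p2_nonneg (x / 32)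
  refine ⟨le_max_left _ _, max_le (by linarith) (min_le_left _ _)⟩

/-- [W1] from [F], [S3], [S5], [L2] (`|cl x z| ≤ p2 (x/32)`). -/
theorem window_pos [Fintype ι] {v : ι → I → ℝ} {G : Finset ι} {X : I → ℝ} {m m' : ℕ}
    (hp : Par X m m') (hv : ∀ e ∈ G, ∑ i, v e i ^ 2 ≤ 1)
    (hgram : ∀ i l, i ∉ Thin X m → l ∉ Thin X m →
      |∑ e ∈ G, v e i * v e l - (if i = l then p2 (X i) else 0)| ≤
        p2 ((m : ℝ) / 8 + (max 0 (X i) + max 0 (X l)) / 4)) (a c : I → ℝ) :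
    ∃ pos : ι → ℕ, WSplit v G X m m' a c pos := by
  have hm := hp.hm
  obtain ⟨pos, hpos, hchk⟩ := fold G (Fat X m) v (2 * m) (by omega) (WGood v G X m m')
    (WDrift v G X m) (WGood.zero v G X m m') (WDrift.zero v G X m)
    (fun y z hy hz => hy.half hz) (fun y hy => hy.neg) (fun y z hy hz => hy.half hz)
    (fun y hy => hy.neg) (fun i => cl (X i) (a i)) (fun i => cl (X i) (c i))
    (fun n pos x hn hx => wgood_sign hp hv n pos x hn hx)
    (fun l H k d hl hH hk hd hind w hw => by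
      refine wsteer hp hv hgram l hl hH k d hk hd hind w ?_
      intro i _
      have h1 := abs_cl_le (X i) (a i)
      have h2 := abs_cl_le (X i) (c i)
      rcases hw with hw | hw
      · rw [hw i]
        refine (abs_sub _ _).trans ?_
        linarith
      · rw [hw i, abs_neg]
        refine (abs_add_le _ _).trans ?_
        linarith)
  exact ⟨pos, hpos, hchk⟩

theorem pr_zero (G : Finset ι) (φ : ι → ℝ) : pr G 0 φ = 0 := by
  simp [pr]

/-- all checkpoints, including `0` and `2^(2m)` -/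
theorem WSplit.chk' {v : ι → I → ℝ} {G : Finset ι} {X : I → ℝ} {m m' : ℕ} {a c : I → ℝ}
    {pos : ι → ℕ} (h : WSplit v G X m m' a c pos) (j : ℕ) (hj : j ≤ 2 ^ (2 * m)) :
    ∃ k d : ι → ℝ, WGood v G X m m' k ∧ WDrift v G X m d ∧
    (∀ e ∈ G, (if pos e < j then (1 : ℝ) else 0) - j / 2 ^ (2 * m) = k e + d e) := by
  rcases Nat.eq_zero_or_pos j with rfl | hj0
  · refine ⟨0, 0, WGood.zero v G X m m', WDrift.zero v G X m, ?_⟩
    intro e _
    simp
  rcases hj.eq_or_lt with hj1 | hj1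
  · refine ⟨0, 0, WGood.zero v G X m m', WDrift.zero v G X m, ?_⟩
    intro e he
    have h1 := h.lt e he
    rw [if_pos (by omega), hj1]
    push_cast
    rw [div_self (by positivity)]
    simp
  · obtain ⟨k, d, hk, hd, h1, _⟩ := h.chk j hj0 hj1
    exact ⟨k, d, hk, hd, h1⟩

/-- prefix functionals -/
theorem chk_fun {G : Finset ι} {m : ℕ} {pos : ι → ℕ} {j : ℕ} {k d : ι → ℝ}
    (h : ∀ e ∈ G, (if pos e < j then (1 : ℝ) else 0) - j / 2 ^ (2 * m) = k e + d e)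
    (φ : ι → ℝ) : ∑ e ∈ G.filter (fun e => pos e < j), φ e =
      (j / 2 ^ (2 * m)) * (∑ e ∈ G, φ e) + pr G k φ + pr G d φ := by
  rw [Finset.sum_filter, Finset.mul_sum, pr, pr, ← Finset.sum_add_distrib,
    ← Finset.sum_add_distrib]
  refine Finset.sum_congr rfl fun e he => ?_
  have h1 := h e he
  split_ifs at h1 ⊢ with h2
  · linear_combination (φ e) * h1
  · linear_combination (φ e) * h1

/-- [W2] `1[pos = j] = 1[pos < j+1] - 1[pos < j]`; for `j = 0` and `j + 1 = 2^(2m)` the missing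
checkpoint has `k = d = 0`. -/
theorem child_fun {v : ι → I → ℝ} {G : Finset ι} {X : I → ℝ} {m m' : ℕ} {a c : I → ℝ}
    {pos : ι → ℕ} (h : WSplit v G X m m' a c pos) (j : ℕ) (hj : j < 2 ^ (2 * m)) :
    ∃ k₀ d₀ k₁ d₁ : ι → ℝ, WGood v G X m m' k₀ ∧ WDrift v G X m d₀ ∧ WGood v G X m m' k₁ ∧
      WDrift v G X m d₁ ∧ ∀ φ : ι → ℝ, ∑ e ∈ G.filter (fun e => pos e = j), φ e =
        (∑ e ∈ G, φ e) / 2 ^ (2 * m) + pr G k₁ φ + pr G d₁ φ - pr G k₀ φ - pr G d₀ φ := by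
  obtain ⟨k₀, d₀, hk₀, hd₀, h₀⟩ := h.chk' j hj.le
  obtain ⟨k₁, d₁, hk₁, hd₁, h₁⟩ := h.chk' (j + 1) hj
  refine ⟨k₀, d₀, k₁, d₁, hk₀, hd₀, hk₁, hd₁, fun φ => ?_⟩
  have e₀ := chk_fun h₀ φ
  have e₁ := chk_fun h₁ φ
  have e₂ : ∑ e ∈ G.filter (fun e => pos e < j + 1), φ e =
      ∑ e ∈ G.filter (fun e => pos e < j), φ e + ∑ e ∈ G.filter (fun e => pos e = j), φ e := by
    rw [Finset.sum_filter, Finset.sum_filter, Finset.sum_filter, ← Finset.sum_add_distrib]
    refine Finset.sum_congr rfl fun e _ => ?_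
    rcases lt_trichotomy (pos e) j with h | h | h
    · rw [if_pos (by omega), if_pos h, if_neg (by omega), add_zero]
    · rw [if_pos (by omega), if_neg (by omega), if_pos h, zero_add]
    · rw [if_neg (by omega), if_neg (by omega), if_neg (by omega), add_zero]
  push_cast at e₁
  have e₃ : ((j : ℝ) + 1) / 2 ^ (2 * m) = (j : ℝ) / 2 ^ (2 * m) + 1 / 2 ^ (2 * m) := by ring
  rw [e₃] at e₁
  rw [e₂, e₀] at e₁
  linear_combination e₁

/-- [W3] drifts against own functionals: Cauchy-Schwarz with `∑ d² ≤ 1`. -/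
theorem drift_own {v : ι → I → ℝ} {G : Finset ι} {X : I → ℝ} {m : ℕ} {d : ι → ℝ}
    (h : WDrift v G X m d) (φ : ι → ℝ) : |pr G d φ| ≤ Real.sqrt (∑ e ∈ G, φ e ^ 2) := by
  apply Real.abs_le_sqrt
  unfold pr
  refine (Finset.sum_mul_sq_le_sq_mul_sq G d φ).trans ?_
  have h1 := h.d0
  have h2 : 0 ≤ ∑ e ∈ G, φ e ^ 2 := Finset.sum_nonneg fun _ _ => sq_nonneg _
  nlinarith

end P262C
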